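import Mathlib

/-! Basic notation for the P130 development: characters of the unit circle, representatives. -/

namespace Vale.Agent.P130

open MeasureTheory Complex Real Filter Topology
open scoped ComplexConjugate ENNReal

noncomputable section

/-- Normalized Haar measure on the unit circle. -/
abbrev hm : Measure UnitAddCircle := AddCircle.haarAddCircle

/-- `ex t = exp (2 π i t)`. -/
def ex (x : UnitAddCircle) : ℂ := fourier 1 x

theorem hm_eq_volume : hm = (volume : Measure UnitAddCircle) := by
  simp [hm, AddCircle.volume_eq_smul_haarAddCircle]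

instance : NullSingletonClass hm := ⟨fun x => by
  rw [hm_eq_volume, ← Metric.closedBall_zero, AddCircle.volume_closedBall]; simp⟩

theorem ex_coe (t : ℝ) : ex (t : UnitAddCircle) = cexp (2 * π * I * t) := by
  rw [ex, fourier_coe_apply]; simp

theorem fourier_eq_ex (n : ℤ) (x : UnitAddCircle) : fourier n x = ex (n • x) := by
  simp [ex, fourier_apply]

@[simp] theorem ex_zero : ex 0 = 1 := fourier_eval_zero 1

theorem ex_add (x y : UnitAddCircle) : ex (x + y) = ex x * ex y := by
  simp [ex, fourier_apply, AddCircle.toCircle_add]

theorem ex_neg (x : UnitAddCircle) : ex (-x) = conj (ex x) := by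
  simp [ex, fourier_apply, AddCircle.toCircle_neg, ← Circle.coe_inv_eq_conj]

theorem norm_ex (x : UnitAddCircle) : ‖ex x‖ = 1 := Circle.norm_coe _

theorem continuous_ex : Continuous ex := (fourier 1).continuous

theorem norm_fourier_apply (n : ℤ) (x : UnitAddCircle) : ‖fourier n x‖ = 1 := Circle.norm_coe _

theorem integral_fourier (n : ℤ) :
    ∫ x, fourier n x ∂hm = if n = 0 then 1 else 0 := by
  have h := congrFun (fourierCoeff_fourier (T := (1:ℝ)) n) 0
  simp only [fourierCoeff, neg_zero, fourier_zero, one_smul] at h
  rw [h, Pi.single_apply]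
  simp [eq_comm]

/-- The representative in `[0, 1)`. -/
def rep (x : UnitAddCircle) : ℝ := (AddCircle.equivIco 1 0 x : ℝ)

theorem rep_nonneg (x : UnitAddCircle) : 0 ≤ rep x := (AddCircle.equivIco 1 0 x).2.1

theorem rep_lt_one (x : UnitAddCircle) : rep x < 1 := by
  have := (AddCircle.equivIco 1 0 x).2.2; simpa [rep] using this

theorem rep_coe (t : ℝ) : rep (t : UnitAddCircle) = Int.fract t := by
  rw [rep, AddCircle.coe_equivIco_mk_apply]; simp

theorem coe_rep (x : UnitAddCircle) : ((rep x : ℝ) : UnitAddCircle) = x :=
  AddCircle.coe_equivIco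

theorem measurable_rep : Measurable rep :=
  measurable_subtype_coe.comp (AddCircle.measurableEquivIco 1 0).measurable

end

end Vale.Agent.P130
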