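import Vale.Agent.P130.Basic

/-! Flatness of a slow chirp on its band, and of an assembled piece pattern on its comb of bands. -/

namespace Vale.Agent.P130

open MeasureTheory Complex Real Filter Topology
open scoped ComplexConjugate ENNReal

noncomputable section

/-- `c i = exp (-2 π i i² / (4 M L))`. -/
def cc (M L : ℕ) (i : ℕ) : ℂ := cexp (((-2 * π * (i:ℝ)^2 / (4 * M * L) : ℝ) : ℂ) * I)

theorem norm_cc (M L i : ℕ) : ‖cc M L i‖ = 1 := Complex.norm_exp_ofReal_mul_I _

/-- the chirp sum -/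
def chirpSum (M L : ℕ) : C(UnitAddCircle, ℂ) := ∑ i ∈ Finset.range L, cc M L i • fourier (i:ℤ)

theorem chirpSum_apply (M L : ℕ) (x : UnitAddCircle) :
    chirpSum M L x = ∑ i ∈ Finset.range L, cc M L i * fourier (i:ℤ) x := by
  simp [chirpSum, ContinuousMap.coe_sum, Finset.sum_apply, -fourier_apply]

/-- indicator of `[0, 1/(2M))` -/
def bandI (M : ℕ) (x : UnitAddCircle) : ℝ := if rep x < 1 / (2 * M) then 1 else 0

/-- indicator of the comb `fract (M x) < 1/2` -/
def chi (M : ℕ) (x : UnitAddCircle) : ℝ := if Int.fract ((M:ℝ) * rep x) < 1 / 2 then 1 else 0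

theorem measurable_bandI (M : ℕ) : Measurable (bandI M) :=
  Measurable.ite (measurableSet_lt measurable_rep measurable_const) measurable_const
    measurable_const

theorem measurable_chi (M : ℕ) : Measurable (chi M) :=
  Measurable.ite (measurableSet_lt (measurable_rep.const_mul _).fract measurable_const)
    measurable_const measurable_const

theorem chi_eq_zero_or_one (M : ℕ) (x : UnitAddCircle) : chi M x = 0 ∨ chi M x = 1 := by
  unfold chi; split_ifs <;> simp

theorem abs_chi_le (M : ℕ) (x : UnitAddCircle) : |chi M x| ≤ 1 := by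
  rcases chi_eq_zero_or_one M x with h | h <;> simp [h]

theorem abs_bandI_le (M : ℕ) (x : UnitAddCircle) : |bandI M x| ≤ 1 := by
  unfold bandI; split_ifs <;> simp

/-- `|S|²/L - 2M·1_I`. -/
def dev (M L : ℕ) (x : UnitAddCircle) : ℝ :=
  ‖chirpSum M L x‖ ^ 2 / L - 2 * M * bandI M x

theorem measurable_dev (M L : ℕ) : Measurable (dev M L) :=
  (((chirpSum M L).continuous.norm.measurable.pow_const 2).div_const _).sub
    ((measurable_bandI M).const_mul _)

theorem dev_memLp (M L : ℕ) : MemLp (fun x => (dev M L x : ℂ)) 2 hm := by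
  refine MemLp.of_bound (Complex.continuous_ofReal.measurable.comp
    (measurable_dev M L)).aestronglyMeasurable (‖chirpSum M L‖ ^ 2 / L + 2 * M) ?_
  refine Filter.Eventually.of_forall fun x => ?_
  rw [Complex.norm_real, Real.norm_eq_abs, dev]
  refine (abs_sub _ _).trans (add_le_add ?_ ?_)
  · rw [abs_div, abs_pow, abs_norm, Nat.abs_cast]
    gcongr
    exact ContinuousMap.norm_coe_le_norm _ x
  · rw [abs_mul]
    simpa using mul_le_mul_of_nonneg_left (abs_bandI_le M x) (show (0:ℝ) ≤ |2 * (M:ℝ)| by positivity)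

/-- autocorrelation at a lag `d ≥ 0` -/
def autoc (M L d : ℕ) : ℂ := ∑ k ∈ Finset.range (L - d), cc M L (k + d) * conj (cc M L k)

theorem fourierCoeff_normSq (M L d : ℕ) :
    fourierCoeff (fun x => ((‖chirpSum M L x‖ ^ 2 : ℝ) : ℂ)) (d:ℤ) = autoc M L d := by
  have key : ∀ x : UnitAddCircle, fourier (-(d:ℤ)) x • ((‖chirpSum M L x‖ ^ 2 : ℝ) : ℂ)
      = ∑ i ∈ Finset.range L, ∑ k ∈ Finset.range L,
          (cc M L i * conj (cc M L k)) * fourier ((i:ℤ) - k - d) x := by
    intro x
    rw [Complex.ofReal_pow, ← Complex.mul_conj', chirpSum_apply, map_sum, Finset.sum_mul_sum,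
      smul_eq_mul, Finset.mul_sum]
    refine Finset.sum_congr rfl fun i _ => ?_
    rw [Finset.mul_sum]
    refine Finset.sum_congr rfl fun k _ => ?_
    rw [map_mul, ← fourier_neg, show ((i:ℤ) - k - d) = -(d:ℤ) + ((i:ℤ) + -(k:ℤ)) by ring,
      fourier_add, fourier_add]
    ring
  rw [fourierCoeff]
  simp_rw [key]
  have hint : ∀ (a : ℂ) (n : ℤ), Integrable (fun x => a * fourier n x) hm := fun a n =>
    ((fourier n).continuous.const_smul a).integrable_of_hasCompactSupport (HasCompactSupport.of_compactSpace _)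
  rw [integral_finsetSum _ fun i _ => integrable_finsetSum _ fun k _ => hint _ _]
  rw [Finset.sum_congr rfl fun i _ => integral_finsetSum _ fun k _ => hint _ _]
  simp_rw [integral_const_mul, integral_fourier]
  rw [Finset.sum_comm, autoc]
  have hpt : ∀ k ∈ Finset.range L, (∑ i ∈ Finset.range L,
      cc M L i * conj (cc M L k) * (if (i:ℤ) - k - d = 0 then (1:ℂ) else 0))
      = if k + d < L then cc M L (k + d) * conj (cc M L k) else 0 := by
    intro k _
    have hiff : ∀ i : ℕ, ((i:ℤ) - k - d = 0) ↔ k + d = i := by intro i; omega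
    simp_rw [hiff, mul_ite, mul_one, mul_zero, Finset.sum_ite_eq, Finset.mem_range]
  rw [Finset.sum_congr rfl hpt, ← Finset.sum_filter]
  congr 1
  ext k; simp; omega

/-- phase step of the lag-`d` autocorrelation -/
def rot (M L d : ℕ) : ℂ := cexp (((-(π * d) / (M * L) : ℝ) : ℂ) * I)

theorem autoc_eq (M L d : ℕ) :
    autoc M L d = cc M L d * ∑ k ∈ Finset.range (L - d), rot M L d ^ k := by
  rw [autoc, Finset.mul_sum]
  refine Finset.sum_congr rfl fun k _ => ?_
  simp only [cc, rot, ← Complex.exp_conj, map_mul, Complex.conj_ofReal, Complex.conj_I,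
    ← Complex.exp_nat_mul, ← Complex.exp_add]
  congr 1
  push_cast
  ring

theorem norm_autoc_le (M L d : ℕ) (hM : 1 ≤ M) (hd : 1 ≤ d) :
    ‖autoc M L d‖ ≤ (M:ℝ) * L / d := by
  rcases le_or_gt L d with h | h
  · simp [autoc, Nat.sub_eq_zero_of_le h]; positivity
  rw [autoc_eq, norm_mul, norm_cc, one_mul]
  have hML : (0:ℝ) < M * L := by
    have : 0 < M * L := Nat.mul_pos hM (by omega)
    exact_mod_cast this
  set θ : ℝ := π * d / (M * L) with hθ
  have hθ0 : 0 ≤ θ := by positivity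
  have hdle : (d:ℝ) ≤ M * L := by
    have : d ≤ M * L := h.le.trans (Nat.le_mul_of_pos_left L hM)
    exact_mod_cast this
  have hθpi : θ ≤ π := by
    rw [hθ, div_le_iff₀ hML]; gcongr
  have hlow : 2 * (d:ℝ) / (M * L) ≤ ‖rot M L d - 1‖ := by
    have h2 : rot M L d = cexp (I * ((-θ : ℝ) : ℂ)) := by
      rw [rot, hθ, mul_comm, neg_div]
    rw [h2, Complex.norm_exp_I_mul_ofReal_sub_one, Real.norm_eq_abs, neg_div, Real.sin_neg, abs_mul,
      abs_neg, abs_two]
    have := Real.mul_le_sin (x := θ / 2) (by positivity) (by linarith)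
    calc 2 * (d:ℝ) / (M * L) = 2 * (2 / π * (θ / 2)) := by rw [hθ]; field_simp
    _ ≤ 2 * |Real.sin (θ / 2)| := by gcongr; exact this.trans (le_abs_self _)
  have hg := geom_sum_mul (rot M L d) (L - d)
  have h3 : ‖rot M L d ^ (L - d) - 1‖ ≤ 2 := by
    refine (norm_sub_le _ _).trans ?_
    rw [norm_pow, rot, Complex.norm_exp_ofReal_mul_I]; norm_num
  rw [← hg, norm_mul] at h3
  have hpos : (0:ℝ) < 2 * (d:ℝ) / (M * L) := by positivity
  calc _ ≤ 2 / (2 * (d:ℝ) / (M * L)) := by
        rw [le_div_iff₀ hpos]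
        exact (mul_le_mul_of_nonneg_left hlow (norm_nonneg _)).trans h3
  _ = (M:ℝ) * L / d := by field_simp

theorem norm_autoc_le' (M L d : ℕ) : ‖autoc M L d‖ ≤ L := by
  refine (norm_sum_le _ _).trans ?_
  simp [norm_cc]

/-- the limiting coefficient -/
def gcoef (M d : ℕ) : ℂ :=
  if d = 0 then 1 else (cexp (((-(π * d) / M : ℝ) : ℂ) * I) - 1) / (((-(π * d) / M : ℝ) : ℂ) * I)

theorem tendsto_autoc (M d : ℕ) (hM : 1 ≤ M) :
    Tendsto (fun L : ℕ => autoc M L d / (L:ℂ)) atTop (𝓝 (gcoef M d)) := by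
  rcases Nat.eq_zero_or_pos d with rfl | hd
  · refine tendsto_const_nhds.congr' ?_
    filter_upwards [eventually_ge_atTop 1] with L hL
    have hL' : (L:ℂ) ≠ 0 := by exact_mod_cast (by omega : L ≠ 0)
    simp [autoc_eq, gcoef, rot, cc, hL']
  set c : ℂ := ((-(π * d) / M : ℝ) : ℂ) * I with hc
  have hc0 : c ≠ 0 := by
    apply mul_ne_zero _ Complex.I_ne_zero
    rw [Complex.ofReal_ne_zero]
    have : (0:ℝ) < π * d / M := by positivity
    rw [neg_div]; linarith
  have hinv : Tendsto (fun L : ℕ => (L:ℂ)⁻¹) atTop (𝓝[≠] 0) := by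
    refine tendsto_nhdsWithin_iff.2 ⟨?_, ?_⟩
    · simpa using tendsto_inv_atTop_nhds_zero_nat (𝕜 := ℂ)
    · filter_upwards [eventually_ge_atTop 1] with L hL
      simp; omega
  have hslope : Tendsto (fun L : ℕ => (L:ℂ) * (cexp (c * (L:ℂ)⁻¹) - 1)) atTop (𝓝 c) := by
    have hder : HasDerivAt (fun x : ℂ => cexp (c * x)) c 0 := by
      simpa using ((hasDerivAt_id (0:ℂ)).const_mul c).cexp
    have := (hasDerivAt_iff_tendsto_slope_zero.1 hder).comp hinv
    simpa [Function.comp_def] using this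
  have hcc : Tendsto (fun L : ℕ => cc M L d) atTop (𝓝 1) := by
    have h1 : Tendsto (fun L : ℕ => ((-2 * π * (d:ℝ)^2 / (4 * M)) * (L:ℝ)⁻¹ : ℝ)) atTop (𝓝 0) := by
      have := (tendsto_inv_atTop_nhds_zero_nat (𝕜 := ℝ)).const_mul (-2 * π * (d:ℝ)^2 / (4 * M))
      rwa [mul_zero] at this
    have h2 : Continuous fun t : ℝ => cexp ((t:ℂ) * I) := by fun_prop
    have := (h2.tendsto 0).comp h1
    simp only [Complex.ofReal_zero, zero_mul, Complex.exp_zero] at this
    refine this.congr fun L => ?_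
    simp only [Function.comp_apply, cc]
    congr 3
    ring
  have hpow : Tendsto (fun L : ℕ => cexp (c * (1 - (d:ℂ) * (L:ℂ)⁻¹))) atTop (𝓝 (cexp c)) := by
    have h1 : Tendsto (fun L : ℕ => c * (1 - (d:ℂ) * (L:ℂ)⁻¹)) atTop (𝓝 c) := by
      simpa using (((tendsto_inv_atTop_nhds_zero_nat (𝕜 := ℂ)).const_mul (d:ℂ)).const_sub 1).const_mul c
    exact (Complex.continuous_exp.tendsto c).comp h1
  have hlim : gcoef M d = 1 * ((cexp c - 1) / c) := by
    simp [gcoef, hd.ne', hc]
  rw [hlim]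
  refine (hcc.mul ((hpow.sub_const 1).div hslope hc0)).congr' ?_
  filter_upwards [eventually_ge_atTop (d + 1)] with L hL
  have hL' : (L:ℂ) ≠ 0 := by exact_mod_cast (by omega : L ≠ 0)
  have hM' : (M:ℂ) ≠ 0 := by exact_mod_cast (by omega : M ≠ 0)
  have hrot : rot M L d = cexp (c * (L:ℂ)⁻¹) := by
    rw [rot, hc]; congr 1; push_cast; field_simp
  have hne : cexp (c * (L:ℂ)⁻¹) ≠ 1 := by
    intro hh
    have h0 := norm_autoc_le M L d hM hd
    rw [autoc_eq, hrot, hh] at h0
    simp [norm_cc, Nat.cast_sub (by omega : d ≤ L)] at h0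
    have hr : (rot M L d - 1) = 0 := by rw [hrot, hh, sub_self]
    have h2 : rot M L d = cexp (I * ((-(π * d / (M * L)) : ℝ) : ℂ)) := by
      rw [rot, mul_comm, neg_div]
    rw [h2] at hr
    have h3 := congrArg norm hr
    rw [Complex.norm_exp_I_mul_ofReal_sub_one, norm_zero, norm_eq_zero, mul_eq_zero] at h3
    rcases h3 with h3 | h3
    · norm_num at h3
    rw [neg_div, Real.sin_neg, neg_eq_zero] at h3
    have hML : (0:ℝ) < M * L := by
      have : 0 < M * L := Nat.mul_pos hM (by omega)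
      exact_mod_cast this
    have hdle : (d:ℝ) ≤ M * L := by
      have : d ≤ M * L := (by omega : d ≤ L).trans (Nat.le_mul_of_pos_left L hM)
      exact_mod_cast this
    have hq : π * d / (M * L) ≤ π := by rw [div_le_iff₀ hML]; gcongr
    have hp : 0 < π * d / (M * L) := by positivity
    have := Real.sin_pos_of_pos_of_lt_pi (x := π * d / (M * L) / 2) (by linarith)
      (by linarith [Real.pi_pos])
    linarith
  rw [autoc_eq, geom_sum_eq (by rwa [hrot]), hrot, ← Complex.exp_nat_mul]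
  rw [Nat.cast_sub (by omega : d ≤ L)]
  have : ((L:ℂ) - d) * (c * (L:ℂ)⁻¹) = c * (1 - d * (L:ℂ)⁻¹) := by field_simp
  rw [this]
  simp only [Pi.div_apply]
  field_simp

theorem fourierCoeff_bandI (M : ℕ) (hM : 1 ≤ M) (d : ℕ) :
    fourierCoeff (fun x => ((2 * M * bandI M x : ℝ) : ℂ)) (d:ℤ) = gcoef M d := by
  rw [fourierCoeff_eq_intervalIntegral _ _ 0, zero_add, div_one, one_smul]
  set a : ℝ := 1 / (2 * M) with ha
  have ha0 : 0 < a := by positivity
  have ha1 : a ≤ 1 := by
    rw [ha, div_le_one (by positivity)]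
    have : (1:ℝ) ≤ M := by exact_mod_cast hM
    linarith
  set κ : ℂ := -(2 * π * I * d) with hκ
  have hcongr : ∀ t ∈ Set.Ioo (0:ℝ) 1,
      fourier (-(d:ℤ)) (t : UnitAddCircle) • ((2 * M * bandI M t : ℝ) : ℂ)
      = Set.indicator (Set.Iio a) (fun t : ℝ => 2 * M * cexp (κ * t)) t := by
    intro t ht
    rw [bandI, rep_coe, Int.fract_eq_self.2 ⟨ht.1.le, ht.2⟩, ← ha]
    by_cases h : t < a
    · rw [Set.indicator_of_mem (Set.mem_Iio.2 h), if_pos h, fourier_coe_apply, smul_eq_mul, mul_comm]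
      push_cast
      rw [mul_one, hκ]
      congr 2
      push_cast
      ring
    · rw [Set.indicator_of_notMem (by simpa using h), if_neg h]; simp
  rw [intervalIntegral.integral_of_le zero_le_one, integral_Ioc_eq_integral_Ioo,
    setIntegral_congr_fun measurableSet_Ioo hcongr,
    setIntegral_indicator measurableSet_Iio,
    show Set.Ioo (0:ℝ) 1 ∩ Set.Iio a = Set.Ioo 0 a by ext t; simp; intros; linarith,
    ← integral_Ioc_eq_integral_Ioo, ← intervalIntegral.integral_of_le ha0.le,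
    intervalIntegral.integral_const_mul]
  rcases Nat.eq_zero_or_pos d with rfl | hd
  · simp [hκ, gcoef, ha]
    field_simp
    exact div_self (by exact_mod_cast (by omega : M ≠ 0))
  have hκ0 : κ ≠ 0 := by
    simp [hκ, Real.pi_ne_zero, Complex.I_ne_zero, hd.ne']
  have hM' : (M:ℂ) ≠ 0 := by exact_mod_cast (by omega : M ≠ 0)
  rw [integral_exp_mul_complex hκ0]
  simp only [gcoef, hd.ne', if_false]
  have e1 : κ * (a:ℂ) = ((-(π * d) / M : ℝ) : ℂ) * I := by
    rw [hκ, ha]; push_cast; field_simp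
  rw [e1, Complex.ofReal_zero, mul_zero, Complex.exp_zero]
  have hd' : (d:ℂ) ≠ 0 := by exact_mod_cast hd.ne'
  rw [hκ]; push_cast; field_simp

theorem fourierCoeff_dev (M L : ℕ) (hM : 1 ≤ M) (d : ℕ) :
    fourierCoeff (fun x => (dev M L x : ℂ)) (d:ℤ) = autoc M L d / (L:ℂ) - gcoef M d := by
  have h1 : Integrable (fun x => ((‖chirpSum M L x‖ ^ 2 : ℝ) : ℂ)) hm :=
    (Complex.continuous_ofReal.comp ((chirpSum M L).continuous.norm.pow 2)).integrable_of_hasCompactSupport
      (HasCompactSupport.of_compactSpace _)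
  have h2 : Integrable (fun x => ((2 * M * bandI M x : ℝ) : ℂ)) hm := by
    refine (Integrable.of_bound ((measurable_bandI M).const_mul _).aestronglyMeasurable
      (2 * M) (Eventually.of_forall fun x => ?_)).ofReal
    simpa [abs_mul] using mul_le_mul_of_nonneg_left (abs_bandI_le M x) (show (0:ℝ) ≤ 2 * M by positivity)
  rw [← fourierCoeff_normSq, ← fourierCoeff_bandI M hM, fourierCoeff, fourierCoeff, fourierCoeff,
    div_eq_inv_mul, ← integral_const_mul, ← integral_sub ((h1.fourier_smul _).const_mul _) (h2.fourier_smul _)]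
  congr 1; funext x
  simp only [dev, smul_eq_mul]; push_cast; ring

theorem norm_fourierCoeff_dev_symm (M L : ℕ) (n : ℤ) :
    ‖fourierCoeff (fun x => (dev M L x : ℂ)) n‖
      = ‖fourierCoeff (fun x => (dev M L x : ℂ)) (n.natAbs : ℤ)‖ := by
  rcases Int.natAbs_eq n with h | h
  · rw [← h]
  · conv_lhs => rw [h]
    simp only [fourierCoeff, neg_neg, smul_eq_mul]
    rw [← Complex.norm_conj, ← integral_conj]
    congr 1; refine integral_congr_ae (Eventually.of_forall fun x => ?_)
    simp only [map_mul, Complex.conj_ofReal, fourier_neg]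

theorem tendsto_integral_dev_sq (M : ℕ) (hM : 1 ≤ M) :
    Tendsto (fun L : ℕ => ∫ x, dev M L x ^ 2 ∂hm) atTop (𝓝 0) := by
  have hpar : ∀ L, ∫ x, dev M L x ^ 2 ∂hm
      = ∑' n : ℤ, ‖fourierCoeff (fun x => (dev M L x : ℂ)) n‖ ^ 2 := by
    intro L
    have h := tsum_sq_fourierCoeff (dev_memLp M L).toLp
    rw [fourierCoeff_congr_ae (dev_memLp M L).coeFn_toLp] at h
    rw [h]
    refine integral_congr_ae ?_
    filter_upwards [(dev_memLp M L).coeFn_toLp] with x hx
    simp [hx, sq_abs]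
  simp_rw [hpar]
  set b : ℤ → ℝ := fun n => (if n = 0 then 2 else 0) + 2 * M / |(n:ℝ)| with hb
  have hbd : ∀ L, 1 ≤ L → ∀ n : ℤ, ‖fourierCoeff (fun x => (dev M L x : ℂ)) n‖ ≤ b n := by
    intro L hL n
    rw [norm_fourierCoeff_dev_symm, fourierCoeff_dev M L hM]
    have hA : ∀ L', 1 ≤ L' → ‖autoc M L' n.natAbs / (L':ℂ)‖ ≤ b n / 2 := by
      intro L' hL'
      have hLpos : (0:ℝ) < L' := by exact_mod_cast hL'
      rw [norm_div, Complex.norm_natCast, div_le_iff₀ hLpos]
      by_cases hn : n = 0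
      · subst hn; simpa [hb] using norm_autoc_le' M L' 0
      · refine (norm_autoc_le M L' n.natAbs hM (Int.natAbs_pos.2 hn)).trans_eq ?_
        simp only [hb, if_neg hn, zero_add, Nat.cast_natAbs, Int.cast_abs]
        ring
    refine (norm_sub_le _ _).trans ?_
    have hg : ‖gcoef M n.natAbs‖ ≤ b n / 2 :=
      le_of_tendsto (tendsto_autoc M n.natAbs hM).norm
        (eventually_atTop.2 ⟨1, fun L' hL' => hA L' hL'⟩)
    linarith [hA L hL]
  have hsum : Summable fun n : ℤ => b n ^ 2 := by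
    have h1 : Summable fun n : ℤ => (4 * (M:ℝ)^2) * (1 / (n:ℝ) ^ 2) :=
      (Real.summable_one_div_int_pow.2 one_lt_two).mul_left _
    refine (h1.add (summable_of_ne_finset_zero (s := {(0:ℤ)}) (f := fun n : ℤ => if n = 0 then (4:ℝ) else 0) ?_)).congr ?_
    · intro n hn; simp at hn; simp [hn]
    · intro n
      by_cases hn : n = 0
      · subst hn; norm_num [hb]
      · simp only [hb, if_neg hn, add_zero, zero_add, div_pow, sq_abs, mul_pow]; ring
  have := tendsto_tsum_of_dominated_convergence (𝓕 := atTop)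
    (f := fun L n => ‖fourierCoeff (fun x => (dev M L x : ℂ)) n‖ ^ 2) (g := fun _ : ℤ => (0:ℝ)) hsum ?_ ?_
  · simpa using this
  · intro n
    have h1 : Tendsto (fun L : ℕ => ‖autoc M L n.natAbs / (L:ℂ) - gcoef M n.natAbs‖ ^ 2) atTop (𝓝 0) := by
      simpa using (((tendsto_autoc M n.natAbs hM).sub_const (gcoef M n.natAbs)).norm.pow 2)
    refine h1.congr fun L => ?_
    rw [norm_fourierCoeff_dev_symm M L n, fourierCoeff_dev M L hM]
  · filter_upwards [eventually_ge_atTop 1] with L hL n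
    rw [norm_pow, norm_norm]
    gcongr
    exact hbd L hL n

end

end Vale.Agent.P130
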