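import Vale.Agent.P130.Singular

/-! The stage filters: a single vector generates the level functions of the mode killed at that stage. -/

namespace Vale.Agent.P130

open MeasureTheory Filter Topology Set
open scoped ENNReal ComplexConjugate InnerProductSpace

noncomputable section

attribute [local irreducible] lev gg pos natO act dinv coc

theorem coord_zpow (n : ℕ) (m : ℤ) (y : YY) :
    ((((TT.toEquiv : Equiv.Perm YY) ^ m) y).1).1 n = y.1.1 n + (m : ZMod (hh n)) := by
  induction m generalizing y with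
  | zero => simp
  | succ k ih =>
    rw [zpow_add, zpow_one, Equiv.Perm.mul_apply, ih]
    change (TT y).1.1 n + _ = _
    rw [TT_apply]
    simp only [natO, AddSubgroup.coe_add, Pi.add_apply, Nat.cast_one]
    push_cast; ring
  | pred k ih =>
    rw [zpow_sub, zpow_one, Equiv.Perm.mul_apply, ih]
    set y' := ((TT.toEquiv : Equiv.Perm YY))⁻¹ y with hy'
    have h : y = TT y' := by rw [hy']; exact ((TT.toEquiv).apply_symm_apply y).symm
    have h2 : y.1.1 n = y'.1.1 n + 1 := by
      rw [h, TT_apply]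
      simp only [natO, AddSubgroup.coe_add, Pi.add_apply, Nat.cast_one]
    rw [h2]
    push_cast; ring

theorem pos_zpow (n : ℕ) (m : ℤ) (y : YY) :
    (pos n (((TT.toEquiv : Equiv.Perm YY) ^ m) y).1 : ℤ) = ((pos n y.1 : ℤ) + m) % (hh n : ℤ) := by
  have h : ∀ x : Odo, pos n x = (x.1 n).val := fun x => by unfold pos; rfl
  rw [h, h, coord_zpow]
  have e : y.1.1 n + (m : ZMod (hh n)) = ((((y.1.1 n).val : ℤ) + m : ℤ) : ZMod (hh n)) := by
    push_cast; rw [ZMod.natCast_val, ZMod.cast_id]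
  rw [e, ZMod.val_intCast]

theorem perm_natCast_zpow (k : ℕ) (y : YY) :
    ((TT.toEquiv : Equiv.Perm YY) ^ (k : ℤ)) y = TT^[k] y := by
  rw [zpow_natCast, Equiv.Perm.coe_pow]; rfl

theorem crd_zpow (n : ℕ) (m : ℤ) (y : YY) (h0 : 0 ≤ (pos n y.1 : ℤ) + m)
    (h1 : (pos n y.1 : ℤ) + m < hh n) :
    crd n (((TT.toEquiv : Equiv.Perm YY) ^ m) y) = (((pos n y.1 : ℤ) + m).toNat, (crd n y).2) := by
  rcases Int.eq_nat_or_neg m with ⟨k, rfl | rfl⟩
  · rw [perm_natCast_zpow, crd_TT_iterate n k y (by omega)]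
    simp only [crd, Prod.mk.injEq, and_true]; omega
  · set y' := ((TT.toEquiv : Equiv.Perm YY) ^ (-(k:ℤ))) y with hy'
    have hy : y = TT^[k] y' := by
      rw [← perm_natCast_zpow, hy', ← Equiv.Perm.mul_apply, ← zpow_add, add_neg_cancel, zpow_zero]; rfl
    have hp : (pos n y'.1 : ℤ) = (pos n y.1 : ℤ) + -(k:ℤ) := by
      rw [hy', pos_zpow]; exact Int.emod_eq_of_lt h0 h1
    have hlt := pos_lt n y.1
    have h2 := crd_TT_iterate n k y' (by omega)
    rw [← hy] at h2
    refine Prod.ext ?_ ?_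
    · show pos n y'.1 = _
      omega
    · show (crd n y').2 = (crd n y).2
      rw [h2]

theorem pos_succ_zero (n : ℕ) (y : YY) : pos n y.1 = (crd (n + 1) y).1 % hh n :=
  (pos_succ_mod n y.1).symm

/-- coefficient vector of the generator -/
def fco : Coef := fun p => if p = 0 then (1, 1) else 0

/-- the generator of level `n` of mode `j` -/
def fvec (j n : ℕ) : HH := iota j n fco

/-- first-slot image of the generator in level `n + 1` -/
def cf (j n k : ℕ) : ℂ × ℂ := emb j n fco (k * hh n)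

/-- first-slot image of the positive unit vector in level `n + 1` -/
def ep (j n k : ℕ) : ℂ × ℂ := emb j n (fun p => if p = 0 then (1, 0) else 0) (k * hh n)

/-- filtered generator -/
def conv (j n k : ℕ) : ℂ × ℂ :=
  ∑ l ∈ Finset.Icc (-(KK n : ℤ)) (KK n),
    qc n l • (if 0 ≤ (k:ℤ) + l ∧ (k:ℤ) + l < QQ n then cf j n ((k:ℤ) + l).toNat else 0)

/-- the polynomial of the mode `j` -/
def PAj (j n : ℕ) (x : UnitAddCircle) : ℂ :=
  FF (MM n * LL n) (fun r => fourier (j:ℤ) (alpha n r)) x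

theorem conj_PAj_neg (j n : ℕ) (x : UnitAddCircle) :
    conj (PAj j n (-x)) = FF (MM n * LL n) (fun r => conj (fourier (j:ℤ) (alpha n r))) x := by
  rw [PAj, FF, FF, map_sum]
  refine Finset.sum_congr rfl fun r _ => ?_
  rw [map_mul, fourier_neg_arg, fourier_neg, Complex.conj_conj]

theorem continuous_PAj (j n : ℕ) : Continuous (PAj j n) := continuous_FF _ _

theorem FF_two_halves (n : ℕ) (c u v : ℕ → ℂ) (hu : ∀ r < MM n * LL n, c r = u r)
    (hv : ∀ r < MM n * LL n, c (MM n * LL n + r) = v r) (x : UnitAddCircle) :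
    FF (QQ n) c x = FF (MM n * LL n) u x + zz n x * FF (MM n * LL n) v x := by
  rw [FF, QQ, Nat.two_mul, Finset.sum_range_add, FF, FF, Finset.mul_sum]
  refine congrArg₂ (· + ·) (Finset.sum_congr rfl fun r hr => ?_) (Finset.sum_congr rfl fun r hr => ?_)
  · rw [hu r (Finset.mem_range.1 hr)]
  · rw [hv r (Finset.mem_range.1 hr), zz, Nat.cast_add, fourier_add]; ring

theorem GG_low (n r : ℕ) (hr : r < MM n * LL n) : GG n r = (false, alpha n r) := by
  simp only [GG, decide_eq_false (not_le.2 hr)]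

theorem GG_high (n r : ℕ) (hr : r < MM n * LL n) : GG n (MM n * LL n + r) = (true, alpha n r) := by
  simp only [GG, decide_eq_true (Nat.le_add_right _ r), alpha_half n r hr]

theorem FF_cf (j n : ℕ) (x : UnitAddCircle) :
    FF (QQ n) (fun k => (cf j n k).1) x = PAj j n x + zz n x * conj (PAj j n (-x)) ∧
    FF (QQ n) (fun k => (cf j n k).2) x = conj (PAj j n (-x)) + zz n x * PAj j n x := by
  have h0 := hh_pos n
  rw [conj_PAj_neg]
  constructor <;>
  · refine (FF_two_halves n _ _ _ (fun r hr => ?_) (fun r hr => ?_) x)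
    all_goals simp [cf, emb, fco, Nat.mul_div_cancel _ h0, GG_low, GG_high, hr, -fourier_apply]

theorem FF_ep (j n : ℕ) (x : UnitAddCircle) :
    FF (QQ n) (fun k => (ep j n k).1) x = PAj j n x ∧
    FF (QQ n) (fun k => (ep j n k).2) x = zz n x * PAj j n x := by
  have h0 := hh_pos n
  constructor
  · rw [FF_two_halves n _ (fun r => fourier (j:ℤ) (alpha n r)) (fun _ => 0) (fun r hr => ?_) (fun r hr => ?_) x]
    · simp [PAj, FF]
    all_goals simp [ep, emb, Nat.mul_div_cancel _ h0, GG_low, GG_high, hr, -fourier_apply]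
  · rw [FF_two_halves n _ (fun _ => 0) (fun r => fourier (j:ℤ) (alpha n r)) (fun r hr => ?_) (fun r hr => ?_) x]
    · simp [PAj, FF]
    all_goals simp [ep, emb, Nat.mul_div_cancel _ h0, GG_low, GG_high, hr, -fourier_apply]

theorem bessel (G : UnitAddCircle → ℂ) (hG : Continuous G) (Q : ℕ) :
    ∑ k ∈ Finset.range Q, ‖fourierCoeff G (k:ℤ)‖ ^ 2 ≤ ∫ x, ‖G x‖ ^ 2 ∂hm := by
  obtain ⟨C, hC⟩ := hG.bounded_above_of_compact_support (HasCompactSupport.of_compactSpace _)
  have hmem : MemLp G 2 hm := MemLp.of_bound hG.aestronglyMeasurable C (Eventually.of_forall hC)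
  have h := hasSum_sq_fourierCoeff hmem.toLp
  rw [fourierCoeff_congr_ae hmem.coeFn_toLp] at h
  have h2 : ∫ x, ‖(hmem.toLp G : UnitAddCircle → ℂ) x‖ ^ 2 ∂hm = ∫ x, ‖G x‖ ^ 2 ∂hm := by
    refine integral_congr_ae ?_
    filter_upwards [hmem.coeFn_toLp] with x hx
    rw [hx]
  rw [h2] at h
  have e : ∑ k ∈ Finset.range Q, ‖fourierCoeff G (k:ℤ)‖ ^ 2
      = ∑ i ∈ (Finset.range Q).map ⟨fun k : ℕ => (k:ℤ), Nat.cast_injective⟩, ‖fourierCoeff G i‖ ^ 2 :=
    (Finset.sum_map (Finset.range Q) ⟨fun k : ℕ => (k:ℤ), Nat.cast_injective⟩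
      (fun i => ‖fourierCoeff G i‖ ^ 2)).symm
  rw [e]
  exact sum_le_hasSum _ (fun i _ => sq_nonneg _) h

theorem fourierCoeff_qq_mul_sub (n : ℕ) (c d : ℕ → ℂ) (k : ℕ) (hk : k < QQ n) :
    fourierCoeff (fun x => qq n x * FF (QQ n) c x - FF (QQ n) d x) (k:ℤ) =
      (∑ l ∈ Finset.Icc (-(KK n : ℤ)) (KK n),
        qc n l * (if 0 ≤ (k:ℤ) + l ∧ (k:ℤ) + l < QQ n then c ((k:ℤ) + l).toNat else 0)) - d k := by
  have hi : ∀ (a : ℂ) (m : ℤ), Integrable (fun x => a * fourier m x) hm := fun a m =>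
    ((fourier m).continuous.const_smul a).integrable_of_hasCompactSupport (HasCompactSupport.of_compactSpace _)
  have key : ∀ x, fourier (-(k:ℤ)) x • (qq n x * FF (QQ n) c x - FF (QQ n) d x) =
      (∑ l ∈ Finset.Icc (-(KK n : ℤ)) (KK n), ∑ p ∈ Finset.range (QQ n),
          (qc n l * c p) * fourier ((p:ℤ) - l - k) x)
        - ∑ p ∈ Finset.range (QQ n), d p * fourier ((p:ℤ) - k) x := by
    intro x
    rw [smul_eq_mul, mul_sub, qq, qpoly, FF, FF, Finset.sum_mul_sum, Finset.mul_sum, Finset.mul_sum]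
    refine congrArg₂ (· - ·) (Finset.sum_congr rfl fun l _ => ?_) (Finset.sum_congr rfl fun p _ => ?_)
    · rw [Finset.mul_sum]
      refine Finset.sum_congr rfl fun p _ => ?_
      rw [show (p:ℤ) - l - k = -(k:ℤ) + (-l + p) by ring, fourier_add, fourier_add]; ring
    · rw [show (p:ℤ) - k = -(k:ℤ) + p by ring, fourier_add]; ring
  rw [fourierCoeff]
  simp_rw [key]
  rw [integral_sub (integrable_finsetSum _ fun l _ => integrable_finsetSum _ fun p _ => hi _ _)
      (integrable_finsetSum _ fun p _ => hi _ _),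
    integral_finsetSum _ fun l _ => integrable_finsetSum _ fun p _ => hi _ _,
    integral_finsetSum _ fun p _ => hi _ _,
    Finset.sum_congr rfl fun l _ => integral_finsetSum _ fun p _ => hi _ _]
  simp_rw [integral_const_mul, integral_fourier]
  refine congrArg₂ (· - ·) (Finset.sum_congr rfl fun l _ => ?_) ?_
  · split_ifs with hcond
    · rw [Finset.sum_eq_single ((k:ℤ) + l).toNat]
      · rw [if_pos (by omega), mul_one]
      · intro p _ hp; rw [if_neg (by omega), mul_zero]
      · intro h; exact absurd (Finset.mem_range.2 (by omega)) h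
    · rw [mul_zero]
      refine Finset.sum_eq_zero fun p hp => ?_
      have := Finset.mem_range.1 hp
      rw [if_neg (by omega), mul_zero]
  · rw [Finset.sum_eq_single k]
    · simp
    · intro p _ hp; rw [if_neg (by omega), mul_zero]
    · intro h; exact absurd (Finset.mem_range.2 hk) h

/-- upper bound for the squared polynomial of the killed mode -/
def wgt (n : ℕ) (x : UnitAddCircle) : ℝ :=
  MM n * chi (RR n) x + (∑ s ∈ Finset.range (MM n), |dev (RR n) (LL n) (x - ctr (RR n) (band n s))|) / 2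

theorem ctr_mod (R σ : ℕ) (hR : 0 < R) : ctr R σ = ctr R (σ % R) := by
  have hR' : (R:ℝ) ≠ 0 := by exact_mod_cast hR.ne'
  have h : (σ:ℝ) / R = ((σ % R : ℕ) : ℝ) / R + ((σ / R : ℕ) : ℝ) := by
    conv_lhs => rw [← Nat.mod_add_div σ R]
    push_cast; field_simp
  rw [ctr, ctr, h, AddCircle.coe_add]
  simp only [add_eq_left, AddCircle.coe_eq_zero_iff]
  exact ⟨((σ / R : ℕ) : ℤ), by rw [zsmul_one, Int.cast_natCast]⟩

theorem sum_bandI_band (n : ℕ) (x : UnitAddCircle) :
    ∑ s ∈ Finset.range (MM n), bandI (RR n) (x - ctr (RR n) (band n s)) = jj n * chi (RR n) x := by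
  have hJ : 0 < jj n := by simp [jj]
  have hR : 0 < RR n := by simp [RR]
  rw [show MM n = RR n * jj n from Nat.mul_comm _ _, sum_range_mul', ← sum_bandI_eq_chi (RR n) hR x,
    Finset.mul_sum]
  refine Finset.sum_congr rfl fun τ hτ => ?_
  have hval : ∀ r ∈ Finset.range (jj n),
      bandI (RR n) (x - ctr (RR n) (band n (τ * jj n + r))) = bandI (RR n) (x - ctr (RR n) τ) := by
    intro r hr
    have hr' := Finset.mem_range.1 hr
    rw [ctr_mod (RR n) (band n (τ * jj n + r)) hR]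
    congr 3
    rw [band, Nat.add_comm (τ * jj n) r, Nat.add_mul_div_right _ _ hJ, Nat.div_eq_of_lt hr', Nat.zero_add,
      Nat.add_mul_mod_self_left, Nat.mod_eq_of_lt (Finset.mem_range.1 hτ)]
  rw [Finset.sum_congr rfl hval, Finset.sum_const, Finset.card_range, nsmul_eq_mul]

theorem norm_PAj_sq_le (n : ℕ) (x : UnitAddCircle) :
    ‖PAj (jj n) n x‖ ^ 2 ≤ QQ n * wgt n x := by
  have hJ : (jj n : ℕ) ≠ 0 := by simp [jj]
  have hbound : ‖PAj (jj n) n x‖ ≤ ∑ s ∈ Finset.range (MM n),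
      ‖chirpSum (RR n) (LL n) (x - ctr (RR n) (band n s))‖ := by
    rw [PAj, FF, sum_range_mul']
    refine (norm_sum_le _ _).trans (Finset.sum_le_sum fun s hs => le_of_eq ?_)
    have hterm : ∑ i ∈ Finset.range (LL n),
        fourier (jj n : ℤ) (alpha n (s * LL n + i)) * fourier ((s * LL n + i : ℕ):ℤ) x
        = fourier ((s * LL n : ℕ):ℤ) x * chirpSum (RR n) (LL n) (x - ctr (RR n) (band n s)) := by
      rw [chirpSum_apply, Finset.mul_sum]
      refine Finset.sum_congr rfl fun i hi => ?_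
      have h := fourier_alpha n s i 0 (jj n) (Finset.mem_range.1 hs) (Finset.mem_range.1 hi)
      rw [Nat.zero_mul, Nat.zero_add] at h
      rw [h, sub_eq_add_neg, fourier_add_arg, fourier_neg_arg, Nat.cast_add, fourier_add]
      have e1 : fourier (-(jj n:ℤ)) (ctr (MM n) (band n s)) ^ i = fourier (-(i:ℤ)) (ctr (RR n) (band n s)) := by
        rw [ctr, ctr, fourier_coe_apply, fourier_coe_apply, ← Complex.exp_nat_mul]
        congr 1
        have : (jj n : ℂ) ≠ 0 := by exact_mod_cast hJ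
        have : (RR n : ℂ) ≠ 0 := by exact_mod_cast (by simp [RR] : RR n ≠ 0)
        simp only [MM]; push_cast; field_simp
      have e2 : fourier (jj n:ℤ) ((-((i:ℝ) ^ 2) / (4 * MM n * LL n) : ℝ) : UnitAddCircle) = cc (RR n) (LL n) i := by
        rw [fourier_coe_apply, cc]
        congr 1
        have : (jj n : ℂ) ≠ 0 := by exact_mod_cast hJ
        have : (RR n : ℂ) ≠ 0 := by exact_mod_cast (by simp [RR] : RR n ≠ 0)
        have : (LL n : ℂ) ≠ 0 := by exact_mod_cast (by have := one_le_LL n; omega : LL n ≠ 0)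
        simp only [MM]; push_cast; field_simp
      rw [e1, e2]; ring
    rw [hterm, norm_mul, norm_fourier_apply, one_mul]
  have hL : (0:ℝ) < LL n := by exact_mod_cast one_le_LL n
  calc ‖PAj (jj n) n x‖ ^ 2
      ≤ (∑ s ∈ Finset.range (MM n), ‖chirpSum (RR n) (LL n) (x - ctr (RR n) (band n s))‖) ^ 2 := by gcongr
  _ ≤ MM n * ∑ s ∈ Finset.range (MM n), ‖chirpSum (RR n) (LL n) (x - ctr (RR n) (band n s))‖ ^ 2 := by
      simpa using sq_sum_le_card_mul_sum_sq (s := Finset.range (MM n))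
        (f := fun s => ‖chirpSum (RR n) (LL n) (x - ctr (RR n) (band n s))‖)
  _ ≤ MM n * ∑ s ∈ Finset.range (MM n), LL n *
        (2 * RR n * bandI (RR n) (x - ctr (RR n) (band n s))
          + |dev (RR n) (LL n) (x - ctr (RR n) (band n s))|) := by
      gcongr with s _
      have := le_abs_self (dev (RR n) (LL n) (x - ctr (RR n) (band n s)))
      have h2 : ‖chirpSum (RR n) (LL n) (x - ctr (RR n) (band n s))‖ ^ 2 / LL n ≤
          2 * RR n * bandI (RR n) (x - ctr (RR n) (band n s))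
          + |dev (RR n) (LL n) (x - ctr (RR n) (band n s))| := by
        conv_lhs => rw [show ‖chirpSum (RR n) (LL n) (x - ctr (RR n) (band n s))‖ ^ 2 / LL n
          = dev (RR n) (LL n) (x - ctr (RR n) (band n s))
            + 2 * RR n * bandI (RR n) (x - ctr (RR n) (band n s)) by rw [dev]; ring]
        linarith
      rw [div_le_iff₀ hL] at h2
      linarith
  _ = QQ n * wgt n x := by
      rw [← Finset.mul_sum, Finset.sum_add_distrib, ← Finset.mul_sum, sum_bandI_band, wgt, QQ,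
        show (MM n) = jj n * RR n from rfl]
      push_cast; ring

theorem integrable_wgt_parts (n s : ℕ) :
    Integrable (fun x => |dev (RR n) (LL n) (x - ctr (RR n) (band n s))|) hm := by
  have h2 : MemLp (fun x => dev (RR n) (LL n) x) 2 hm := by simpa using (dev_memLp (RR n) (LL n)).re
  exact ((h2.integrable one_le_two).abs).comp_sub_right (ctr (RR n) (band n s))

theorem integral_abs_dev_le (M L : ℕ) :
    ∫ x, |dev M L x| ∂hm ≤ Real.sqrt (∫ x, dev M L x ^ 2 ∂hm) := by
  have hd2 : MemLp (fun x => dev M L x) 2 hm := by simpa using (dev_memLp M L).re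
  refine Real.le_sqrt_of_sq_le ?_
  have habs : MemLp (fun x => |dev M L x|) 2 hm := hd2.abs
  have hvar := ProbabilityTheory.variance_nonneg (fun x => |dev M L x|) hm
  rw [ProbabilityTheory.variance_eq_sub habs] at hvar
  simp only [Pi.pow_apply, sq_abs] at hvar
  linarith

theorem integral_weighted_le (n : ℕ) (g : UnitAddCircle → ℝ) (hg : Measurable g) (hg0 : ∀ x, 0 ≤ g x)
    (hgC : ∀ x, g x ≤ CQ n ^ 2)
    (hgε : ∫ x, g x * chi (RR n) x ∂hm ≤ 1 / ((n + 1) * MM n)) :
    ∫ x, g x * ‖PAj (jj n) n x‖ ^ 2 ∂hm ≤ QQ n * (2 / (n + 1)) := by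
  have hgi : ∀ f : UnitAddCircle → ℝ, Integrable f hm → Integrable (fun x => g x * f x) hm := fun f hf =>
    hf.bdd_mul hg.aestronglyMeasurable (c := CQ n ^ 2) (Eventually.of_forall fun x => by
      rw [Real.norm_eq_abs, abs_of_nonneg (hg0 x)]; exact hgC x)
  have hS : Integrable (fun x => ∑ s ∈ Finset.range (MM n),
      |dev (RR n) (LL n) (x - ctr (RR n) (band n s))|) hm :=
    integrable_finsetSum _ fun s _ => integrable_wgt_parts n s
  have hw : Integrable (wgt n) hm := ((integrable_chi (RR n)).const_mul _).add (hS.div_const 2)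
  have hP : Integrable (fun x => ‖PAj (jj n) n x‖ ^ 2) hm :=
    ((continuous_PAj _ _).norm.pow 2).integrable_of_hasCompactSupport (HasCompactSupport.of_compactSpace _)
  refine (integral_mono (hgi _ hP) ((hgi _ hw).const_mul (QQ n : ℝ)) fun x => ?_).trans ?_
  · calc g x * ‖PAj (jj n) n x‖ ^ 2 ≤ g x * (QQ n * wgt n x) :=
        mul_le_mul_of_nonneg_left (norm_PAj_sq_le n x) (hg0 x)
    _ = QQ n * (g x * wgt n x) := by ring
  rw [integral_const_mul]
  refine mul_le_mul_of_nonneg_left ?_ (Nat.cast_nonneg _)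
  have e : ∀ x, g x * wgt n x = MM n * (g x * chi (RR n) x)
      + (∑ s ∈ Finset.range (MM n), g x * |dev (RR n) (LL n) (x - ctr (RR n) (band n s))|) / 2 := by
    intro x; rw [wgt, ← Finset.mul_sum]; ring
  simp_rw [e]
  rw [integral_add ((hgi _ (integrable_chi _)).const_mul _)
      ((integrable_finsetSum _ fun s _ => hgi _ (integrable_wgt_parts n s)).div_const 2),
    integral_const_mul, integral_div, integral_finsetSum _ fun s _ => hgi _ (integrable_wgt_parts n s)]
  have h1 : (MM n : ℝ) * ∫ x, g x * chi (RR n) x ∂hm ≤ 1 / (n + 1) := by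
    have hM : (0:ℝ) < MM n := by exact_mod_cast one_le_MM n
    refine (mul_le_mul_of_nonneg_left hgε hM.le).trans_eq ?_
    field_simp
  have h2 : ∑ s ∈ Finset.range (MM n), ∫ x, g x * |dev (RR n) (LL n) (x - ctr (RR n) (band n s))| ∂hm
      ≤ 1 / (n + 1) := by
    refine (Finset.sum_le_card_nsmul _ _ (CQ n ^ 2 * Real.sqrt (∫ x, dev (RR n) (LL n) x ^ 2 ∂hm)) fun s _ => ?_).trans ?_
    · refine (integral_mono (hgi _ (integrable_wgt_parts n s)) ((integrable_wgt_parts n s).const_mul (CQ n ^ 2))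
        fun x => mul_le_mul_of_nonneg_right (hgC x) (abs_nonneg _)).trans ?_
      rw [integral_const_mul, integral_sub_right_eq_self (μ := hm) (fun x => |dev (RR n) (LL n) x|)]
      gcongr
      exact integral_abs_dev_le _ _
    · rw [Finset.card_range, nsmul_eq_mul]
      refine le_trans (le_of_eq ?_) (dev_RR_le n)
      ring
  have : 0 ≤ (1:ℝ) / (n + 1) := by positivity
  have e2 : (2:ℝ) / (n + 1) = 1 / (n + 1) + 1 / (n + 1) := by ring
  linarith

theorem norm_qq_le (n : ℕ) (x : UnitAddCircle) : ‖qq n x‖ + 1 ≤ CQ n := by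
  have := norm_qpoly_le (KK n) (qc n) x
  rw [CQ, qq]; linarith

theorem continuous_qq (n : ℕ) : Continuous (qq n) := continuous_qpoly _ _

theorem integral_plus_le (n : ℕ) :
    ∫ x, ‖qq n x - 1‖ ^ 2 * ‖PAj (jj n) n x‖ ^ 2 ∂hm ≤ QQ n * (2 / (n + 1)) := by
  refine integral_weighted_le n (fun x => ‖qq n x - 1‖ ^ 2) (((continuous_qq n).sub continuous_const).norm.pow 2).measurable
    (fun x => sq_nonneg _) (fun x => ?_) ?_
  · refine pow_le_pow_left₀ (norm_nonneg _) ((norm_sub_le _ _).trans ?_) 2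
    simpa using norm_qq_le n x
  · refine le_trans (integral_mono_of_nonneg (Eventually.of_forall fun x => ?_) ?_
      (Eventually.of_forall fun x => ?_)) (integral_qq_sub_le n)
    · rcases chi_eq_zero_or_one (RR n) x with h | h <;> simp [h]
    · refine Integrable.of_bound ((((continuous_qq n).measurable.sub
        (Complex.continuous_ofReal.measurable.comp (measurable_chi _))).norm).pow_const 2).aestronglyMeasurable
        (CQ n ^ 2) (Eventually.of_forall fun x => ?_)
      simp only [Real.norm_eq_abs, abs_pow, abs_norm]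
      refine pow_le_pow_left₀ (norm_nonneg _) ((norm_sub_le _ _).trans ?_) 2
      rcases chi_eq_zero_or_one (RR n) x with h | h <;> simp [h] <;>
        linarith [norm_qq_le n x, one_le_CQ n, norm_nonneg (qq n x)]
    · rcases chi_eq_zero_or_one (RR n) x with h | h <;> simp [h]

theorem integral_minus_le (n : ℕ) :
    ∫ x, ‖qq n x‖ ^ 2 * ‖PAj (jj n) n (-x)‖ ^ 2 ∂hm ≤ QQ n * (2 / (n + 1)) := by
  rw [← integral_neg_eq_self (fun x => ‖qq n x‖ ^ 2 * ‖PAj (jj n) n (-x)‖ ^ 2) hm]
  simp only [neg_neg]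
  refine integral_weighted_le n (fun x => ‖qq n (-x)‖ ^ 2) (((continuous_qq n).comp continuous_neg).norm.pow 2).measurable
    (fun x => sq_nonneg _) (fun x => ?_) ?_
  · refine pow_le_pow_left₀ (norm_nonneg _) ?_ 2
    linarith [norm_qq_le n (-x)]
  · refine le_trans ?_ (integral_qq_sub_le n)
    rw [← integral_neg_eq_self (fun x => ‖qq n x - (chi (RR n) x : ℂ)‖ ^ 2) hm]
    refine integral_mono_of_nonneg (Eventually.of_forall fun x => ?_) ?_ ?_
    · rcases chi_eq_zero_or_one (RR n) x with h | h <;> simp [h]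
    · refine Integrable.of_bound ((((continuous_qq n).measurable.comp measurable_neg).sub
        (Complex.continuous_ofReal.measurable.comp ((measurable_chi _).comp measurable_neg))).norm.pow_const 2).aestronglyMeasurable
        (CQ n ^ 2) (Eventually.of_forall fun x => ?_)
      simp only [Real.norm_eq_abs, abs_pow, abs_norm]
      refine pow_le_pow_left₀ (norm_nonneg _) ((norm_sub_le _ _).trans ?_) 2
      rcases chi_eq_zero_or_one (RR n) (-x) with h | h <;> simp [h] <;>
        linarith [norm_qq_le n (-x), one_le_CQ n, norm_nonneg (qq n (-x))]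
    · filter_upwards [chi_neg_ae (RR n) (by simp [RR])] with x hx
      rcases chi_eq_zero_or_one (RR n) x with h | h <;> simp [h, hx]

theorem sum_conv_sub_le (n : ℕ) :
    ∑ k ∈ Finset.range (QQ n), (‖(conv (jj n) n k).1 - (ep (jj n) n k).1‖ ^ 2
      + ‖(conv (jj n) n k).2 - (ep (jj n) n k).2‖ ^ 2) ≤ QQ n * (16 / (n + 1)) := by
  set j := jj n
  have hcoef : ∀ k < QQ n,
      fourierCoeff (fun x => qq n x * FF (QQ n) (fun k => (cf j n k).1) x - FF (QQ n) (fun k => (ep j n k).1) x) (k:ℤ)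
        = (conv j n k).1 - (ep j n k).1 ∧
      fourierCoeff (fun x => qq n x * FF (QQ n) (fun k => (cf j n k).2) x - FF (QQ n) (fun k => (ep j n k).2) x) (k:ℤ)
        = (conv j n k).2 - (ep j n k).2 := by
    intro k hk
    rw [fourierCoeff_qq_mul_sub n _ _ k hk, fourierCoeff_qq_mul_sub n _ _ k hk, conv, Prod.fst_sum, Prod.snd_sum]
    constructor <;> (congr 1; refine Finset.sum_congr rfl fun l _ => ?_; split_ifs <;> simp)
  set G1 := fun x => qq n x * FF (QQ n) (fun k => (cf j n k).1) x - FF (QQ n) (fun k => (ep j n k).1) x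
  set G2 := fun x => qq n x * FF (QQ n) (fun k => (cf j n k).2) x - FF (QQ n) (fun k => (ep j n k).2) x
  have hc1 : Continuous G1 := ((continuous_qq n).mul (continuous_FF _ _)).sub (continuous_FF _ _)
  have hc2 : Continuous G2 := ((continuous_qq n).mul (continuous_FF _ _)).sub (continuous_FF _ _)
  rw [Finset.sum_congr rfl fun k hk => by
    rw [← (hcoef k (Finset.mem_range.1 hk)).1, ← (hcoef k (Finset.mem_range.1 hk)).2]]
  rw [Finset.sum_add_distrib]
  refine (add_le_add (bessel G1 hc1 _) (bessel G2 hc2 _)).trans ?_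
  have hint : ∀ G : UnitAddCircle → ℂ, Continuous G → Integrable (fun x => ‖G x‖ ^ 2) hm := fun G hG =>
    (hG.norm.pow 2).integrable_of_hasCompactSupport (HasCompactSupport.of_compactSpace _)
  have hP := continuous_PAj j n
  have hA : Continuous fun x => ‖qq n x - 1‖ ^ 2 * ‖PAj j n x‖ ^ 2 :=
    (((continuous_qq n).sub continuous_const).norm.pow 2).mul (hP.norm.pow 2)
  have hB : Continuous fun x => ‖qq n x‖ ^ 2 * ‖PAj j n (-x)‖ ^ 2 :=
    ((continuous_qq n).norm.pow 2).mul ((hP.comp continuous_neg).norm.pow 2)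
  have hAi := hA.integrable_of_hasCompactSupport (μ := hm) (HasCompactSupport.of_compactSpace _)
  have hBi := hB.integrable_of_hasCompactSupport (μ := hm) (HasCompactSupport.of_compactSpace _)
  rw [← integral_add (hint G1 hc1) (hint G2 hc2)]
  refine (integral_mono ((hint G1 hc1).add (hint G2 hc2)) ((hAi.fun_add hBi).const_mul 4) fun x => ?_).trans ?_
  · obtain ⟨e1, e2⟩ := FF_cf j n x
    obtain ⟨e3, e4⟩ := FF_ep j n x
    have g1 : G1 x = (qq n x - 1) * PAj j n x + qq n x * (zz n x * conj (PAj j n (-x))) := by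
      simp only [G1, e1, e3]; ring
    have g2 : G2 x = (qq n x - 1) * (zz n x * PAj j n x) + qq n x * conj (PAj j n (-x)) := by
      simp only [G2, e2, e4]; ring
    simp only [g1, g2, Pi.add_apply]
    have b1 := pow_le_pow_left₀ (norm_nonneg _) (norm_add_le ((qq n x - 1) * PAj j n x) (qq n x * (zz n x * conj (PAj j n (-x))))) 2
    have b2 := pow_le_pow_left₀ (norm_nonneg _) (norm_add_le ((qq n x - 1) * (zz n x * PAj j n x)) (qq n x * conj (PAj j n (-x)))) 2
    have b3 := add_sq_le (a := ‖(qq n x - 1) * PAj j n x‖) (b := ‖qq n x * (zz n x * conj (PAj j n (-x)))‖)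
    have b4 := add_sq_le (a := ‖(qq n x - 1) * (zz n x * PAj j n x)‖) (b := ‖qq n x * conj (PAj j n (-x))‖)
    simp only [norm_mul, norm_zz, Complex.norm_conj, mul_pow, one_mul] at b1 b2 b3 b4 ⊢
    linarith
  · rw [integral_const_mul, integral_add hAi hBi]
    have h1 := integral_plus_le n
    have h2 := integral_minus_le n
    calc 4 * (∫ x, ‖qq n x - 1‖ ^ 2 * ‖PAj j n x‖ ^ 2 ∂hm + ∫ x, ‖qq n x‖ ^ 2 * ‖PAj j n (-x)‖ ^ 2 ∂hm)
        ≤ 4 * (QQ n * (2 / (n + 1)) + QQ n * (2 / (n + 1))) := by gcongr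
    _ = QQ n * (16 / (n + 1)) := by ring

/-- the shifted filtered generators combined with weights `α` -/
def Xvec (j n : ℕ) (α : ℕ → ℂ) : HH :=
  ∑ r ∈ Finset.range (hh n), ∑ l ∈ Finset.Icc (-(KK n : ℤ)) (KK n),
    (α r * qc n l) • (UU ^ (l * hh n - r)) (fvec j n)

/-- pointwise formula for `Xvec` -/
def Xfun (j n : ℕ) (α : ℕ → ℂ) (y : YY) : ℂ :=
  ∑ l ∈ Finset.Icc (-(KK n : ℤ)) (KK n), (α (pos n y.1) * qc n l) *
    lf j n fco (((TT.toEquiv : Equiv.Perm YY) ^ (l * hh n - pos n y.1)) y)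

theorem measurePreserving_zpow_TT (m : ℤ) :
    MeasurePreserving (⇑((TT.toEquiv : Equiv.Perm YY) ^ m)) hY hY := by
  induction m with
  | zero => exact MeasurePreserving.id hY
  | succ k ih => rw [zpow_add, zpow_one]; exact ih.comp measurePreserving_TT
  | pred k ih => rw [zpow_sub, zpow_one]; exact ih.comp (measurePreserving_TT.symm TT)

theorem coeFn_UU_zpow_iota (j n : ℕ) (a : Coef) (m : ℤ) :
    (UU ^ m) (iota j n a) =ᵐ[hY] fun y => lf j n a (((TT.toEquiv : Equiv.Perm YY) ^ m) y) :=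
  (coeFn_UU_zpow m _).trans
    ((measurePreserving_zpow_TT m).quasiMeasurePreserving.ae_eq_comp (coeFn_iota j n a))

theorem lf_fco_eq_zero (j n : ℕ) (y : YY) (h : pos n y.1 ≠ 0) : lf j n fco y = 0 := by
  simp [lf, crd, mfun, fco, h]

theorem pos_zpow_eq_zero_iff (n : ℕ) (l : ℤ) (r : ℕ) (hr : r < hh n) (y : YY) :
    pos n (((TT.toEquiv : Equiv.Perm YY) ^ (l * hh n - r)) y).1 = 0 ↔ r = pos n y.1 := by
  have h := pos_zpow n (l * hh n - r) y
  rw [show (pos n y.1 : ℤ) + (l * hh n - r) = ((pos n y.1 : ℤ) - r) + (hh n : ℤ) * l by ring,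
    Int.add_mul_emod_self_left] at h
  have hp := pos_lt n y.1
  constructor
  · intro h0
    rw [h0] at h
    have hd : (hh n : ℤ) ∣ (pos n y.1 : ℤ) - r := Int.dvd_of_emod_eq_zero (by exact_mod_cast h.symm)
    have := Int.eq_zero_of_abs_lt_dvd hd (by rw [abs_lt]; omega)
    omega
  · intro hre
    rw [hre, sub_self, Int.zero_emod] at h
    exact_mod_cast hre ▸ h

theorem coeFn_Xvec (j n : ℕ) (α : ℕ → ℂ) : Xvec j n α =ᵐ[hY] Xfun j n α := by
  have hterm : ∀ r ∈ Finset.range (hh n), ∀ᵐ y ∂hY, ∀ l ∈ Finset.Icc (-(KK n : ℤ)) (KK n),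
      ((α r * qc n l) • (UU ^ (l * hh n - r)) (fvec j n) : HH) y
        = (α r * qc n l) * lf j n fco (((TT.toEquiv : Equiv.Perm YY) ^ (l * hh n - r)) y) := by
    intro r _
    refine (eventually_all_finset _).2 fun l _ => ?_
    filter_upwards [Lp.coeFn_smul (α r * qc n l) ((UU ^ (l * hh n - r)) (fvec j n)),
      coeFn_UU_zpow_iota j n fco (l * hh n - r)] with y h1 h2
    rw [h1, Pi.smul_apply, smul_eq_mul]
    exact congrArg _ h2
  have hsum2 : ∀ᵐ y ∂hY, ∀ r ∈ Finset.range (hh n),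
      (∑ l ∈ Finset.Icc (-(KK n : ℤ)) (KK n), (α r * qc n l) • (UU ^ (l * hh n - r)) (fvec j n) : HH) y
      = ∑ l ∈ Finset.Icc (-(KK n : ℤ)) (KK n),
          ((α r * qc n l) • (UU ^ (l * hh n - r)) (fvec j n) : HH) y := by
    refine (eventually_all_finset _).2 fun r _ => ?_
    filter_upwards [Lp.coeFn_finsetSum (Finset.Icc (-(KK n : ℤ)) (KK n))
      (fun l => (α r * qc n l) • (UU ^ (l * hh n - r)) (fvec j n))] with y hy
    rw [hy, Finset.sum_apply]
  filter_upwards [Lp.coeFn_finsetSum (Finset.range (hh n)) (fun r => ∑ l ∈ Finset.Icc (-(KK n : ℤ)) (KK n),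
      (α r * qc n l) • (UU ^ (l * hh n - r)) (fvec j n)), hsum2, (eventually_all_finset _).2 hterm]
    with y h1 h2 h3
  rw [Xvec, h1, Finset.sum_apply, Finset.sum_eq_single_of_mem (pos n y.1) (Finset.mem_range.2 (pos_lt n y.1))]
  · rw [h2 _ (Finset.mem_range.2 (pos_lt n y.1)), Xfun]
    exact Finset.sum_congr rfl fun l hl => h3 _ (Finset.mem_range.2 (pos_lt n y.1)) l hl
  · intro r hr hne
    rw [h2 r hr]
    refine Finset.sum_eq_zero fun l hl => ?_
    rw [h3 r hr l hl, lf_fco_eq_zero, mul_zero]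
    intro h0
    exact hne ((pos_zpow_eq_zero_iff n l r (Finset.mem_range.1 hr) y).1 h0)

/-- error coefficient vector at level `n + 1` -/
def Eco (j n : ℕ) (α : ℕ → ℂ) : Coef := fun p =>
  α (p % hh n) • (conv j n (p / hh n) - ep j n (p / hh n))

/-- boundary slots -/
def badind (n p : ℕ) : ℝ :=
  if p / hh n < KK n + 1 ∨ QQ n ≤ p / hh n + (KK n + 1) then 1 else 0

theorem Xfun_sub_le (j n : ℕ) (α : ℕ → ℂ) (B : ℝ) (hB : ∀ p < hh n, ‖α p‖ ≤ B) (y : YY) :
    ‖Xfun j n α y - lf j n (fun p => (α p, 0)) y‖ ^ 2 ≤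
      ‖lf j (n + 1) (Eco j n α) y‖ ^ 2 + (3 * B * CQ n) ^ 2 * badind n (crd (n + 1) y).1 := by
  set P := (crd (n + 1) y).1 with hP
  set k := P / hh n with hk
  have hpos : pos n y.1 = P % hh n := pos_succ_zero n y
  have hd := Nat.div_add_mod P (hh n)
  by_cases hbad : k < KK n + 1 ∨ QQ n ≤ k + (KK n + 1)
  · rw [badind, if_pos hbad, mul_one]
    refine le_add_of_nonneg_of_le (sq_nonneg _) (pow_le_pow_left₀ (norm_nonneg _) ((norm_sub_le _ _).trans ?_) 2)
    have hB0 : 0 ≤ B := (norm_nonneg _).trans (hB 0 (hh_pos n))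
    have h1 : ‖Xfun j n α y‖ ≤ ∑ l ∈ Finset.Icc (-(KK n : ℤ)) (KK n), B * ‖qc n l‖ * 2 := by
      refine (norm_sum_le _ _).trans (Finset.sum_le_sum fun l _ => ?_)
      rw [norm_mul, norm_mul]
      refine mul_le_mul (mul_le_mul_of_nonneg_right (hB _ (pos_lt n y.1)) (norm_nonneg _)) ?_ (norm_nonneg _)
        (mul_nonneg hB0 (norm_nonneg _))
      refine (norm_mfun_le _ _ _ _).trans ?_
      simp only [fco]; split_ifs <;> norm_num
    have h2 : ‖lf j n (fun p => (α p, 0)) y‖ ≤ B :=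
      (norm_mfun_le _ _ _ _).trans (by simpa [crd] using hB _ (pos_lt n y.1))
    rw [← Finset.sum_mul, ← Finset.mul_sum] at h1
    have hC := one_le_CQ n
    have hs : ∑ l ∈ Finset.Icc (-(KK n : ℤ)) (KK n), ‖qc n l‖ = CQ n - 1 := by rw [CQ]; ring
    rw [hs] at h1
    nlinarith
  · rw [badind, if_neg hbad, mul_zero, add_zero]
    push Not at hbad
    have hlfn : lf j n (fun p => (α p, 0)) y = α (P % hh n) * mfun j (fun _ => ep j n k) 0 (crd (n + 1) y).2 := by
      rw [← lf_emb j n (fun p => (α p, 0))]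
      simp only [lf, ← hP, mfun, ep, emb, Nat.mul_div_cancel _ (hh_pos n), Nat.mul_mod_left, if_true, ← hk]
      split_ifs <;> simp <;> ring
    have hX : Xfun j n α y = α (P % hh n) * mfun j (fun _ => conv j n k) 0 (crd (n + 1) y).2 := by
      rw [Xfun, hpos]
      simp only [conv, mfun, Prod.fst_sum, Prod.snd_sum, Finset.sum_mul, ← Finset.sum_add_distrib, Finset.mul_sum]
      refine Finset.sum_congr rfl fun l hl => ?_
      rw [Finset.mem_Icc] at hl
      rw [if_pos (by omega), ← lf_emb j n fco]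
      have hlt : P < hh (n + 1) := pos_lt (n + 1) y.1
      have hpP : pos (n + 1) y.1 = P := rfl
      have e0 : (pos (n + 1) y.1 : ℤ) + (l * hh n - (P % hh n : ℕ)) = ((k:ℤ) + l) * hh n := by
        rw [hpP, ← hk] at *
        have hd' : (hh n : ℤ) * k + ((P % hh n : ℕ) : ℤ) = P := by exact_mod_cast hd
        linarith
      have h0 : 0 ≤ ((k:ℤ) + l) * hh n := mul_nonneg (by omega) (Nat.cast_nonneg _)
      have h1 : ((k:ℤ) + l) * hh n < hh (n + 1) := by
        rw [hh_succ, Nat.cast_mul]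
        exact mul_lt_mul_of_pos_right (by omega) (by exact_mod_cast hh_pos n)
      have hc := crd_zpow (n + 1) (l * hh n - (P % hh n : ℕ)) y (by rw [e0]; exact h0) (by rw [e0]; exact h1)
      simp only [lf, hc, e0, mfun, cf]
      rw [show (((k:ℤ) + l) * hh n).toNat = ((k:ℤ) + l).toNat * hh n by
        rw [Int.toNat_mul (by omega) (Nat.cast_nonneg _), Int.toNat_natCast]]
      simp only [Prod.smul_fst, Prod.smul_snd, smul_eq_mul]
      ring
    rw [hX, hlfn]
    refine le_of_eq ?_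
    congr 2
    simp only [lf, ← hP, mfun, Eco, ← hk, Prod.smul_fst, Prod.smul_snd, Prod.fst_sub, Prod.snd_sub, smul_eq_mul]
    ring

theorem nrm2_Eco_le (n : ℕ) (α : ℕ → ℂ) (B : ℝ) (hB : ∀ p < hh n, ‖α p‖ ≤ B) :
    nrm2 (n + 1) (Eco (jj n) n α) ≤ B ^ 2 * (16 / (n + 1)) := by
  have h0 := hh_pos n
  rw [nrm2, hh_succ, sum_range_mul']
  have hle : ∀ k ∈ Finset.range (QQ n), ∑ p ∈ Finset.range (hh n),
      (‖(Eco (jj n) n α (k * hh n + p)).1‖ ^ 2 + ‖(Eco (jj n) n α (k * hh n + p)).2‖ ^ 2) ≤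
      (hh n : ℝ) * (B ^ 2 * (‖(conv (jj n) n k).1 - (ep (jj n) n k).1‖ ^ 2
        + ‖(conv (jj n) n k).2 - (ep (jj n) n k).2‖ ^ 2)) := by
    intro k _
    refine (Finset.sum_le_card_nsmul _ _ (B ^ 2 * (‖(conv (jj n) n k).1 - (ep (jj n) n k).1‖ ^ 2
        + ‖(conv (jj n) n k).2 - (ep (jj n) n k).2‖ ^ 2)) fun p hp => ?_).trans_eq (by simp)
    have hp' := Finset.mem_range.1 hp
    simp only [Eco, Nat.add_comm (k * hh n) p, Nat.add_mul_mod_self_right, Nat.mod_eq_of_lt hp',
      Nat.add_mul_div_right _ _ h0, Nat.div_eq_of_lt hp', Nat.zero_add, Prod.smul_fst, Prod.smul_snd,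
      Prod.fst_sub, Prod.snd_sub, norm_smul, mul_pow, ← mul_add]
    gcongr
    exact hB p hp'
  refine (mul_le_mul_of_nonneg_left (Finset.sum_le_sum hle) (by positivity)).trans ?_
  rw [← Finset.mul_sum, ← Finset.mul_sum]
  have hQ : (0:ℝ) < QQ n := by exact_mod_cast QQ_pos n
  have hH : (0:ℝ) < hh n := by exact_mod_cast h0
  refine (mul_le_mul_of_nonneg_left (mul_le_mul_of_nonneg_left
    (mul_le_mul_of_nonneg_left (sum_conv_sub_le n) (sq_nonneg B)) hH.le) (by positivity)).trans_eq ?_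
  push_cast
  field_simp

theorem integral_badind_le (n : ℕ) :
    CQ n ^ 2 * ∫ y, badind n (crd (n + 1) y).1 ∂hY ≤ 1 / (n + 1) := by
  have h1 : ((∫ y, badind n (crd (n + 1) y).1 ∂hY : ℝ) : ℂ)
      = ((((hh (n + 1) : ℕ) : ℝ)⁻¹ * ∑ p ∈ Finset.range (hh (n + 1)), badind n p : ℝ) : ℂ) := by
    rw [← integral_complex_ofReal, integral_crd (n + 1) (F := fun p _ => (badind n p : ℂ)) (fun p => continuous_const)]
    push_cast
    simp
  rw [Complex.ofReal_inj.1 h1, hh_succ, sum_range_mul']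
  have hb : ∀ k ∈ Finset.range (QQ n), ∑ p ∈ Finset.range (hh n), badind n (k * hh n + p)
      ≤ (hh n : ℝ) * (if k ∈ Finset.range (KK n + 1) ∪ Finset.Ico (QQ n - (KK n + 1)) (QQ n) then 1 else 0) := by
    intro k hk
    refine (Finset.sum_le_card_nsmul _ _
      (if k ∈ Finset.range (KK n + 1) ∪ Finset.Ico (QQ n - (KK n + 1)) (QQ n) then (1:ℝ) else 0) fun p hp => ?_).trans_eq (by simp)
    have hp' := Finset.mem_range.1 hp
    rw [badind, Nat.add_comm (k * hh n) p, Nat.add_mul_div_right _ _ (hh_pos n), Nat.div_eq_of_lt hp',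
      Nat.zero_add]
    have hk' := Finset.mem_range.1 hk
    split_ifs with h1 h2
    all_goals first
      | exact le_refl _
      | exact zero_le_one
      | (exfalso; simp only [Finset.mem_union, Finset.mem_range, Finset.mem_Ico] at h2; omega)
  have hsum : ∑ k ∈ Finset.range (QQ n),
      (if k ∈ Finset.range (KK n + 1) ∪ Finset.Ico (QQ n - (KK n + 1)) (QQ n) then (1:ℝ) else 0)
      ≤ 2 * (KK n + 1) := by
    rw [Finset.sum_boole]
    have hc : ((Finset.range (QQ n)).filter fun k =>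
        k ∈ Finset.range (KK n + 1) ∪ Finset.Ico (QQ n - (KK n + 1)) (QQ n)).card ≤ 2 * (KK n + 1) := by
      refine (Finset.card_le_card (fun k hk => (Finset.mem_filter.1 hk).2)).trans
        ((Finset.card_union_le _ _).trans ?_)
      simp only [Finset.card_range, Nat.card_Ico]; omega
    exact_mod_cast hc
  have hQ : (QQ n : ℝ) = 2 * MM n * LL n := by rw [QQ]; push_cast; ring
  have hM : (1:ℝ) ≤ MM n := by exact_mod_cast one_le_MM n
  have hL : (0:ℝ) < LL n := by exact_mod_cast one_le_LL n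
  have hH : (0:ℝ) < hh n := by exact_mod_cast hh_pos n
  calc CQ n ^ 2 * ((((QQ n * hh n : ℕ) : ℝ))⁻¹ * ∑ k ∈ Finset.range (QQ n), ∑ p ∈ Finset.range (hh n), badind n (k * hh n + p))
      ≤ CQ n ^ 2 * ((((QQ n * hh n : ℕ) : ℝ))⁻¹ * ((hh n : ℝ) * (2 * (KK n + 1)))) := by
        gcongr
        refine (Finset.sum_le_sum hb).trans ?_
        rw [← Finset.mul_sum]
        gcongr
  _ = CQ n ^ 2 * (KK n + 1) / (LL n : ℝ) / MM n := by rw [Nat.cast_mul, hQ]; field_simp
  _ ≤ CQ n ^ 2 * (KK n + 1) / (LL n : ℝ) := div_le_self (by positivity) hM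
  _ ≤ 1 / (n + 1) := KK_LL_le n

/-- At stage `n`, one vector generates the positive level functions of mode `jj n` up to `O(1/√n)`. -/
theorem norm_Xvec_sub_sq_le (n : ℕ) (α : ℕ → ℂ) (B : ℝ) (hB : ∀ p < hh n, ‖α p‖ ≤ B) :
    ‖Xvec (jj n) n α - iota (jj n) n (fun p => (α p, 0))‖ ^ 2 ≤ 25 * B ^ 2 / (n + 1) := by
  set j := jj n with hjdef
  have hj : j ≠ 0 := by simp [j, jj]
  have hE := norm_iota_sq j (n + 1) hj (Eco j n α)
  rw [norm_sq_eq_integral] at hE
  have hE2 : Integrable (fun y => ‖lf j (n + 1) (Eco j n α) y‖ ^ 2) hY :=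
    (memLp_two_iff_integrable_sq_norm (measurable_lf _ _ _).aestronglyMeasurable).1 (memLp_lf _ _ _)
  have hmb : Measurable fun y => badind n (crd (n + 1) y).1 :=
    (Measurable.of_discrete (f := badind n)).comp (measurable_fst.comp (measurable_crd (n + 1)))
  have hbi : Integrable (fun y => badind n (crd (n + 1) y).1) hY :=
    Integrable.of_bound hmb.aestronglyMeasurable 1 (Eventually.of_forall fun y => by
      simp only [badind]; split_ifs <;> simp)
  rw [norm_sq_eq_integral]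
  refine (integral_mono_of_nonneg (Eventually.of_forall fun y => sq_nonneg _)
    (hE2.fun_add (hbi.const_mul ((3 * B * CQ n) ^ 2))) ?_).trans ?_
  · filter_upwards [Lp.coeFn_sub (Xvec j n α) (iota j n (fun p => (α p, 0))), coeFn_Xvec j n α,
      coeFn_iota j n (fun p => (α p, 0))] with y h1 h2 h3
    rw [h1, Pi.sub_apply, h2, h3]
    exact Xfun_sub_le j n α B hB y
  · rw [integral_add hE2 (hbi.const_mul _), integral_const_mul]
    have e1 : ∫ y, ‖lf j (n + 1) (Eco j n α) y‖ ^ 2 ∂hY = nrm2 (n + 1) (Eco j n α) := by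
      rw [← hE]; exact integral_congr_ae ((coeFn_iota j (n + 1) (Eco j n α)).mono fun y hy => by simp only; rw [hy])
    rw [e1]
    have h2 : (3 * B * CQ n) ^ 2 * ∫ y, badind n (crd (n + 1) y).1 ∂hY ≤ 9 * B ^ 2 * (1 / (n + 1)) := by
      rw [show (3 * B * CQ n) ^ 2 * ∫ y, badind n (crd (n + 1) y).1 ∂hY
        = 9 * B ^ 2 * (CQ n ^ 2 * ∫ y, badind n (crd (n + 1) y).1 ∂hY) by ring]
      exact mul_le_mul_of_nonneg_left (integral_badind_le n) (by positivity)
    refine (add_le_add (nrm2_Eco_le n α B hB) h2).trans_eq ?_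
    ring

/-- the symmetric level functions are shifts of the generator -/
theorem iota_sym_eq (j n : ℕ) (b : ℕ → ℂ) :
    iota j n (fun p => (b p, b p)) = ∑ r ∈ Finset.range (hh n), b r • (UU ^ (-(r:ℤ))) (fvec j n) := by
  refine Lp.ext ?_
  have hterm : ∀ r ∈ Finset.range (hh n), ∀ᵐ y ∂hY, (b r • (UU ^ (-(r:ℤ))) (fvec j n) : HH) y
      = b r * lf j n fco (((TT.toEquiv : Equiv.Perm YY) ^ (-(r:ℤ))) y) := by
    intro r _
    filter_upwards [Lp.coeFn_smul (b r) ((UU ^ (-(r:ℤ))) (fvec j n)),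
      coeFn_UU_zpow_iota j n fco (-(r:ℤ))] with y h1 h2
    rw [h1, Pi.smul_apply, smul_eq_mul]
    exact congrArg _ h2
  filter_upwards [coeFn_iota j n (fun p => (b p, b p)),
    Lp.coeFn_finsetSum (Finset.range (hh n)) (fun r => b r • (UU ^ (-(r:ℤ))) (fvec j n)),
    (eventually_all_finset _).2 hterm] with y h1 h2 h3
  rw [h1, h2, Finset.sum_apply, Finset.sum_eq_single_of_mem (pos n y.1) (Finset.mem_range.2 (pos_lt n y.1))]
  · rw [h3 _ (Finset.mem_range.2 (pos_lt n y.1))]
    have hlt := pos_lt n y.1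
    have hc := crd_zpow n (-(pos n y.1 : ℤ)) y (by omega) (by omega)
    simp only [lf, hc]
    simp [mfun, crd, fco]
    ring
  · intro r hr hne
    rw [h3 r hr, lf_fco_eq_zero, mul_zero]
    intro h0
    have := (pos_zpow_eq_zero_iff n 0 r (Finset.mem_range.1 hr) y).1 (by simpa using h0)
    exact hne this

end

end Vale.Agent.P130
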