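import Vale.Agent.P130.Main
import Vale.Agent.P130.Filter

/-! A single vector is cyclic for the Koopman operator: simple spectrum on all of `L²`. -/

namespace Vale.Agent.P130

open MeasureTheory Filter Topology Set
open scoped ENNReal ComplexConjugate InnerProductSpace

noncomputable section

attribute [local irreducible] lev gg pos natO act dinv coc

/-- span of the orbit -/
def Os (g : HH) : Submodule ℂ HH := Submodule.span ℂ (Set.range fun k : ℤ => (UU ^ k) g)

/-- cyclic space -/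
def Zs (g : HH) : Submodule ℂ HH := (Os g).topologicalClosure

theorem zpow_zpow_apply (a b : ℤ) (x : HH) : (UU ^ a) ((UU ^ b) x) = (UU ^ (a + b)) x := by
  rw [zpow_add]; rfl

theorem zpow_zero_apply (x : HH) : (UU ^ (0:ℤ)) x = x := by rw [zpow_zero]; rfl

theorem isClosed_Zs (g : HH) : IsClosed (Zs g : Set HH) := (Os g).isClosed_topologicalClosure

instance (g : HH) : CompleteSpace (Zs g) := (isClosed_Zs g).completeSpace_coe

theorem zpow_mem_Os (g : HH) (k : ℤ) : (UU ^ k) g ∈ Os g := Submodule.subset_span ⟨k, rfl⟩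

theorem self_mem_Os (g : HH) : g ∈ Os g := by
  have h := zpow_mem_Os g 0
  rwa [zpow_zero_apply] at h

theorem Os_le_Zs (g : HH) : Os g ≤ Zs g := (Os g).le_topologicalClosure

theorem self_mem_Zs (g : HH) : g ∈ Zs g := Os_le_Zs g (self_mem_Os g)

theorem mem_Os_zpow {x g : HH} (hx : x ∈ Os g) (k : ℤ) : (UU ^ k) x ∈ Os g := by
  induction hx using Submodule.span_induction with
  | mem y hy => obtain ⟨l, rfl⟩ := hy; simp only [zpow_zpow_apply]; exact zpow_mem_Os g _
  | zero => rw [map_zero]; exact zero_mem _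
  | add y z _ _ hy hz => rw [map_add]; exact add_mem hy hz
  | smul c y _ hy => rw [map_smul]; exact Submodule.smul_mem _ c hy

theorem mem_Zs_zpow {x g : HH} (hx : x ∈ Zs g) (k : ℤ) : (UU ^ k) x ∈ Zs g :=
  map_mem_closure (UU ^ k).continuous hx fun _ hy => mem_Os_zpow hy k

theorem Zs_mono {x g : HH} (hx : x ∈ Zs g) : Zs x ≤ Zs g :=
  Submodule.topologicalClosure_minimal _
    (Submodule.span_le.2 (by rintro _ ⟨k, rfl⟩; exact mem_Zs_zpow hx k)) (isClosed_Zs g)

/-- the closed subspace of the mode `j` -/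
def MJ (j : ℕ) : Submodule ℂ HH :=
  (Submodule.span ℂ {x : HH | ∃ n a, x = iota j n a}).topologicalClosure

theorem isClosed_MJ (j : ℕ) : IsClosed (MJ j : Set HH) := Submodule.isClosed_topologicalClosure _

instance (j : ℕ) : CompleteSpace (MJ j) := (isClosed_MJ j).completeSpace_coe

theorem iota_mem_MJ (j n : ℕ) (a : Coef) : iota j n a ∈ MJ j :=
  Submodule.le_topologicalClosure _ (Submodule.subset_span ⟨n, a, rfl⟩)

theorem inner_MJ_eq_zero {j : ℕ} {v x : HH} (h : ∀ n a, ⟪v, iota j n a⟫_ℂ = 0) (hx : x ∈ MJ j) :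
    ⟪v, x⟫_ℂ = 0 := by
  have hle : MJ j ≤ LinearMap.ker (innerSL ℂ v).toLinearMap := by
    refine Submodule.topologicalClosure_minimal _ (Submodule.span_le.2 ?_) (innerSL ℂ v).isClosed_ker
    rintro _ ⟨n, a, rfl⟩
    exact h n a
  exact hle hx

theorem mem_MJ_of_orth {j : ℕ} {x : HH} (h : ∀ i n a, i ≠ j → ⟪iota i n a, x⟫_ℂ = 0) : x ∈ MJ j := by
  set P := (MJ j).starProjection x with hP
  have hPm : P ∈ MJ j := Submodule.starProjection_apply_mem _ _
  suffices x - P = 0 by rwa [sub_eq_zero.1 this]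
  refine eq_zero_of_forall_inner_iota _ fun i n a => ?_
  by_cases hi : i = j
  · subst hi
    exact Submodule.inner_right_of_mem_orthogonal (iota_mem_MJ i n a)
      (Submodule.sub_starProjection_mem_orthogonal x)
  · rw [inner_sub_right, h i n a hi, inner_MJ_eq_zero (fun m b => inner_iota_ne i j n m hi a b) hPm,
      sub_zero]

theorem zpow_iota_mem_MJ (j n : ℕ) (a : Coef) (k : ℤ) : (UU ^ k) (iota j n a) ∈ MJ j := by
  refine mem_MJ_of_orth fun i m b hi => ?_
  obtain ⟨t, rfl | rfl⟩ := Int.eq_nat_or_neg k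
  · rw [zpow_natCast]
    exact inner_iota_UU_pow_ne j i n m t hi a b
  · have h := inner_pow_pow (t : ℤ) 0 (iota i m b) (iota j n a)
    rw [zpow_zero_apply, zero_sub, zpow_natCast] at h
    rw [← h, ← inner_conj_symm, inner_iota_UU_pow_ne i j m n t hi.symm b a, map_zero]

theorem zpow_mem_MJ {j : ℕ} {x : HH} (hx : x ∈ MJ j) (k : ℤ) : (UU ^ k) x ∈ MJ j := by
  have hle : MJ j ≤ (MJ j).comap (UU ^ k).toLinearEquiv.toLinearMap := by
    refine Submodule.topologicalClosure_minimal _ (Submodule.span_le.2 ?_)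
      ((isClosed_MJ j).preimage (UU ^ k).continuous)
    rintro _ ⟨n, a, rfl⟩
    exact zpow_iota_mem_MJ j n a k
  exact hle hx

theorem Os_le_MJ {j : ℕ} {x : HH} (hx : x ∈ MJ j) : Os x ≤ MJ j :=
  Submodule.span_le.2 (by rintro _ ⟨k, rfl⟩; exact zpow_mem_MJ hx k)

theorem Zs_le_MJ {j : ℕ} {x : HH} (hx : x ∈ MJ j) : Zs x ≤ MJ j :=
  Submodule.topologicalClosure_minimal _ (Os_le_MJ hx) (isClosed_MJ j)

theorem VV_le_MJ_one {x : HH} (hx : x ∈ VV) : x ∈ MJ 1 :=
  mem_MJ_of_orth fun i n a hi => by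
    rw [← inner_conj_symm, mem_VV_inner_iota hx i n a hi, map_zero]

/-! ### weak limits on a mode -/

theorem tendsto_MJ (J : ℕ) (hJ : 2 ≤ J) {i : ℕ} {x : HH} (hx : x ∈ MJ i) (v : HH) :
    Tendsto (fun m => ⟪v, (UU ^ tt (stg J m)) x⟫_ℂ) atTop (𝓝 (cJ J i * ⟪v, x⟫_ℂ)) := by
  set S := Submodule.span ℂ {y : HH | ∃ n a, y = iota i n a} with hS
  have hspan : ∀ u ∈ S, Tendsto (fun m => ⟪v, (UU ^ tt (stg J m)) u⟫_ℂ) atTop
      (𝓝 (cJ J i * ⟪v, u⟫_ℂ)) := by
    intro u hu
    induction hu using Submodule.span_induction with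
    | mem y hy =>
      obtain ⟨n, a, rfl⟩ := hy
      simpa only [inner_smul_right] using tendsto_rigid J i hJ n a v
    | zero => simp only [map_zero, inner_zero_right, mul_zero]; exact tendsto_const_nhds
    | add y z _ _ hy hz => simp only [map_add, inner_add_right, mul_add]; exact hy.add hz
    | smul c y _ hy =>
      simp only [map_smul, inner_smul_right, ← mul_assoc, mul_comm (cJ J i) c]
      simp only [mul_assoc]
      exact hy.const_mul c
  rw [Metric.tendsto_nhds]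
  intro ε hε
  set C := (1 + ‖cJ J i‖) * (‖v‖ + 1) with hC
  have hC0 : 0 < C := by positivity
  obtain ⟨u, hu, hdu⟩ := Metric.mem_closure_iff.1 (show x ∈ closure (S : Set HH) from hx) (ε / (2 * C))
    (by positivity)
  rw [dist_eq_norm] at hdu
  filter_upwards [(Metric.tendsto_nhds.1 (hspan u hu)) (ε / 2) (by positivity)] with m hm'
  rw [dist_eq_norm] at hm' ⊢
  have e : ⟪v, (UU ^ tt (stg J m)) x⟫_ℂ - cJ J i * ⟪v, x⟫_ℂ
      = (⟪v, (UU ^ tt (stg J m)) (x - u)⟫_ℂ - cJ J i * ⟪v, x - u⟫_ℂ)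
        + (⟪v, (UU ^ tt (stg J m)) u⟫_ℂ - cJ J i * ⟪v, u⟫_ℂ) := by
    rw [map_sub, inner_sub_right, inner_sub_right]; ring
  have h1 : ‖⟪v, (UU ^ tt (stg J m)) (x - u)⟫_ℂ‖ ≤ ‖v‖ * ‖x - u‖ :=
    (norm_inner_le_norm _ _).trans_eq (by rw [LinearIsometryEquiv.norm_map])
  have h2 : ‖cJ J i * ⟪v, x - u⟫_ℂ‖ ≤ ‖cJ J i‖ * (‖v‖ * ‖x - u‖) := by
    rw [norm_mul]; exact mul_le_mul_of_nonneg_left (norm_inner_le_norm _ _) (norm_nonneg _)
  have h3 : ‖x - u‖ * C < ε / 2 := by
    calc _ < ε / (2 * C) * C := mul_lt_mul_of_pos_right hdu hC0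
    _ = ε / 2 := by field_simp
  rw [e]
  have h4 : (1 + ‖cJ J i‖) * (‖v‖ * ‖x - u‖) ≤ ‖x - u‖ * C := by
    rw [hC]; nlinarith [norm_nonneg (x - u), norm_nonneg (cJ J i), norm_nonneg v]
  linarith [norm_add_le (⟪v, (UU ^ tt (stg J m)) (x - u)⟫_ℂ - cJ J i * ⟪v, x - u⟫_ℂ)
      (⟪v, (UU ^ tt (stg J m)) u⟫_ℂ - cJ J i * ⟪v, u⟫_ℂ),
    norm_sub_le ⟪v, (UU ^ tt (stg J m)) (x - u)⟫_ℂ (cJ J i * ⟪v, x - u⟫_ℂ)]

theorem no_eigen {j : ℕ} (hj : 2 ≤ j) {v : HH} (hv : v ∈ MJ j) {μ : ℂ} (h : UU v = μ • v) : v = 0 := by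
  by_contra hv0
  have hμ : ‖μ‖ = 1 := by
    have h' := congrArg norm h
    rw [LinearIsometryEquiv.norm_map, norm_smul] at h'
    exact mul_right_cancel₀ (norm_ne_zero_iff.2 hv0) (by rw [one_mul]; exact h'.symm)
  have hpow : ∀ t : ℕ, (UU ^ t) v = μ ^ t • v := by
    intro t
    induction t with
    | zero => rw [pow_zero, pow_zero, one_smul]; rfl
    | succ t ih =>
      rw [pow_succ', LinearIsometryEquiv.mul_def, LinearIsometryEquiv.trans_apply, ih, map_smul, h,
        smul_smul, ← pow_succ]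
  have ht := (tendsto_MJ j hj hv v).norm
  simp only [hpow, inner_smul_right, norm_mul, norm_pow, hμ, one_pow, one_mul] at ht
  have h2 := tendsto_nhds_unique tendsto_const_nhds ht
  rw [cJ, if_neg (by omega : j ≠ 0), if_pos dvd_rfl] at h2
  have h3 : ‖(1:ℂ) - (j:ℂ)⁻¹‖ = 1 - (j:ℝ)⁻¹ := by
    rw [show (1:ℂ) - (j:ℂ)⁻¹ = ((1 - (j:ℝ)⁻¹ : ℝ) : ℂ) by push_cast; ring, Complex.norm_real,
      Real.norm_eq_abs, abs_of_nonneg]
    have : (2:ℝ) ≤ j := by exact_mod_cast hj
    rw [sub_nonneg, inv_le_one₀ (by linarith)]; linarith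
  rw [h3] at h2
  have h4 : ‖⟪v, v⟫_ℂ‖ ≠ 0 := by simpa using hv0
  have : (0:ℝ) < (j:ℝ)⁻¹ := by positivity
  exact h4 (by nlinarith [norm_nonneg ⟪v, v⟫_ℂ])

/-- The orbit of `(U - λ) h` generates `h` in a mode without eigenvectors. -/
theorem mem_Zs_sub_smul {j : ℕ} (hj : 2 ≤ j) {h : HH} (hh' : h ∈ MJ j) (c : ℂ) :
    h ∈ Zs (UU h - c • h) := by
  set g := UU h - c • h with hg
  have hU : UU h = (UU ^ (1:ℤ)) h := by rw [zpow_one]
  have hgm : g ∈ Zs h := by
    refine sub_mem ?_ (Submodule.smul_mem _ c (self_mem_Zs h))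
    rw [hU]; exact mem_Zs_zpow (self_mem_Zs h) 1
  set P := (Zs g).starProjection h with hP
  have hPm : P ∈ Zs g := Submodule.starProjection_apply_mem _ _
  set w := h - P with hw
  suffices w = 0 by rw [sub_eq_zero.1 this]; exact hPm
  have hwh : w ∈ Zs h := sub_mem (self_mem_Zs h) (Zs_mono hgm hPm)
  have hworth : ∀ k : ℤ, ⟪(UU ^ k) g, w⟫_ℂ = 0 := fun k =>
    Submodule.inner_right_of_mem_orthogonal (mem_Zs_zpow (self_mem_Zs g) k)
      (Submodule.sub_starProjection_mem_orthogonal h)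
  have hrec : ∀ k : ℤ, ⟪(UU ^ k) h, (UU ^ (-1:ℤ)) w - conj c • w⟫_ℂ = 0 := by
    intro k
    have h1 := hworth k
    rw [hg, map_sub, map_smul, hU, zpow_zpow_apply, inner_sub_left, inner_smul_left] at h1
    rw [inner_sub_right, inner_smul_right]
    have h2 := inner_pow_pow (-1) (-1) ((UU ^ (k + 1)) h) w
    rw [zpow_zpow_apply, sub_self, zpow_zero_apply, show (-1:ℤ) + (k + 1) = k by ring] at h2
    rw [h2]; exact h1
  set u := (UU ^ (-1:ℤ)) w - conj c • w with hu
  have hum : u ∈ Zs h := sub_mem (mem_Zs_zpow hwh _) (Submodule.smul_mem _ _ hwh)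
  have hu0 : u = 0 := by
    have hle : Zs h ≤ LinearMap.ker (innerSL ℂ u).toLinearMap := by
      refine Submodule.topologicalClosure_minimal _ (Submodule.span_le.2 ?_) (innerSL ℂ u).isClosed_ker
      rintro _ ⟨k, rfl⟩
      show ⟪u, (UU ^ k) h⟫_ℂ = 0
      rw [← inner_conj_symm, hrec k, map_zero]
    exact inner_self_eq_zero.1 (hle hum)
  have he : (UU ^ (-1:ℤ)) w = conj c • w := sub_eq_zero.1 hu0
  have h5 : w = conj c • UU w := by
    have := congrArg (UU ^ (1:ℤ)) he
    rw [zpow_zpow_apply, show (1:ℤ) + -1 = 0 by ring, zpow_zero_apply, map_smul, zpow_one] at this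
    exact this
  by_cases hc : conj c = 0
  · rw [h5, hc, zero_smul]
  · refine no_eigen hj (Zs_le_MJ hh' hwh) (μ := (conj c)⁻¹) ?_
    conv_rhs => rw [h5]
    rw [smul_smul, inv_mul_cancel₀ hc, one_smul]

/-! ### polynomials in `U` -/

/-- the Koopman operator as an endomorphism -/
def Ul : Module.End ℂ HH := UU.toLinearEquiv.toLinearMap

/-- polynomial in `U` applied to a vector -/
def pv (P : Polynomial ℂ) (f : HH) : HH := Polynomial.aeval Ul P f

theorem pv_add (P Q : Polynomial ℂ) (f : HH) : pv (P + Q) f = pv P f + pv Q f := by simp [pv]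

theorem pv_mul (P Q : Polynomial ℂ) (f : HH) : pv (P * Q) f = pv P (pv Q f) := by
  simp [pv, Module.End.mul_apply]

theorem pv_C (c : ℂ) (f : HH) : pv (Polynomial.C c) f = c • f := by
  simp [pv, Module.algebraMap_end_apply]

theorem pv_one (f : HH) : pv 1 f = f := by simp [pv]

theorem pv_X (f : HH) : pv Polynomial.X f = UU f := by simp [pv, Ul]

theorem pv_X_pow (k : ℕ) (f : HH) : pv (Polynomial.X ^ k) f = (UU ^ (k:ℤ)) f := by
  induction k with
  | zero => rw [pow_zero, pv_one, Nat.cast_zero, zpow_zero_apply]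
  | succ k ih =>
    rw [pow_succ', pv_mul, ih, pv_X, show ((k + 1 : ℕ) : ℤ) = 1 + (k:ℤ) by push_cast; ring,
      ← zpow_zpow_apply, zpow_one]

theorem pv_mem_Zs (P : Polynomial ℂ) (f : HH) : pv P f ∈ Zs f := by
  induction P using Polynomial.induction_on' with
  | add p q hp hq => rw [pv_add]; exact add_mem hp hq
  | monomial n c =>
    rw [← Polynomial.C_mul_X_pow_eq_monomial, pv_mul, pv_C, pv_X_pow]
    exact Submodule.smul_mem _ _ (mem_Zs_zpow (self_mem_Zs f) _)

theorem exists_pv_of_mem_Os {f u : HH} (hu : u ∈ Os f) :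
    ∃ (M : ℕ) (P : Polynomial ℂ), (UU ^ (M:ℤ)) u = pv P f := by
  induction hu using Submodule.span_induction with
  | mem y hy =>
    obtain ⟨k, rfl⟩ := hy
    obtain ⟨t, rfl | rfl⟩ := Int.eq_nat_or_neg k
    · exact ⟨0, Polynomial.X ^ t, by simp only [Nat.cast_zero, zpow_zero_apply, pv_X_pow]⟩
    · exact ⟨t, 1, by simp only [zpow_zpow_apply, add_neg_cancel, zpow_zero_apply, pv_one]⟩
  | zero => exact ⟨0, 0, by simp [pv]⟩
  | add y z _ _ hy hz =>
    obtain ⟨M, P, hP⟩ := hy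
    obtain ⟨N, Q, hQ⟩ := hz
    refine ⟨M + N, Polynomial.X ^ N * P + Polynomial.X ^ M * Q, ?_⟩
    rw [pv_add, pv_mul, pv_mul, pv_X_pow, pv_X_pow, ← hP, ← hQ, zpow_zpow_apply, zpow_zpow_apply, map_add]
    push_cast
    rw [add_comm (N:ℤ) M]
  | smul c y _ hy =>
    obtain ⟨M, P, hP⟩ := hy
    exact ⟨M, Polynomial.C c * P, by rw [pv_mul, pv_C, map_smul, hP]⟩

theorem mem_Zs_pv {j : ℕ} (hj : 2 ≤ j) {f : HH} (hf : f ∈ MJ j) {P : Polynomial ℂ} (hP : P ≠ 0) :
    f ∈ Zs (pv P f) := by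
  induction hn : P.natDegree generalizing P with
  | zero =>
    obtain ⟨c, rfl⟩ := Polynomial.natDegree_eq_zero.1 hn
    have hc : c ≠ 0 := by simpa using hP
    have h := Submodule.smul_mem (Zs (pv (Polynomial.C c) f)) c⁻¹ (self_mem_Zs _)
    rw [pv_C] at h ⊢
    rwa [smul_smul, inv_mul_cancel₀ hc, one_smul] at h
  | succ n ih =>
    obtain ⟨r, hr⟩ := IsAlgClosed.exists_root P (by
      rw [Polynomial.degree_eq_natDegree hP, hn]; exact_mod_cast Nat.succ_ne_zero n)
    obtain ⟨P1, rfl⟩ := Polynomial.dvd_iff_isRoot.2 hr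
    have hP1 : P1 ≠ 0 := right_ne_zero_of_mul hP
    have hd : P1.natDegree = n := by
      rw [Polynomial.natDegree_mul (Polynomial.X_sub_C_ne_zero r) hP1, Polynomial.natDegree_X_sub_C] at hn
      omega
    have hg : pv P1 f ∈ MJ j := Zs_le_MJ hf (pv_mem_Zs P1 f)
    have he : pv ((Polynomial.X - Polynomial.C r) * P1) f = UU (pv P1 f) - r • pv P1 f := by
      rw [pv_mul]
      simp [pv, Ul, Module.algebraMap_end_apply]
    rw [he]
    exact Zs_mono (mem_Zs_sub_smul hj hg r) (ih hP1 hd)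

theorem mem_Zs_pv_zero {f : HH} {h : ℕ} (hper : (UU ^ (h:ℤ)) f = f) {P : Polynomial ℂ}
    (hco : IsCoprime P (Polynomial.X ^ h - 1)) : f ∈ Zs (pv P f) := by
  obtain ⟨a, b, hab⟩ := hco
  have h1 := congrArg (pv · f) hab
  simp only [pv_add, pv_mul, pv_one] at h1
  have h2 : pv (Polynomial.X ^ h - 1) f = 0 := by
    have := pv_X_pow h f
    simp only [pv] at this ⊢
    rw [map_sub, map_one, LinearMap.sub_apply, this, hper, Module.End.one_apply, sub_self]
  rw [h2] at h1
  have h3 : pv b (0 : HH) = 0 := by simp [pv]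
  rw [h3, add_zero] at h1
  have h4 := pv_mem_Zs a (pv P f)
  rwa [h1] at h4

/-! ### generators of the modes -/

/-- the coefficient vector of a point mass -/
def dlt (p : ℕ) (b : Bool) : Coef := fun q => if q = p then (if b then (0, 1) else (1, 0)) else 0

theorem iota_congr (j n : ℕ) (a b : Coef) (h : ∀ p < hh n, a p = b p) : iota j n a = iota j n b :=
  MemLp.toLp_congr (memLp_lf j n a) (memLp_lf j n b) (Eventually.of_forall fun y => by
    simp only [lf, crd, mfun, h _ (pos_lt n y.1)])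

theorem iota_eq_sum_dlt (j n : ℕ) (a : Coef) :
    iota j n a = ∑ p ∈ Finset.range (hh n),
      ((a p).1 • iota j n (dlt p false) + (a p).2 • iota j n (dlt p true)) := by
  simp only [← map_smul, ← map_add, ← map_sum]
  refine iota_congr _ _ _ _ fun q hq => ?_
  rw [Finset.sum_apply, Finset.sum_eq_single_of_mem q (Finset.mem_range.2 hq)
    fun p _ hp => by simp [dlt, Ne.symm hp]]
  simp [dlt]

theorem MJ_le_Zs {j : ℕ} {g : HH} (h : ∀ n p b, iota j n (dlt p b) ∈ Zs g) : MJ j ≤ Zs g := by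
  refine Submodule.topologicalClosure_minimal _ (Submodule.span_le.2 ?_) (isClosed_Zs g)
  rintro _ ⟨n, a, rfl⟩
  rw [SetLike.mem_coe, iota_eq_sum_dlt]
  exact Submodule.sum_mem _ fun p _ =>
    add_mem (Submodule.smul_mem _ _ (h n p false)) (Submodule.smul_mem _ _ (h n p true))

theorem approx_MJ {j : ℕ} (f : ℕ → HH)
    (hiota : ∀ n a, ∀ ε > 0, ∀ᶠ k in atTop, ∃ u ∈ Os (f k), ‖iota j n a - u‖ < ε)
    {x : HH} (hx : x ∈ MJ j) : ∀ ε > 0, ∀ᶠ k in atTop, ∃ u ∈ Os (f k), ‖x - u‖ < ε := by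
  have hspan : ∀ y ∈ Submodule.span ℂ {x : HH | ∃ n a, x = iota j n a},
      ∀ ε > 0, ∀ᶠ k in atTop, ∃ u ∈ Os (f k), ‖y - u‖ < ε := by
    intro y hy
    induction hy using Submodule.span_induction with
    | mem z hz => obtain ⟨n, a, rfl⟩ := hz; exact hiota n a
    | zero => exact fun ε hε => Eventually.of_forall fun k => ⟨0, zero_mem _, by simpa using hε⟩
    | add y z _ _ hy hz =>
      intro ε hε
      filter_upwards [hy (ε / 2) (by positivity), hz (ε / 2) (by positivity)] with k h1 h2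
      obtain ⟨u, hu, hu'⟩ := h1
      obtain ⟨w, hw, hw'⟩ := h2
      refine ⟨u + w, add_mem hu hw, ?_⟩
      rw [add_sub_add_comm]
      linarith [norm_add_le (y - u) (z - w)]
    | smul c y _ hy =>
      intro ε hε
      filter_upwards [hy (ε / (‖c‖ + 1)) (by positivity)] with k h1
      obtain ⟨u, hu, hu'⟩ := h1
      refine ⟨c • u, Submodule.smul_mem _ c hu, ?_⟩
      rw [← smul_sub, norm_smul]
      calc ‖c‖ * ‖y - u‖ ≤ (‖c‖ + 1) * ‖y - u‖ := by gcongr; linarith
      _ < (‖c‖ + 1) * (ε / (‖c‖ + 1)) := mul_lt_mul_of_pos_left hu' (by positivity)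
      _ = ε := by field_simp
  intro ε hε
  obtain ⟨y, hy, hxy⟩ := Metric.mem_closure_iff.1 (show x ∈ closure _ from hx) (ε / 2) (by positivity)
  rw [dist_eq_norm] at hxy
  filter_upwards [hspan y hy (ε / 2) (by positivity)] with k hk
  obtain ⟨u, hu, hu'⟩ := hk
  exact ⟨u, hu, by linarith [norm_sub_le_norm_sub_add_norm_sub x y u]⟩

/-- Baire category: a mode generated by nice vectors is cyclic. -/
theorem exists_generator_MJ (j : ℕ) (f : ℕ → HH) (hf : ∀ k, f k ∈ MJ j)
    (hiota : ∀ n a, ∀ ε > 0, ∀ᶠ k in atTop, ∃ u ∈ Os (f k), ‖iota j n a - u‖ < ε)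
    (hgood : ∀ k P (M : ℕ), {η : ℂ | f k ∉ Zs (pv (P + Polynomial.C η * Polynomial.X ^ M) (f k))}.Finite) :
    ∃ g, g ∈ MJ j ∧ MJ j ≤ Zs g := by
  set O : (ℕ × ℕ × Bool) × ℕ → Set (MJ j) := fun i =>
    ⋃ c : ℤ →₀ ℂ, {g : MJ j | ‖iota j i.1.1 (dlt i.1.2.1 i.1.2.2)
      - ∑ k ∈ c.support, c k • (UU ^ k) (g : HH)‖ < 1 / ((i.2 : ℝ) + 1)} with hO
  have hopen : ∀ i, IsOpen (O i) := fun i => isOpen_iUnion fun c =>
    isOpen_lt (continuous_norm.comp (continuous_const.sub (continuous_finsetSum _ fun k _ =>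
      ((UU ^ k).continuous.comp continuous_subtype_val).const_smul (c k)))) continuous_const
  have hdense : ∀ i, Dense (O i) := by
    intro i
    rw [Metric.dense_iff]
    intro g0 r hr
    set δ := 1 / ((i.2 : ℝ) + 1) with hδ
    obtain ⟨k, hk1, hk2⟩ := ((approx_MJ f hiota g0.2 (r / 2) (by positivity)).and
      (approx_MJ f hiota (iota_mem_MJ j i.1.1 (dlt i.1.2.1 i.1.2.2)) δ (by positivity))).exists
    obtain ⟨u0, hu0, hu0'⟩ := hk1
    obtain ⟨u1, hu1, hu1'⟩ := hk2
    obtain ⟨M, P, hMP⟩ := exists_pv_of_mem_Os hu0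
    have hball : (Metric.ball (0:ℂ) (r / (2 * (‖f k‖ + 1)))).Infinite :=
      infinite_of_mem_nhds 0 (Metric.ball_mem_nhds 0 (by positivity))
    obtain ⟨η, hη, hη'⟩ := (hball.sdiff (hgood k P M)).nonempty
    rw [mem_ball_zero_iff] at hη
    simp only [mem_ofPred_eq, not_not] at hη'
    have hgm : u0 + η • f k ∈ MJ j := add_mem (Os_le_MJ (hf k) hu0) (Submodule.smul_mem _ η (hf k))
    refine ⟨⟨u0 + η • f k, hgm⟩, ?_, ?_⟩
    · rw [Metric.mem_ball, Subtype.dist_eq, dist_eq_norm]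
      show ‖u0 + η • f k - (g0 : HH)‖ < r
      have h1 : ‖η • f k‖ < r / 2 := by
        rw [norm_smul]
        calc ‖η‖ * ‖f k‖ ≤ ‖η‖ * (‖f k‖ + 1) := by gcongr; linarith
        _ < r / (2 * (‖f k‖ + 1)) * (‖f k‖ + 1) := mul_lt_mul_of_pos_right hη (by positivity)
        _ = r / 2 := by field_simp
      rw [show u0 + η • f k - (g0 : HH) = η • f k - ((g0 : HH) - u0) by abel]
      linarith [norm_sub_le (η • f k) ((g0 : HH) - u0)]
    · have hgf : f k ∈ Zs (u0 + η • f k) := by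
        refine Zs_mono ?_ hη'
        rw [pv_add, pv_mul, pv_C, pv_X_pow, ← hMP, ← map_smul, ← map_add]
        exact mem_Zs_zpow (self_mem_Zs _) _
      have hu1Z : u1 ∈ closure (Os (u0 + η • f k) : Set HH) := Zs_mono hgf (Os_le_Zs _ hu1)
      obtain ⟨w, hw, hw'⟩ := Metric.mem_closure_iff.1 hu1Z
        (δ - ‖iota j i.1.1 (dlt i.1.2.1 i.1.2.2) - u1‖) (by linarith)
      rw [dist_eq_norm] at hw'
      obtain ⟨c, hc⟩ := Finsupp.mem_span_range_iff_exists_finsupp.1 hw
      refine mem_iUnion.2 ⟨c, ?_⟩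
      simp only [mem_ofPred_eq]
      rw [Finsupp.sum] at hc
      rw [hc]
      linarith [norm_sub_le_norm_sub_add_norm_sub (iota j i.1.1 (dlt i.1.2.1 i.1.2.2)) u1 w]
  obtain ⟨g, hg⟩ := (dense_iInter_of_isOpen hopen hdense).nonempty
  refine ⟨g, g.2, MJ_le_Zs fun n p b => ?_⟩
  refine Metric.mem_closure_iff.2 fun ε hε => ?_
  obtain ⟨k, hk⟩ := exists_nat_one_div_lt hε
  obtain ⟨c, hc⟩ := mem_iUnion.1 (mem_iInter.1 hg ((n, p, b), k))
  exact ⟨∑ l ∈ c.support, c l • (UU ^ l) (g : HH),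
    Submodule.sum_mem _ fun l _ => Submodule.smul_mem _ _ (zpow_mem_Os _ l),
    by rw [dist_eq_norm]; exact lt_trans hc hk⟩

theorem exists_gen_two {j : ℕ} (hj : 2 ≤ j) : ∃ g, g ∈ MJ j ∧ MJ j ≤ Zs g := by
  refine exists_generator_MJ j (fun k => fvec j (stg j k)) (fun k => iota_mem_MJ _ _ _) ?_ ?_
  · intro n₀ a ε hε
    set B := 2 * bnd n₀ a with hB
    have ht : Tendsto (fun k => 25 * B ^ 2 / ((stg j k : ℝ) + 1)) atTop (𝓝 0) :=
      tendsto_const_nhds.div_atTop (tendsto_atTop_add_const_right atTop 1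
        (tendsto_natCast_atTop_atTop.comp (tendsto_stg j)))
    filter_upwards [(tendsto_stg j).eventually (eventually_ge_atTop n₀),
      ht.eventually (gt_mem_nhds (show (0:ℝ) < ε ^ 2 by positivity))] with k hk hk'
    obtain ⟨u, hu⟩ := Nat.exists_eq_add_of_le hk
    set a' := liftc j n₀ a u with ha'
    have hl : iota j (stg j k) a' = iota j n₀ a := by rw [hu]; exact iota_liftc j n₀ a u
    set α : ℕ → ℂ := fun p => (a' p).1 - (a' p).2 with hα
    set b : ℕ → ℂ := fun p => (a' p).2 with hb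
    have hαB : ∀ p < hh (stg j k), ‖α p‖ ≤ B := by
      intro p hp
      have h1 := slot_bound_lift j n₀ a u p (hu ▸ hp)
      rw [hα, hB]
      linarith [norm_sub_le (a' p).1 (a' p).2, norm_nonneg (a' p).1, norm_nonneg (a' p).2]
    have hdec : iota j (stg j k) a'
        = iota j (stg j k) (fun p => (α p, 0)) + iota j (stg j k) (fun p => (b p, b p)) := by
      rw [← map_add]
      exact iota_congr _ _ _ _ fun p _ => by simp [hα, hb]
    have h2 := norm_Xvec_sub_sq_le (stg j k) α B hαB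
    rw [jj_stg j k hj] at h2
    refine ⟨Xvec j (stg j k) α + iota j (stg j k) (fun p => (b p, b p)), add_mem ?_ ?_, ?_⟩
    · exact Submodule.sum_mem _ fun r _ => Submodule.sum_mem _ fun l _ =>
        Submodule.smul_mem _ _ (zpow_mem_Os _ _)
    · rw [iota_sym_eq]
      exact Submodule.sum_mem _ fun r _ => Submodule.smul_mem _ _ (zpow_mem_Os _ _)
    · rw [← hl, hdec, add_sub_add_right_eq_sub, ← norm_neg, neg_sub]
      exact lt_of_pow_lt_pow_left₀ 2 hε.le (lt_of_le_of_lt h2 hk')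
  · intro k P M
    refine (Set.finite_singleton (-P.coeff M)).subset fun η hη => ?_
    by_contra hne
    refine hη (mem_Zs_pv hj (iota_mem_MJ _ _ _) fun h0 => hne ?_)
    have h := congrArg (fun Q : Polynomial ℂ => Q.coeff M) h0
    simp only [Polynomial.coeff_add, Polynomial.coeff_C_mul, Polynomial.coeff_X_pow, if_true, mul_one,
      Polynomial.coeff_zero] at h
    rw [mem_singleton_iff]; linear_combination h

theorem exists_gen_zero : ∃ g, g ∈ MJ 0 ∧ MJ 0 ≤ Zs g := by
  refine exists_generator_MJ 0 (fun n => iota 0 n (dlt 0 false)) (fun k => iota_mem_MJ _ _ _) ?_ ?_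
  · intro n₀ a ε hε
    filter_upwards [eventually_ge_atTop n₀] with n hn
    refine ⟨iota 0 n₀ a, ?_, by simpa using hε⟩
    obtain ⟨a', ha'⟩ := exists_level_coef 0 n₀ n hn a
    rw [← ha']
    have hrw : iota 0 n a' = ∑ p ∈ Finset.range (hh n), ((a' p).1 + (a' p).2) • iota 0 n (dlt p false) := by
      simp only [← map_smul, ← map_sum]
      refine MemLp.toLp_congr (memLp_lf 0 n _) (memLp_lf 0 n _) (Eventually.of_forall fun y => ?_)
      simp only [lf, mfun_zero, crd, Finset.sum_apply, Pi.smul_apply, Prod.fst_sum, Prod.snd_sum]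
      rw [← Finset.sum_add_distrib, Finset.sum_eq_single_of_mem (pos n y.1) (Finset.mem_range.2 (pos_lt n y.1))
        fun p _ hp => by simp [dlt, Ne.symm hp]]
      simp [dlt]
    rw [hrw]
    have hsh : ∀ p < hh n, iota 0 n (dlt p false) ∈ Os (iota 0 n (dlt 0 false)) := by
      intro p
      induction p with
      | zero => intro _; exact self_mem_Os _
      | succ p ih =>
        intro hp
        have h1 : UU (iota 0 n (dlt (p + 1) false)) = iota 0 n (dlt p false) :=
          UU_iota_shift 0 n _ _ (fun q _ => by simp [dlt]) (by simp [dlt]; omega) (by simp [dlt])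
        have h2 := mem_Os_zpow (ih (by omega)) (-1)
        rw [← h1] at h2
        rw [show UU (iota 0 n (dlt (p + 1) false)) = (UU ^ (1:ℤ)) (iota 0 n (dlt (p + 1) false)) by
          rw [zpow_one], zpow_zpow_apply, neg_add_cancel, zpow_zero_apply] at h2
        exact h2
    exact Submodule.sum_mem _ fun p hp => Submodule.smul_mem _ _ (hsh p (Finset.mem_range.1 hp))
  · intro n P M
    have hper : (UU ^ (hh n : ℤ)) (iota 0 n (dlt 0 false)) = iota 0 n (dlt 0 false) := by
      rw [zpow_natCast]; simpa using UU_pow_iota_zero n 1 (dlt 0 false)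
    have hfin : {z : ℂ | z ^ hh n = 1}.Finite := by
      refine (Polynomial.finite_setOfPred_isRoot (Polynomial.X_pow_sub_C_ne_zero (hh_pos n) (1:ℂ))).subset
        fun z hz => ?_
      simp_all [Polynomial.IsRoot]
    refine (hfin.image fun z => -(P.eval z) / z ^ M).subset fun η hη => ?_
    by_contra hne
    refine hη (mem_Zs_pv_zero hper ?_)
    refine (Polynomial.isCoprime_iff_aeval_ne_zero_of_isAlgClosed (k := ℂ) ℂ _ _).2 fun z => ?_
    rw [or_iff_not_imp_right, not_not]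
    intro hz
    simp only [Polynomial.coe_aeval_eq_eval, Polynomial.eval_sub, Polynomial.eval_pow, Polynomial.eval_X,
      Polynomial.eval_one, Polynomial.eval_add, Polynomial.eval_mul, Polynomial.eval_C, sub_eq_zero] at hz ⊢
    intro h0
    have hz0 : z ≠ 0 := by
      intro h; rw [h, zero_pow (hh_pos n).ne'] at hz; exact zero_ne_one hz
    refine hne ⟨z, hz, ?_⟩
    show -(P.eval z) / z ^ M = η
    rw [div_eq_iff (pow_ne_zero _ hz0)]
    linear_combination -h0

theorem exists_gen (i : ℕ) : ∃ g, g ∈ MJ i ∧ MJ i ≤ Zs g := by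
  rcases lt_trichotomy i 1 with h | h | h
  · rw [show i = 0 by omega]; exact exists_gen_zero
  · subst h
    have hx : x0 ∈ VV := by
      rw [VV_eq_closure_span]
      exact Submodule.le_topologicalClosure _ (self_mem_Os x0)
    refine ⟨x0, VV_le_MJ_one hx, ?_⟩
    refine Submodule.topologicalClosure_minimal _ (Submodule.span_le.2 ?_) (isClosed_Zs x0)
    rintro _ ⟨n, a, rfl⟩
    have h1 := iota_one_mem_VV n a
    rw [VV_eq_closure_span] at h1
    exact h1
  · exact exists_gen_two h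

/-! ### one cyclic vector for all of `L²` -/

theorem sieve (a : ℕ → ℂ) (ha : Summable fun i => ‖a i‖) (h0 : a 0 = 0)
    (h : ∀ J, 1 ≤ J → ∑' i, (if J ∣ i then a i else 0) = 0) (j : ℕ) : a j = 0 := by
  rcases Nat.eq_zero_or_pos j with rfl | hj
  · exact h0
  have hs : ∀ (p : ℕ → Prop) [DecidablePred p], Summable fun i => if p i then a i else 0 := fun p _ =>
    (ha.of_norm_bounded (fun i => by split_ifs <;> simp))
  have key : ∀ S : Finset ℕ, (∀ d ∈ S, 1 ≤ d) → ∀ L, 1 ≤ L →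
      ∑' i, (if L ∣ i ∧ ∀ d ∈ S, ¬ d ∣ i then a i else 0) = 0 := by
    intro S
    induction S using Finset.induction_on with
    | empty => intro _ L hL; simpa using h L hL
    | insert d S _ ih =>
      intro hS L hL
      have hd : 1 ≤ d := hS d (Finset.mem_insert_self _ _)
      have ih' := ih fun e he => hS e (Finset.mem_insert_of_mem he)
      have e : (fun i => if L ∣ i ∧ ∀ e ∈ insert d S, ¬ e ∣ i then a i else 0)
          = fun i => (if L ∣ i ∧ ∀ e ∈ S, ¬ e ∣ i then a i else 0)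
            - (if Nat.lcm L d ∣ i ∧ ∀ e ∈ S, ¬ e ∣ i then a i else 0) := by
        funext i
        simp only [Finset.forall_mem_insert, Nat.lcm_dvd_iff]
        by_cases h1 : L ∣ i <;> by_cases h2 : d ∣ i <;> simp [h1, h2]
      rw [e, Summable.tsum_sub (hs fun i => L ∣ i ∧ ∀ e ∈ S, ¬ e ∣ i)
          (hs fun i => Nat.lcm L d ∣ i ∧ ∀ e ∈ S, ¬ e ∣ i), ih' L hL,
        ih' _ (Nat.lcm_pos hL hd), sub_zero]
  have hlim := tendsto_tsum_of_dominated_convergence (𝓕 := atTop) (bound := fun i => ‖a i‖)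
    (f := fun (N : ℕ) (i : ℕ) => if j ∣ i ∧ ∀ d ∈ (Finset.Icc 2 (N + 2)).image (· * j), ¬ d ∣ i then a i else 0)
    (g := fun i : ℕ => if i = j then a i else 0) ha ?_
    (Eventually.of_forall fun N i => by split_ifs <;> simp)
  · have hz : ∀ N : ℕ, ∑' i : ℕ, (if j ∣ i ∧ ∀ d ∈ (Finset.Icc 2 (N + 2)).image (· * j), ¬ d ∣ i then a i else 0) = 0 :=
      fun N => key ((Finset.Icc 2 (N + 2)).image (· * j)) (fun d hd => by
        obtain ⟨m, hm1, rfl⟩ := Finset.mem_image.1 hd
        exact Nat.one_le_iff_ne_zero.2 (Nat.mul_ne_zero (by have := (Finset.mem_Icc.1 hm1).1; omega) (by omega))) j hj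
    rw [tsum_eq_single j (fun i hi => if_neg hi), if_pos rfl] at hlim
    simp only [hz] at hlim
    exact (tendsto_nhds_unique tendsto_const_nhds hlim).symm
  · intro i
    by_cases hij : i = j
    · subst hij
      rw [if_pos rfl]
      refine tendsto_const_nhds.congr' (Eventually.of_forall fun N => ?_)
      dsimp only
      rw [if_pos]
      refine ⟨dvd_rfl, fun d hd hdi => ?_⟩
      obtain ⟨m, hm1, rfl⟩ := Finset.mem_image.1 hd
      have h1 := Nat.le_of_dvd (by omega) hdi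
      have h2 : 2 * i ≤ m * i := Nat.mul_le_mul_right _ (Finset.mem_Icc.1 hm1).1
      omega
    · rw [if_neg hij]
      by_cases hi0 : i = 0
      · simp [hi0, h0]
      refine tendsto_const_nhds.congr' ?_
      filter_upwards [eventually_ge_atTop i] with N hN
      rw [if_neg]
      rintro ⟨⟨m, hm1⟩, hS⟩
      have hm2 : 2 ≤ m := by
        rcases m with _ | _ | m
        · simp at hm1; omega
        · simp at hm1; omega
        · omega
      have hm3 : m ≤ i := by rw [hm1]; exact Nat.le_mul_of_pos_left m hj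
      exact hS (m * j) (Finset.mem_image.2 ⟨m, Finset.mem_Icc.2 ⟨hm2, by omega⟩, rfl⟩)
        (by rw [hm1, mul_comm])

/-- `U` has simple spectrum on `L²`. -/
theorem exists_cyclic : ∃ F : HH, Zs F = ⊤ := by
  choose g hg1 hg2 using exists_gen
  set G : ℕ → HH := fun i => (((1 / 2 : ℝ) ^ i / (‖g i‖ + 1) : ℝ) : ℂ) • g i with hG
  have hw : ∀ i, (0:ℝ) < (1 / 2) ^ i / (‖g i‖ + 1) := fun i => by positivity
  have hGn : ∀ i, ‖G i‖ ≤ (1 / 2) ^ i := by
    intro i
    rw [hG, norm_smul, Complex.norm_real, Real.norm_eq_abs, abs_of_pos (hw i), div_mul_eq_mul_div,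
      div_le_iff₀ (by positivity)]
    gcongr; linarith
  have hGm : ∀ i, G i ∈ MJ i := fun i => Submodule.smul_mem _ _ (hg1 i)
  have hGZ : ∀ i, MJ i ≤ Zs (G i) := fun i => (hg2 i).trans (Zs_mono (by
    have h := Submodule.smul_mem (Zs (G i)) ((((1 / 2 : ℝ) ^ i / (‖g i‖ + 1) : ℝ) : ℂ))⁻¹ (self_mem_Zs _)
    rwa [hG, smul_smul, inv_mul_cancel₀ (by exact_mod_cast (hw i).ne'), one_smul] at h))
  have hsg : Summable fun i : ℕ => (1 / 2 : ℝ) ^ i := summable_geometric_of_lt_one (by norm_num) (by norm_num)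
  have hsum : Summable G := hsg.of_norm_bounded hGn
  refine ⟨∑' i, G i, ?_⟩
  set F := ∑' i, G i with hF
  rw [Zs, Submodule.topologicalClosure_eq_top_iff, Submodule.eq_bot_iff]
  intro v hv
  set a : ℕ → ℤ → ℂ := fun i k => ⟪v, (UU ^ k) (G i)⟫_ℂ with ha
  have hbound : ∀ i k, ‖a i k‖ ≤ ‖v‖ * (1 / 2) ^ i := fun i k =>
    (norm_inner_le_norm _ _).trans (mul_le_mul_of_nonneg_left
      ((LinearIsometryEquiv.norm_map _ _).trans_le (hGn i)) (norm_nonneg _))
  have hzero : ∀ k, ∑' i, a i k = 0 := by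
    intro k
    have h1 : HasSum (fun i => a i k) ⟪v, (UU ^ k) F⟫_ℂ :=
      (hsum.hasSum.map (UU ^ k) (UU ^ k).continuous).mapL (innerSL ℂ v)
    rw [h1.tsum_eq]
    exact Submodule.inner_left_of_mem_orthogonal (zpow_mem_Os F k) hv
  have hJ : ∀ J, 2 ≤ J → ∀ k, ∑' i, cJ J i * a i k = 0 := by
    intro J hJ2 k
    have hlim := tendsto_tsum_of_dominated_convergence (𝓕 := atTop)
      (f := fun m i => a i (k + (tt (stg J m) : ℤ))) (g := fun i => cJ J i * a i k)
      (hsg.mul_left ‖v‖) ?_ (Eventually.of_forall fun m i => hbound i _)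
    · simp only [hzero] at hlim
      exact (tendsto_nhds_unique tendsto_const_nhds hlim).symm
    intro i
    have h1 := tendsto_MJ J hJ2 (hGm i) ((UU ^ (-k)) v)
    have e1 : ∀ l : ℤ, ⟪(UU ^ (-k)) v, (UU ^ l) (G i)⟫_ℂ = a i (k + l) := fun l => by
      rw [inner_pow_pow, sub_neg_eq_add, add_comm l k]
    have e0 := e1 0
    rw [zpow_zero_apply, add_zero] at e0
    simp only [← zpow_natCast, e1, e0] at h1
    exact h1
  suffices hall : ∀ i k, a i k = 0 by
    refine eq_zero_of_forall_inner_iota v fun i n b => ?_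
    have hle : Zs (G i) ≤ LinearMap.ker (innerSL ℂ v).toLinearMap := by
      refine Submodule.topologicalClosure_minimal _ (Submodule.span_le.2 ?_) (innerSL ℂ v).isClosed_ker
      rintro _ ⟨k, rfl⟩
      exact hall i k
    have : ⟪v, iota i n b⟫_ℂ = 0 := hle (hGZ i (iota_mem_MJ i n b))
    rw [← inner_conj_symm, this, map_zero]
  intro i k
  have hsa : Summable fun i => ‖a i k‖ := (hsg.mul_left ‖v‖).of_nonneg_of_le (fun i => norm_nonneg _) fun i => hbound i k
  have ha0 : a 0 k = 0 := by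
    have hlim := tendsto_tsum_of_dominated_convergence (𝓕 := atTop)
      (f := fun J i => cJ (J + 2) i * a i k) (g := fun i => if i = 0 then a i k else 0) hsa ?_ ?_
    · rw [tsum_eq_single 0 (fun i hi => if_neg hi), if_pos rfl] at hlim
      simp only [hJ _ (Nat.le_add_left 2 _)] at hlim
      exact (tendsto_nhds_unique tendsto_const_nhds hlim).symm
    · intro i
      by_cases hi : i = 0
      · simp only [cJ, hi, if_true, one_mul]; exact tendsto_const_nhds
      · rw [if_neg hi]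
        refine tendsto_const_nhds.congr' ?_
        filter_upwards [eventually_ge_atTop i] with J hJi
        rw [cJ, if_neg hi, if_neg, zero_mul]
        intro hd; have := Nat.le_of_dvd (Nat.pos_of_ne_zero hi) hd; omega
    · refine Eventually.of_forall fun J i => ?_
      rw [norm_mul]
      refine mul_le_of_le_one_left (norm_nonneg _) ?_
      simp only [cJ]
      split_ifs
      · simp
      · rw [show (1:ℂ) - ((J + 2 : ℕ) : ℂ)⁻¹ = ((1 - ((J + 2 : ℕ) : ℝ)⁻¹ : ℝ) : ℂ) by push_cast; ring,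
          Complex.norm_real, Real.norm_eq_abs, abs_le]
        have h1 : ((J + 2 : ℕ) : ℝ)⁻¹ ≤ 1 := inv_le_one_of_one_le₀ (by push_cast; linarith [Nat.cast_nonneg (α := ℝ) J])
        have h2 : (0:ℝ) ≤ ((J + 2 : ℕ) : ℝ)⁻¹ := by positivity
        constructor <;> linarith
      · simp
  refine sieve (fun i => a i k) hsa ha0 (fun J hJ1 => ?_) i
  rcases (show J = 1 ∨ 2 ≤ J by omega) with rfl | hJ2
  · simpa using hzero k
  · have hJ0 : (1:ℂ) - (J:ℂ)⁻¹ ≠ 0 := by
      rw [sub_ne_zero]; intro h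
      have : (J:ℂ) = 1 := inv_eq_one.1 h.symm
      have : J = 1 := by exact_mod_cast this
      omega
    have e : (fun i => cJ J i * a i k) = fun i => (1 - (J:ℂ)⁻¹) * (if J ∣ i then a i k else 0) := by
      funext i
      by_cases hi : i = 0
      · simp [hi, ha0]
      · simp only [cJ, if_neg hi]; split_ifs <;> simp
    have := hJ J hJ2 k
    rw [e, tsum_mul_left, mul_eq_zero] at this
    exact this.resolve_left hJ0

end

end Vale.Agent.P130
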