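import Vale.Agent.P130.Basic

/-! The isometries `z ↦ ± z + a` of the circle. -/

namespace Vale.Agent.P130

open MeasureTheory

noncomputable section

/-- An isometry of the circle: `(f, a)` stands for `z ↦ a + (-1)^f z`. -/
abbrev Dih : Type := Bool × UnitAddCircle

/-- action on the circle -/
def act (g : Dih) (z : UnitAddCircle) : UnitAddCircle := g.2 + (if g.1 then -z else z)

/-- composition -/
def dcomp (g g' : Dih) : Dih := (xor g.1 g'.1, act g g'.2)

/-- inverse -/
def dinv (g : Dih) : Dih := (g.1, if g.1 then g.2 else -g.2)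

/-- identity -/
def done : Dih := (false, 0)

@[simp] theorem act_done (z : UnitAddCircle) : act done z = z := by simp [act, done]

theorem act_dcomp (g g' : Dih) (z : UnitAddCircle) : act (dcomp g g') z = act g (act g' z) := by
  rcases g with ⟨⟨⟩ | ⟨⟩, a⟩ <;> rcases g' with ⟨⟨⟩ | ⟨⟩, b⟩ <;> simp [act, dcomp] <;> abel

@[simp] theorem act_dinv_act (g : Dih) (z : UnitAddCircle) : act (dinv g) (act g z) = z := by
  rcases g with ⟨⟨⟩ | ⟨⟩, a⟩ <;> simp [act, dinv]

@[simp] theorem act_act_dinv (g : Dih) (z : UnitAddCircle) : act g (act (dinv g) z) = z := by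
  rcases g with ⟨⟨⟩ | ⟨⟩, a⟩ <;> simp [act, dinv]

theorem act_injective (g : Dih) : Function.Injective (act g) :=
  Function.LeftInverse.injective (act_dinv_act g)

theorem act_dinv_dcomp (g g' : Dih) (z : UnitAddCircle) :
    act (dinv (dcomp g g')) z = act (dinv g') (act (dinv g) z) := by
  apply act_injective (dcomp g g')
  rw [act_act_dinv, act_dcomp, act_act_dinv, act_act_dinv]

theorem continuous_act (g : Dih) : Continuous (act g) := by
  rcases g with ⟨⟨⟩ | ⟨⟩, a⟩
  · exact continuous_const.add continuous_id
  · exact continuous_const.add continuous_neg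

theorem measurePreserving_act (g : Dih) : MeasurePreserving (act g) hm hm := by
  rcases g with ⟨⟨⟩ | ⟨⟩, a⟩
  · exact measurePreserving_add_left hm a
  · have := (measurePreserving_add_left hm a).comp (Measure.measurePreserving_neg hm)
    exact this

end

end Vale.Agent.P130
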