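import Vale.Agent.P130.Modes

/-! The transforms of mode-one level functions and their almost compatibility. -/

namespace Vale.Agent.P130

open MeasureTheory Filter Topology Set
open scoped ENNReal ComplexConjugate InnerProductSpace

noncomputable section

attribute [local irreducible] lev gg pos natO act dinv coc

theorem sum_range_mul' {α : Type*} [AddCommMonoid α] (f : ℕ → α) (Q h : ℕ) :
    ∑ p ∈ Finset.range (Q * h), f p = ∑ k ∈ Finset.range Q, ∑ p ∈ Finset.range h, f (k * h + p) := by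
  induction Q with
  | zero => simp
  | succ Q ih => rw [Nat.succ_mul, Finset.sum_range_add, ih, Finset.sum_range_succ]

theorem measurePreserving_mulNat (h : ℕ) (hh0 : 0 < h) :
    MeasurePreserving (fun θ : UnitAddCircle => h • θ) hm hm := by
  have := Measure.measurePreserving_zsmul hm (n := (h:ℤ)) (by omega)
  simpa using this

theorem measurable_nsmul' (h : ℕ) : Measurable fun θ : UnitAddCircle => h • θ :=
  (continuous_nsmul h).measurable

theorem fourier_nsmul_arg (k : ℤ) (h : ℕ) (θ : UnitAddCircle) :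
    fourier k (h • θ) = fourier (k * h) θ := by
  simp only [fourier_eq_ex, mul_smul, natCast_zsmul]

/-- trigonometric polynomial -/
def FF (h : ℕ) (c : ℕ → ℂ) (θ : UnitAddCircle) : ℂ :=
  ∑ p ∈ Finset.range h, c p * fourier (p:ℤ) θ

theorem continuous_FF (h : ℕ) (c : ℕ → ℂ) : Continuous (FF h c) := by unfold FF; fun_prop

theorem norm_FF_le (h : ℕ) (c : ℕ → ℂ) (θ : UnitAddCircle) :
    ‖FF h c θ‖ ≤ ∑ p ∈ Finset.range h, ‖c p‖ :=
  (norm_sum_le _ _).trans_eq (by simp [-fourier_apply, norm_fourier_apply])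

theorem integral_comp_mul_fourier_eq_zero (h : ℕ) (hh0 : 0 < h) (ψ : UnitAddCircle → ℝ) (m : ℤ)
    (hm0 : m ≠ 0) (hmh : |m| < h) :
    ∫ θ, (ψ (h • θ) : ℂ) * fourier m θ ∂hm = 0 := by
  set τ : UnitAddCircle := (((1:ℝ) / h : ℝ) : UnitAddCircle) with hτ
  have hτ0 : h • τ = 0 := by
    rw [hτ, ← AddCircle.coe_nsmul, nsmul_eq_mul, mul_one_div_cancel (by exact_mod_cast hh0.ne')]
    exact AddCircle.coe_period 1
  have hne : fourier m τ ≠ 1 := by
    intro hc
    rw [hτ, fourier_coe_apply, Complex.exp_eq_one_iff] at hc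
    obtain ⟨k, hk⟩ := hc
    have h1 : ((h:ℤ) * k : ℂ) = (m:ℂ) := by
      have hh' : (h:ℂ) ≠ 0 := by exact_mod_cast hh0.ne'
      push_cast at hk ⊢
      field_simp at hk
      have := Complex.two_pi_I_ne_zero
      linear_combination -hk
    have h2 : (h:ℤ) * k = m := by exact_mod_cast h1
    rcases eq_or_ne k 0 with rfl | hk0
    · simp at h2; exact hm0 h2.symm
    · have := Int.one_le_abs hk0
      have h3 : |m| = (h:ℤ) * |k| := by rw [← h2, abs_mul, Nat.abs_cast]
      nlinarith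
  set J := ∫ θ, (ψ (h • θ) : ℂ) * fourier m θ ∂hm with hJ
  have hshift : J = fourier m τ * J := by
    conv_lhs => rw [hJ, ← integral_add_right_eq_self (fun θ => (ψ (h • θ) : ℂ) * fourier m θ) τ]
    rw [hJ, ← integral_const_mul]
    refine integral_congr_ae (Eventually.of_forall fun θ => ?_)
    simp only [smul_add, hτ0, add_zero, fourier_add_arg]
    ring
  by_contra hJ0
  exact hne (mul_right_cancel₀ hJ0 (by rw [one_mul]; exact hshift.symm))

theorem integrable_comp_mul (h : ℕ) (hh0 : 0 < h) {ψ : UnitAddCircle → ℝ} (hψ : Integrable ψ hm) :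
    Integrable (fun θ => ψ (h • θ)) hm :=
  (measurePreserving_mulNat h hh0).integrable_comp_of_integrable hψ

theorem integral_comp_mul (h : ℕ) (hh0 : 0 < h) {ψ : UnitAddCircle → ℝ} (hψ : Integrable ψ hm) :
    ∫ θ, ψ (h • θ) ∂hm = ∫ x, ψ x ∂hm := by
  have hmp := measurePreserving_mulNat h hh0
  conv_rhs => rw [← hmp.map_eq]
  rw [integral_map hmp.measurable.aemeasurable (by rw [hmp.map_eq]; exact hψ.aestronglyMeasurable)]

/-- A function of `h θ` is orthogonal to the oscillating part of `|F|²` when `deg F < h`. -/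
theorem integral_comp_mul_normSq (h : ℕ) (hh0 : 0 < h) {ψ : UnitAddCircle → ℝ}
    (hψ : Integrable ψ hm) (c : ℕ → ℂ) :
    ∫ θ, ψ (h • θ) * ‖FF h c θ‖ ^ 2 ∂hm
      = (∫ x, ψ x ∂hm) * ∑ p ∈ Finset.range h, ‖c p‖ ^ 2 := by
  apply Complex.ofReal_injective
  rw [← integral_complex_ofReal]
  have hpt : ∀ θ, ((ψ (h • θ) * ‖FF h c θ‖ ^ 2 : ℝ) : ℂ) = ∑ p ∈ Finset.range h, ∑ q ∈ Finset.range h,
      (c p * conj (c q)) * ((ψ (h • θ) : ℂ) * fourier ((p:ℤ) + -(q:ℤ)) θ) := by
    intro θ
    rw [Complex.ofReal_mul, Complex.ofReal_pow, ← Complex.mul_conj', FF, map_sum, Finset.sum_mul_sum,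
      Finset.mul_sum]
    refine Finset.sum_congr rfl fun p _ => ?_
    rw [Finset.mul_sum]
    refine Finset.sum_congr rfl fun q _ => ?_
    rw [map_mul, fourier_add, fourier_neg]; ring
  have hi : ∀ (a : ℂ) (m : ℤ), Integrable (fun θ => a * ((ψ (h • θ) : ℂ) * fourier m θ)) hm := by
    intro a m
    refine Integrable.const_mul ?_ a
    exact ((integrable_mul_of_continuous ((integrable_comp_mul h hh0 hψ).ofReal) (fourier m))).congr
      (Eventually.of_forall fun θ => mul_comm _ _)
  simp_rw [hpt]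
  rw [integral_finsetSum _ fun p _ => integrable_finsetSum _ fun q _ => hi _ _,
    Finset.sum_congr rfl fun p _ => integral_finsetSum _ fun q _ => hi _ _]
  simp_rw [integral_const_mul]
  push_cast
  rw [Finset.mul_sum]
  refine Finset.sum_congr rfl fun p hp => ?_
  rw [Finset.sum_eq_single p]
  · simp only [add_neg_cancel, fourier_zero, mul_one, integral_complex_ofReal,
      integral_comp_mul h hh0 hψ, ← Complex.mul_conj']
    ring
  · intro q hq hne
    rw [integral_comp_mul_fourier_eq_zero h hh0 ψ, mul_zero]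
    · omega
    · simp only [Finset.mem_range] at hp hq
      rw [abs_lt]; omega
  · intro hp'; exact absurd hp hp'

theorem chi_neg_ae (M : ℕ) (hM : 1 ≤ M) : ∀ᵐ x ∂hm, chi M (-x) = 1 - chi M x := by
  have hnull : ∀ᵐ x ∂hm, (2 * M) • x ≠ 0 := by
    have h := (measurePreserving_mulNat (2 * M) (by omega)).quasiMeasurePreserving.ae
      (compl_mem_ae_iff.2 (measure_singleton (μ := hm) (0 : UnitAddCircle)))
    exact h
  filter_upwards [hnull] with x hx
  set u := Int.fract ((M:ℝ) * rep x) with hu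
  have hxu : ((u : ℝ) : UnitAddCircle) = M • x := by
    conv_rhs => rw [← coe_rep x, ← AddCircle.coe_nsmul, nsmul_eq_mul]
    rw [hu, ← rep_coe, coe_rep]
  have hu0 : u ≠ 0 := by
    intro h
    apply hx
    rw [mul_smul, ← hxu, h]; simp
  have huh : u ≠ 1 / 2 := by
    intro h
    apply hx
    rw [mul_smul, ← hxu, h, ← AddCircle.coe_nsmul]
    norm_num
  have hneg : Int.fract ((M:ℝ) * rep (-x)) = 1 - u := by
    have h1 : Int.fract ((M:ℝ) * rep (-x)) = rep (M • (-x)) := by
      conv_rhs => rw [← coe_rep (-x), ← AddCircle.coe_nsmul, nsmul_eq_mul, rep_coe]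
    have h2 : M • (-x) = ((-u : ℝ) : UnitAddCircle) := by
      rw [smul_neg, AddCircle.coe_neg, hxu]
    rw [h1, h2, rep_coe, Int.fract_neg (by rwa [Int.fract_fract]), Int.fract_fract]
  unfold chi
  rw [hneg, ← hu]
  by_cases h : u < 1 / 2
  · rw [if_pos h, if_neg (by linarith)]; simp
  · rw [if_neg h, if_pos]
    · simp
    · rcases lt_or_eq_of_le (not_lt.1 h) with h' | h'
      · linarith
      · exact absurd h'.symm huh

theorem integral_chi (M : ℕ) (hM : 1 ≤ M) : ∫ x, chi M x ∂hm = 1 / 2 := by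
  have hi : Integrable (chi M) hm :=
    Integrable.of_bound (measurable_chi M).aestronglyMeasurable 1
      (Eventually.of_forall fun x => by simpa using abs_chi_le M x)
  have h1 : ∫ x, chi M (-x) ∂hm = ∫ x, chi M x ∂hm := integral_neg_eq_self _ _
  rw [integral_congr_ae (chi_neg_ae M hM), integral_sub (integrable_const _) hi] at h1
  simp at h1
  linarith

theorem integrable_chi (M : ℕ) : Integrable (chi M) hm :=
  Integrable.of_bound (measurable_chi M).aestronglyMeasurable 1
    (Eventually.of_forall fun x => by simpa using abs_chi_le M x)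

/-- unit part of a complex number -/
def uph (w : ℂ) : ℂ := if w = 0 then 1 else w / (‖w‖ : ℂ)

theorem norm_uph (w : ℂ) : ‖uph w‖ = 1 := by
  unfold uph; split_ifs with h
  · simp
  · rw [norm_div, Complex.norm_real, norm_norm, div_self (norm_ne_zero_iff.2 h)]

theorem norm_mul_uph (w : ℂ) : (‖w‖ : ℂ) * uph w = w := by
  unfold uph; split_ifs with h
  · simp [h]
  · rw [mul_div_cancel₀]; simp [h]

theorem measurable_uph : Measurable uph :=
  Measurable.ite (measurableSet_singleton 0) measurable_const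
    (measurable_id.div (Complex.continuous_ofReal.measurable.comp measurable_norm))

/-- the pattern polynomial of stage `n` -/
def PA (n : ℕ) (x : UnitAddCircle) : ℂ := pat (MM n) (LL n) (band n) x

/-- the phase factor separating the two halves -/
def zz (n : ℕ) (x : UnitAddCircle) : ℂ := fourier ((MM n * LL n : ℕ):ℤ) x

theorem norm_zz (n : ℕ) (x : UnitAddCircle) : ‖zz n x‖ = 1 := norm_fourier_apply _ _

theorem continuous_PA (n : ℕ) : Continuous (PA n) := continuous_pat _ _ _

theorem continuous_zz (n : ℕ) : Continuous (zz n) := (fourier _).continuous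

theorem alpha_half (n r : ℕ) (hr : r < MM n * LL n) :
    alpha n (MM n * LL n + r) = alpha n r := by
  simp only [alpha, Nat.add_mod_left]

theorem PA_eq (n : ℕ) (x : UnitAddCircle) :
    PA n x = ∑ r ∈ Finset.range (MM n * LL n),
      fourier ((1:ℕ):ℤ) (alpha n r) * fourier (r:ℤ) x := by
  have hL := one_le_LL n
  rw [sum_range_mul', PA, pat]
  refine Finset.sum_congr rfl fun s hs => ?_
  rw [chirpSum_apply, Finset.mul_sum]
  refine Finset.sum_congr rfl fun i hi => ?_
  have hs' := Finset.mem_range.1 hs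
  have hi' := Finset.mem_range.1 hi
  have hlt : s * LL n + i < MM n * LL n := by
    have : (s + 1) * LL n ≤ MM n * LL n := Nat.mul_le_mul_right _ hs'
    rw [Nat.succ_mul] at this; omega
  have e1 : (s * LL n + i) % (MM n * LL n) % LL n = i := by
    rw [Nat.mod_eq_of_lt hlt, Nat.add_comm, Nat.add_mul_mod_self_right, Nat.mod_eq_of_lt hi']
  have e2 : (s * LL n + i) % (MM n * LL n) / LL n = s := by
    rw [Nat.mod_eq_of_lt hlt, Nat.add_comm, Nat.add_mul_div_right _ _ (show 0 < LL n from hL),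
      Nat.div_eq_of_lt hi', Nat.zero_add]
  simp only [alpha, e1, e2]
  rw [fourier_add_arg, fourier_neg_arg, fourier_eq_ex (-((1:ℕ):ℤ)), sub_eq_add_neg, fourier_add_arg]
  simp only [Nat.cast_one, neg_one_zsmul, ← smul_neg, ← fourier_eq_ex]
  have hcc : fourier (1:ℤ) ((-((i:ℝ) ^ 2) / (4 * MM n * LL n) : ℝ) : UnitAddCircle)
      = cc (MM n) (LL n) i := by
    rw [fourier_coe_apply, cc]; congr 1; push_cast; ring
  rw [hcc, Nat.cast_add, Nat.cast_mul, fourier_add]
  ring

theorem conj_PA_neg (n : ℕ) (x : UnitAddCircle) :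
    conj (PA n (-x)) = ∑ r ∈ Finset.range (MM n * LL n),
      conj (fourier ((1:ℕ):ℤ) (alpha n r)) * fourier (r:ℤ) x := by
  rw [PA_eq, map_sum]
  refine Finset.sum_congr rfl fun r _ => ?_
  rw [map_mul, fourier_neg_arg, fourier_neg, Complex.conj_conj]

theorem FF_emb (n : ℕ) (a : Coef) (θ : UnitAddCircle) :
    FF (hh (n + 1)) (fun p => (emb 1 n a p).1) θ
      = PA n (hh n • θ) * FF (hh n) (fun p => (a p).1) θ
        + zz n (hh n • θ) * conj (PA n (-(hh n • θ))) * FF (hh n) (fun p => (a p).2) θ ∧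
    FF (hh (n + 1)) (fun p => (emb 1 n a p).2) θ
      = zz n (hh n • θ) * PA n (hh n • θ) * FF (hh n) (fun p => (a p).1) θ
        + conj (PA n (-(hh n • θ))) * FF (hh n) (fun p => (a p).2) θ := by
  have hdm : ∀ k p, p < hh n → (k * hh n + p) / hh n = k ∧ (k * hh n + p) % hh n = p := by
    intro k p hp
    constructor
    · rw [Nat.add_comm, Nat.add_mul_div_right _ _ (hh_pos n), Nat.div_eq_of_lt hp, Nat.zero_add]
    · rw [Nat.add_comm, Nat.add_mul_mod_self_right, Nat.mod_eq_of_lt hp]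
  have hG1 : ∀ r, r < MM n * LL n → GG n r = (false, alpha n r) := by
    intro r hr; simp only [GG, decide_eq_false (not_le.2 hr)]
  have hG2 : ∀ r, r < MM n * LL n → GG n (MM n * LL n + r) = (true, alpha n r) := by
    intro r hr; simp only [GG, decide_eq_true (Nat.le_add_right _ r), alpha_half n r hr]
  have hsplit : ∀ k p : ℕ, fourier ((k * hh n + p : ℕ):ℤ) θ
      = fourier (k:ℤ) (hh n • θ) * fourier (p:ℤ) θ := by
    intro k p; rw [fourier_nsmul_arg, Nat.cast_add, Nat.cast_mul, fourier_add]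
  have hz : ∀ r : ℕ, fourier ((MM n * LL n + r : ℕ):ℤ) (hh n • θ)
      = zz n (hh n • θ) * fourier (r:ℤ) (hh n • θ) := by
    intro r; rw [zz, Nat.cast_add, fourier_add]
  rw [PA_eq, conj_PA_neg]
  constructor <;>
  · simp only [FF]
    rw [hh_succ, sum_range_mul', QQ, Nat.two_mul, Finset.sum_range_add]
    simp only [Finset.mul_sum, Finset.sum_mul]
    rw [Finset.sum_comm (γ := ℕ) (s := Finset.range (hh n)) (t := Finset.range (MM n * LL n)),
      Finset.sum_comm (γ := ℕ) (s := Finset.range (hh n)) (t := Finset.range (MM n * LL n))]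
    simp only [← Finset.sum_add_distrib]
    refine Finset.sum_congr rfl fun r hr => Finset.sum_congr rfl fun p hp => ?_
    obtain ⟨h1, h2⟩ := hdm r p (Finset.mem_range.1 hp)
    obtain ⟨h3, h4⟩ := hdm (MM n * LL n + r) p (Finset.mem_range.1 hp)
    simp only [emb, h1, h2, h3, h4, hG1 r (Finset.mem_range.1 hr), hG2 r (Finset.mem_range.1 hr),
      hsplit, hz, if_true, Bool.false_eq_true, if_false]
    ring

/-- normalising constant -/
def cst (n : ℕ) : ℝ := Real.sqrt 2 / Real.sqrt (hh n)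

theorem cst_sq (n : ℕ) : cst n ^ 2 = 2 / hh n := by
  rw [cst, div_pow, Real.sq_sqrt (by norm_num), Real.sq_sqrt (Nat.cast_nonneg _)]

theorem cst_nonneg (n : ℕ) : 0 ≤ cst n := by unfold cst; positivity

theorem cst_succ (n : ℕ) : cst (n + 1) = cst n / Real.sqrt (QQ n) := by
  rw [cst, cst, hh_succ, Nat.cast_mul, Real.sqrt_mul (Nat.cast_nonneg _)]; ring

/-- band indicator of level `n` -/
def bb (n : ℕ) (θ : UnitAddCircle) : ℝ := chi (MM n) (hh n • θ)

theorem measurable_bb (n : ℕ) : Measurable (bb n) :=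
  (measurable_chi _).comp (measurable_nsmul' _)

theorem bb_cases (n : ℕ) (θ : UnitAddCircle) : bb n θ = 0 ∨ bb n θ = 1 := chi_eq_zero_or_one _ _

/-- transform of level `n` -/
def psi (n : ℕ) (a : Coef) (θ : UnitAddCircle) : ℂ :=
  (cst n : ℂ) * ((bb n θ : ℂ) * FF (hh n) (fun p => (a p).1) θ
    + ((1 - bb n θ : ℝ) : ℂ) * FF (hh n) (fun p => (a p).2) θ)

theorem measurable_psi (n : ℕ) (a : Coef) : Measurable (psi n a) := by
  have h1 := Complex.continuous_ofReal.measurable.comp (measurable_bb n)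
  have h2 := Complex.continuous_ofReal.measurable.comp ((measurable_bb n).const_sub 1)
  exact ((h1.mul (continuous_FF _ _).measurable).add (h2.mul (continuous_FF _ _).measurable)).const_mul _

theorem norm_psi_sq (n : ℕ) (a : Coef) (θ : UnitAddCircle) :
    ‖psi n a θ‖ ^ 2 = (2 / hh n) * (bb n θ * ‖FF (hh n) (fun p => (a p).1) θ‖ ^ 2
      + (1 - bb n θ) * ‖FF (hh n) (fun p => (a p).2) θ‖ ^ 2) := by
  rcases bb_cases n θ with h | h <;>
    simp [psi, h, mul_pow, cst_sq]

theorem integral_norm_psi_sq (n : ℕ) (a : Coef) : ∫ θ, ‖psi n a θ‖ ^ 2 ∂hm = nrm2 n a := by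
  simp_rw [norm_psi_sq]
  have hc := integrable_chi (MM n)
  have hc' : Integrable (fun x => 1 - chi (MM n) x) hm := (integrable_const _).sub hc
  have hint : ∀ (ψ : UnitAddCircle → ℝ), Integrable ψ hm → ∀ c : ℕ → ℂ,
      Integrable (fun θ => ψ (hh n • θ) * ‖FF (hh n) c θ‖ ^ 2) hm := fun ψ hψ c =>
    (integrable_comp_mul _ (hh_pos n) hψ).mul_bdd ((continuous_FF _ c).norm.pow 2).aestronglyMeasurable
      (Eventually.of_forall fun θ => by
        rw [Real.norm_eq_abs, abs_of_nonneg (sq_nonneg _)]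
        exact pow_le_pow_left₀ (norm_nonneg _) (norm_FF_le _ c θ) 2)
  rw [integral_const_mul]
  unfold bb
  rw [integral_add (hint _ hc _) (hint (fun x => 1 - chi (MM n) x) hc' _),
    integral_comp_mul_normSq _ (hh_pos n) hc,
    integral_comp_mul_normSq _ (hh_pos n) (ψ := fun x => 1 - chi (MM n) x) hc',
    integral_sub (integrable_const _) hc, integral_chi _ (one_le_MM n), nrm2, Finset.sum_add_distrib]
  simp only [integral_const, probReal_univ, smul_eq_mul]
  ring

/-- the phase correction between levels `n` and `n + 1` -/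
def gam (n : ℕ) (θ : UnitAddCircle) : ℂ :=
  if bb n θ = 1 then
    uph (PA n (hh n • θ)) * (if bb (n + 1) θ = 1 then 1 else zz n (hh n • θ))
  else
    uph (conj (PA n (-(hh n • θ)))) * (if bb (n + 1) θ = 1 then zz n (hh n • θ) else 1)

theorem norm_gam (n : ℕ) (θ : UnitAddCircle) : ‖gam n θ‖ = 1 := by
  unfold gam; split_ifs <;> simp [norm_uph, norm_zz]

theorem measurable_gam (n : ℕ) : Measurable (gam n) := by
  have hs : ∀ k, MeasurableSet {θ | bb k θ = 1} := fun k => measurable_bb k (measurableSet_singleton 1)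
  have hn := measurable_nsmul' (hh n)
  have hP := measurable_uph.comp ((continuous_PA n).measurable.comp hn)
  have hQ := measurable_uph.comp (Complex.continuous_conj.measurable.comp
    ((continuous_PA n).measurable.comp hn.neg))
  have hz := (continuous_zz n).measurable.comp hn
  exact Measurable.ite (hs n) (hP.mul (Measurable.ite (hs (n+1)) measurable_const hz))
    (hQ.mul (Measurable.ite (hs (n+1)) hz measurable_const))

theorem sqrt_QQ (n : ℕ) : Real.sqrt (QQ n) = Real.sqrt (2 * MM n * LL n) := by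
  congr 1; rw [QQ]; push_cast; ring

theorem pdev_eq (n : ℕ) (x : UnitAddCircle) :
    pdev (MM n) (LL n) (band n) x = ‖PA n x‖ / Real.sqrt (QQ n) - chi (MM n) x := by
  rw [pdev, PA, sqrt_QQ]

theorem psi_succ_dist_le (n : ℕ) (a : Coef) (θ : UnitAddCircle) :
    ‖psi (n + 1) (emb 1 n a) θ - gam n θ * psi n a θ‖ ≤
      cst n * (|‖PA n (hh n • θ)‖ / Real.sqrt (QQ n) - bb n θ| * ‖FF (hh n) (fun p => (a p).1) θ‖
        + |‖PA n (-(hh n • θ))‖ / Real.sqrt (QQ n) - (1 - bb n θ)|
          * ‖FF (hh n) (fun p => (a p).2) θ‖) := by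
  obtain ⟨hF1, hF2⟩ := FF_emb n a θ
  have hq : 0 < Real.sqrt (QQ n) := Real.sqrt_pos.2 (by exact_mod_cast QQ_pos n)
  have hq' : (Real.sqrt (QQ n) : ℂ) ≠ 0 := by exact_mod_cast hq.ne'
  set r := Real.sqrt (QQ n)
  set F := FF (hh n) (fun p => (a p).1) θ
  set H := FF (hh n) (fun p => (a p).2) θ
  set x := hh n • θ
  set u := PA n x
  set v := conj (PA n (-x)) with hv
  have hnv : ‖PA n (-x)‖ = ‖v‖ := by rw [hv, Complex.norm_conj]
  rw [hnv]
  set c1 : ℂ := if bb (n + 1) θ = 1 then 1 else zz n x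
  set c2 : ℂ := if bb (n + 1) θ = 1 then zz n x else 1
  have hc1 : ‖c1‖ = 1 := by simp only [c1]; split_ifs <;> simp [norm_zz]
  have hc2 : ‖c2‖ = 1 := by simp only [c2]; split_ifs <;> simp [norm_zz]
  have e1 : psi (n + 1) (emb 1 n a) θ = (cst n : ℂ) * (c1 * (u / r) * F + c2 * (v / r) * H) := by
    rw [psi, hF1, hF2, cst_succ]
    rcases bb_cases (n + 1) θ with h | h <;>
      (simp only [c1, c2, h, zero_ne_one, if_false, if_true]; push_cast; ring)
  have e2 : gam n θ * psi n a θ = (cst n : ℂ) *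
      (c1 * (uph u * (bb n θ : ℂ)) * F + c2 * (uph v * ((1 - bb n θ : ℝ) : ℂ)) * H) := by
    rw [psi, gam]
    rcases bb_cases n θ with h | h <;>
      (simp only [h, zero_ne_one, if_false, if_true]; push_cast; ring)
  have key : ∀ (w : ℂ) (t : ℝ), ‖w / (r:ℂ) - uph w * (t:ℂ)‖ = |‖w‖ / r - t| := by
    intro w t
    have : w / (r:ℂ) - uph w * (t:ℂ) = uph w * ((‖w‖ / r - t : ℝ) : ℂ) := by
      conv_lhs => arg 1; rw [← norm_mul_uph w]
      push_cast; ring
    rw [this, norm_mul, norm_uph, one_mul, Complex.norm_real, Real.norm_eq_abs]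
  have e3 : psi (n + 1) (emb 1 n a) θ - gam n θ * psi n a θ = (cst n : ℂ) *
      (c1 * (u / r - uph u * (bb n θ : ℂ)) * F + c2 * (v / r - uph v * ((1 - bb n θ : ℝ) : ℂ)) * H) := by
    rw [e1, e2]; ring
  rw [e3, norm_mul, Complex.norm_real, Real.norm_eq_abs, abs_of_nonneg (cst_nonneg n)]
  refine mul_le_mul_of_nonneg_left ((norm_add_le _ _).trans_eq ?_) (cst_nonneg n)
  simp only [norm_mul, hc1, hc2, one_mul, key]

/-- squared deviation of stage `n` -/
def e2f (n : ℕ) (x : UnitAddCircle) : ℝ := pdev (MM n) (LL n) (band n) x ^ 2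

/-- squared deviation of stage `n`, reflected -/
def e2r (n : ℕ) (x : UnitAddCircle) : ℝ := e2f n (-x)

theorem integrable_e2f (n : ℕ) : Integrable (e2f n) hm := by
  refine Integrable.of_bound ((measurable_pdev (MM n) (LL n) (band n)).pow_const 2).aestronglyMeasurable
    (((∑ r ∈ Finset.range (MM n * LL n), (1:ℝ)) / Real.sqrt (QQ n) + 1) ^ 2) ?_
  refine Eventually.of_forall fun x => ?_
  rw [e2f, Real.norm_eq_abs, abs_pow]
  refine pow_le_pow_left₀ (abs_nonneg _) ?_ 2
  rw [pdev_eq]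
  refine (abs_sub _ _).trans (add_le_add ?_ (abs_chi_le _ _))
  rw [abs_div, abs_norm, abs_of_nonneg (Real.sqrt_nonneg _), PA_eq]
  gcongr
  exact (norm_sum_le _ _).trans_eq (by simp [-fourier_apply, norm_fourier_apply])

theorem integrable_e2r (n : ℕ) : Integrable (e2r n) hm :=
  (Measure.measurePreserving_neg hm).integrable_comp_of_integrable (integrable_e2f n)

theorem integral_e2r (n : ℕ) : ∫ x, e2r n x ∂hm = ∫ x, e2f n x ∂hm :=
  integral_neg_eq_self (e2f n) hm

theorem integrable_comp_mul_normSq (n : ℕ) {ψ : UnitAddCircle → ℝ} (hψ : Integrable ψ hm)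
    (c : ℕ → ℂ) : Integrable (fun θ => ψ (hh n • θ) * ‖FF (hh n) c θ‖ ^ 2) hm :=
  (integrable_comp_mul _ (hh_pos n) hψ).mul_bdd ((continuous_FF _ c).norm.pow 2).aestronglyMeasurable
    (Eventually.of_forall fun θ => by
      rw [Real.norm_eq_abs, abs_of_nonneg (sq_nonneg _)]
      exact pow_le_pow_left₀ (norm_nonneg _) (norm_FF_le _ c θ) 2)

theorem integral_psi_dist_sq (n : ℕ) (a : Coef) :
    ∫ θ, ‖psi (n + 1) (emb 1 n a) θ - gam n θ * psi n a θ‖ ^ 2 ∂hm
      ≤ 4 * (1 / 4 : ℝ) ^ n * nrm2 n a := by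
  have h1 := integrable_comp_mul_normSq n (integrable_e2f n) (fun p => (a p).1)
  have h2 := integrable_comp_mul_normSq n (integrable_e2r n) (fun p => (a p).2)
  have hi := (h1.fun_add h2).const_mul (2 * cst n ^ 2)
  have hae := (measurePreserving_mulNat (hh n) (hh_pos n)).quasiMeasurePreserving.ae
    (chi_neg_ae (MM n) (one_le_MM n))
  have hle : ∀ᵐ θ ∂hm, ‖psi (n + 1) (emb 1 n a) θ - gam n θ * psi n a θ‖ ^ 2
      ≤ 2 * cst n ^ 2 * (e2f n (hh n • θ) * ‖FF (hh n) (fun p => (a p).1) θ‖ ^ 2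
          + e2r n (hh n • θ) * ‖FF (hh n) (fun p => (a p).2) θ‖ ^ 2) := by
    filter_upwards [hae] with θ hθ
    have h := psi_succ_dist_le n a θ
    have hrw : (1 : ℝ) - bb n θ = chi (MM n) (-(hh n • θ)) := hθ.symm
    rw [hrw, show bb n θ = chi (MM n) (hh n • θ) from rfl, ← pdev_eq, ← pdev_eq] at h
    refine (pow_le_pow_left₀ (norm_nonneg _) h 2).trans ?_
    rw [mul_pow, mul_assoc 2, mul_left_comm]
    refine mul_le_mul_of_nonneg_left ?_ (sq_nonneg _)
    refine (add_sq_le).trans_eq ?_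
    simp only [mul_pow, sq_abs, e2f, e2r]
  refine (integral_mono_of_nonneg (Eventually.of_forall fun θ => sq_nonneg _) hi hle).trans ?_
  rw [integral_const_mul, integral_add h1 h2, integral_comp_mul_normSq _ (hh_pos n) (integrable_e2f n),
    integral_comp_mul_normSq _ (hh_pos n) (integrable_e2r n), integral_e2r, cst_sq, nrm2, ← mul_add,
    ← Finset.sum_add_distrib]
  have hδ : ∫ x, e2f n x ∂hm ≤ (1 / 4 : ℝ) ^ n := integral_pdev_sq_le n
  generalize hS : ∑ p ∈ Finset.range (hh n), (‖(a p).1‖ ^ 2 + ‖(a p).2‖ ^ 2) = S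
  have hS0 : 0 ≤ S := by rw [← hS]; positivity
  calc 2 * (2 / (hh n : ℝ)) * ((∫ x, e2f n x ∂hm) * S)
      = 4 * (∫ x, e2f n x ∂hm) * ((hh n : ℝ)⁻¹ * S) := by ring
  _ ≤ 4 * (1 / 4 : ℝ) ^ n * ((hh n : ℝ)⁻¹ * S) := by gcongr

end

end Vale.Agent.P130
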