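import Vale.Agent.P130.Basic

/-! Uniqueness and decay of Fourier coefficients of integrable functions on the circle. -/

namespace Vale.Agent.P130

open MeasureTheory Filter Topology Set
open scoped ComplexConjugate NNReal

noncomputable section

theorem integrable_mul_of_continuous {f : UnitAddCircle → ℂ} (hf : Integrable f hm)
    (φ : C(UnitAddCircle, ℂ)) : Integrable (fun x => φ x * f x) hm :=
  hf.bdd_mul φ.continuous.aestronglyMeasurable
    (Eventually.of_forall fun x => φ.norm_coe_le_norm x)

theorem integral_continuous_mul_eq_zero {f : UnitAddCircle → ℂ} (hf : Integrable f hm)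
    (h : ∀ n : ℤ, ∫ x, fourier n x * f x ∂hm = 0) (φ : C(UnitAddCircle, ℂ)) :
    ∫ x, φ x * f x ∂hm = 0 := by
  let Λ : C(UnitAddCircle, ℂ) →ₗ[ℂ] ℂ :=
    { toFun := fun φ => ∫ x, φ x * f x ∂hm
      map_add' := fun a b => by
        simp only [ContinuousMap.add_apply, add_mul]
        exact integral_add (integrable_mul_of_continuous hf a) (integrable_mul_of_continuous hf b)
      map_smul' := fun c a => by
        simp only [ContinuousMap.smul_apply, smul_eq_mul, RingHom.id_apply, mul_assoc]
        exact integral_const_mul c _ }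
  let Λc : C(UnitAddCircle, ℂ) →L[ℂ] ℂ := Λ.mkContinuous (∫ x, ‖f x‖ ∂hm) fun φ => by
    refine (norm_integral_le_integral_norm _).trans ?_
    rw [← integral_mul_const]
    refine integral_mono (integrable_mul_of_continuous hf φ).norm (hf.norm.mul_const _) fun x => ?_
    simp only [norm_mul]
    rw [mul_comm]
    exact mul_le_mul_of_nonneg_left (φ.norm_coe_le_norm x) (norm_nonneg _)
  have : Λc.ker = ⊤ := by
    rw [eq_top_iff, ← span_fourier_closure_eq_top (T := (1:ℝ))]
    refine Submodule.topologicalClosure_minimal _ ?_ Λc.isClosed_ker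
    rw [Submodule.span_le]
    rintro _ ⟨n, rfl⟩
    exact h n
  exact (this ▸ Submodule.mem_top : φ ∈ Λc.ker)

/-- An integrable function with vanishing Fourier coefficients vanishes a.e. -/
theorem ae_zero_of_integral_fourier_mul {f : UnitAddCircle → ℂ} (hf : Integrable f hm)
    (h : ∀ n : ℤ, ∫ x, fourier n x * f x ∂hm = 0) : f =ᵐ[hm] 0 := by
  refine ae_eq_zero_of_forall_setIntegral_isClosed_eq_zero hf fun s hs => ?_
  set φ : ℕ → C(UnitAddCircle, ℂ) := fun k =>
    ⟨fun x => ((hs.apprSeq k x : ℝ≥0) : ℝ), by fun_prop⟩ with hφ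
  have hlim : Tendsto (fun k => ∫ x, φ k x * f x ∂hm) atTop (𝓝 (∫ x, s.indicator f x ∂hm)) := by
    refine tendsto_integral_of_dominated_convergence (fun x => ‖f x‖)
      (fun k => (integrable_mul_of_continuous hf (φ k)).aestronglyMeasurable) hf.norm (fun k => ?_) ?_
    · refine Eventually.of_forall fun x => ?_
      rw [norm_mul]
      refine mul_le_of_le_one_left (norm_nonneg _) ?_
      simpa [hφ, Complex.norm_real] using (show ((hs.apprSeq k x : ℝ≥0) : ℝ) ≤ 1 by
        exact_mod_cast HasOuterApproxClosed.apprSeq_apply_le_one hs k x)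
    · refine Eventually.of_forall fun x => ?_
      have h1 := tendsto_pi_nhds.1 (HasOuterApproxClosed.tendsto_apprSeq hs) x
      have h2 : Continuous fun t : ℝ≥0 => (((t : ℝ) : ℂ)) * f x := by fun_prop
      have h3 := (h2.tendsto _).comp h1
      convert h3 using 2
      · rfl
      · by_cases hx : x ∈ s <;> simp [hx]
  simp only [integral_continuous_mul_eq_zero hf h, tendsto_const_nhds_iff] at hlim
  rw [← integral_indicator hs.measurableSet]
  exact hlim.symm

end

end Vale.Agent.P130
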