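import Vale.Agent.P130.Flat

/-! The unitary between the mode-one subspace and `L²` of the circle. -/

namespace Vale.Agent.P130

open MeasureTheory Filter Topology Set
open scoped ENNReal ComplexConjugate InnerProductSpace

noncomputable section

attribute [local irreducible] lev gg pos natO act dinv coc

/-- `L²` of the circle -/
abbrev CC : Type := Lp ℂ 2 hm

/-- product of the corrections below level `n` -/
def Gam (n : ℕ) (θ : UnitAddCircle) : ℂ := ∏ m ∈ Finset.range n, gam m θ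

theorem measurable_Gam (n : ℕ) : Measurable (Gam n) :=
  Finset.measurable_prod _ fun m _ => measurable_gam m

theorem norm_Gam (n : ℕ) (θ : UnitAddCircle) : ‖Gam n θ‖ = 1 := by
  simp [Gam, norm_prod, norm_gam]

/-- corrected transform as a function -/
def phiFun (n : ℕ) (a : Coef) (θ : UnitAddCircle) : ℂ := conj (Gam n θ) * psi n a θ

theorem norm_phiFun (n : ℕ) (a : Coef) (θ : UnitAddCircle) : ‖phiFun n a θ‖ = ‖psi n a θ‖ := by
  rw [phiFun, norm_mul, Complex.norm_conj, norm_Gam, one_mul]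

theorem memLp_phiFun (n : ℕ) (a : Coef) : MemLp (phiFun n a) 2 hm := by
  refine MemLp.of_bound
    ((Complex.continuous_conj.measurable.comp (measurable_Gam n)).mul (measurable_psi n a)).aestronglyMeasurable
    (cst n * (∑ p ∈ Finset.range (hh n), ‖(a p).1‖ + ∑ p ∈ Finset.range (hh n), ‖(a p).2‖))
    (Eventually.of_forall fun θ => ?_)
  rw [norm_phiFun, psi, norm_mul, Complex.norm_real, Real.norm_eq_abs, abs_of_nonneg (cst_nonneg n)]
  gcongr
  · exact cst_nonneg n
  refine (norm_add_le _ _).trans (add_le_add ?_ ?_) <;> rw [norm_mul, Complex.norm_real, Real.norm_eq_abs]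
  · refine (mul_le_of_le_one_left (norm_nonneg _) ?_).trans (norm_FF_le _ _ _)
    rcases bb_cases n θ with h | h <;> simp [h]
  · refine (mul_le_of_le_one_left (norm_nonneg _) ?_).trans (norm_FF_le _ _ _)
    rcases bb_cases n θ with h | h <;> simp [h]

theorem FF_add (h : ℕ) (c d : ℕ → ℂ) (θ : UnitAddCircle) :
    FF h (fun p => c p + d p) θ = FF h c θ + FF h d θ := by
  simp only [FF, add_mul, Finset.sum_add_distrib]

theorem FF_smul (h : ℕ) (r : ℂ) (c : ℕ → ℂ) (θ : UnitAddCircle) :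
    FF h (fun p => r * c p) θ = r * FF h c θ := by
  simp only [FF, Finset.mul_sum, mul_assoc]

/-- corrected transform -/
def Phi (n : ℕ) : Coef →ₗ[ℂ] CC where
  toFun a := (memLp_phiFun n a).toLp
  map_add' a b := by
    rw [← MemLp.toLp_add]
    refine MemLp.toLp_congr _ _ (Eventually.of_forall fun θ => ?_)
    simp only [phiFun, psi, Pi.add_apply, Prod.fst_add, Prod.snd_add, FF_add]; ring
  map_smul' c a := by
    rw [RingHom.id_apply, ← MemLp.toLp_const_smul]
    refine MemLp.toLp_congr _ _ (Eventually.of_forall fun θ => ?_)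
    simp only [phiFun, psi, Pi.smul_apply, Prod.smul_fst, Prod.smul_snd, smul_eq_mul, FF_smul]; ring

theorem coeFn_Phi (n : ℕ) (a : Coef) : Phi n a =ᵐ[hm] phiFun n a := (memLp_phiFun n a).coeFn_toLp

theorem norm_sq_eq_integral {α : Type*} [MeasurableSpace α] {μ : Measure α} (f : Lp ℂ 2 μ) :
    ‖f‖ ^ 2 = ∫ x, ‖f x‖ ^ 2 ∂μ := by
  have h : ((‖f‖ ^ 2 : ℝ) : ℂ) = ⟪f, f⟫_ℂ := by
    rw [inner_self_eq_norm_sq_to_K]; norm_num
  rw [L2.inner_def] at h
  simp only [inner_self_eq_norm_sq_to_K] at h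
  have h2 : ((‖f‖ ^ 2 : ℝ) : ℂ) = ((∫ x, ‖f x‖ ^ 2 ∂μ : ℝ) : ℂ) := by
    rw [h, ← integral_complex_ofReal]
    refine integral_congr_ae (Eventually.of_forall fun x => ?_)
    norm_num
  exact Complex.ofReal_injective h2

theorem norm_Phi_sq (n : ℕ) (a : Coef) : ‖Phi n a‖ ^ 2 = nrm2 n a := by
  rw [norm_sq_eq_integral, ← integral_norm_psi_sq]
  refine integral_congr_ae ?_
  filter_upwards [coeFn_Phi n a] with θ hθ
  rw [hθ, norm_phiFun]

theorem dist_Phi_emb_le (n : ℕ) (a : Coef) :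
    dist (Phi n a) (Phi (n + 1) (emb 1 n a)) ≤ 2 * (1 / 2 : ℝ) ^ n * ‖Phi n a‖ := by
  rw [dist_eq_norm, norm_sub_rev]
  refine (sq_le_sq₀ (norm_nonneg _) (by positivity)).1 ?_
  rw [mul_pow, mul_pow, norm_Phi_sq, ← pow_mul, mul_comm n, pow_mul, norm_sq_eq_integral,
    show ((1:ℝ) / 2) ^ 2 = 1 / 4 by norm_num, show (2:ℝ) ^ 2 = 4 by norm_num]
  refine le_trans (le_of_eq ?_) (integral_psi_dist_sq n a)
  refine integral_congr_ae ?_
  filter_upwards [Lp.coeFn_sub (Phi (n + 1) (emb 1 n a)) (Phi n a), coeFn_Phi n a,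
    coeFn_Phi (n + 1) (emb 1 n a)] with θ h1 h2 h3
  rw [h1, Pi.sub_apply, h2, h3, phiFun, phiFun, Gam, Finset.prod_range_succ, ← Gam, map_mul]
  have hg : conj (gam n θ) * gam n θ = 1 := by rw [Complex.conj_mul', norm_gam]; norm_num
  have : conj (Gam n θ) * conj (gam n θ) * psi (n + 1) (emb 1 n a) θ - conj (Gam n θ) * psi n a θ
      = conj (Gam n θ) * conj (gam n θ) * (psi (n + 1) (emb 1 n a) θ - gam n θ * psi n a θ) := by
    linear_combination (conj (Gam n θ) * psi n a θ) * hg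
  rw [this, norm_mul, norm_mul, Complex.norm_conj, Complex.norm_conj, norm_Gam, norm_gam, one_mul, one_mul]

theorem emb_add (j n : ℕ) (a b : Coef) : emb j n (a + b) = emb j n a + emb j n b := by
  funext p; simp only [emb, Pi.add_apply]; split_ifs <;> ext <;> simp [add_mul]

theorem emb_smul (j n : ℕ) (c : ℂ) (a : Coef) : emb j n (c • a) = c • emb j n a := by
  funext p; simp only [emb, Pi.smul_apply]; split_ifs <;> ext <;> simp [mul_assoc]

/-- pairs `(x, y)` given by an eventually compatible sequence of coefficients -/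
def SS : Submodule ℂ (HH × CC) where
  carrier := {q | ∃ s : ℕ → Coef, (∀ᶠ m in atTop, s (m + 1) = emb 1 m (s m) ∧ iota 1 m (s m) = q.1)
    ∧ Tendsto (fun m => Phi m (s m)) atTop (𝓝 q.2)}
  add_mem' := by
    rintro q r ⟨s, hs, hs'⟩ ⟨t, ht, ht'⟩
    refine ⟨fun m => s m + t m, ?_, ?_⟩
    · filter_upwards [hs, ht] with m h1 h2
      exact ⟨by rw [h1.1, h2.1, emb_add], by rw [map_add, h1.2, h2.2, Prod.fst_add]⟩
    · simpa only [map_add, Prod.snd_add] using hs'.add ht'
  zero_mem' := by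
    refine ⟨fun _ => 0, Eventually.of_forall fun m => ⟨?_, by simp⟩, by simp⟩
    funext p; simp [emb]; rfl
  smul_mem' := by
    rintro c q ⟨s, hs, hs'⟩
    refine ⟨fun m => c • s m, ?_, ?_⟩
    · filter_upwards [hs] with m h1
      exact ⟨by rw [h1.1, emb_smul], by rw [map_smul, h1.2, Prod.smul_fst]⟩
    · simpa only [map_smul, Prod.smul_snd] using hs'.const_smul c

theorem exists_mem_SS (n : ℕ) (a : Coef) :
    ∃ y, (iota 1 n a, y) ∈ SS ∧ dist (Phi n a) y ≤ 4 * (1 / 2 : ℝ) ^ n * ‖Phi n a‖ := by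
  set u : ℕ → CC := fun k => Phi (n + k) (liftc 1 n a k) with hu
  have hnorm : ∀ k, ‖u k‖ = ‖Phi n a‖ := by
    intro k
    have h := norm_Phi_sq (n + k) (liftc 1 n a k)
    rw [← norm_iota_sq 1 (n + k) one_ne_zero, iota_liftc, norm_iota_sq 1 n one_ne_zero, ← norm_Phi_sq] at h
    exact (sq_eq_sq₀ (norm_nonneg _) (norm_nonneg _)).1 h
  have hstep : ∀ k, dist (u k) (u (k + 1)) ≤ (2 * (1/2:ℝ) ^ n * ‖Phi n a‖) * (1/2:ℝ) ^ k := by
    intro k
    have h : dist (u k) (u (k + 1)) ≤ 2 * (1/2:ℝ) ^ (n + k) * ‖u k‖ :=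
      dist_Phi_emb_le (n + k) (liftc 1 n a k)
    rw [hnorm, pow_add] at h
    linarith
  obtain ⟨y, hy⟩ := cauchySeq_tendsto_of_complete (cauchySeq_of_le_geometric _ _ (by norm_num) hstep)
  refine ⟨y, ⟨fun m => liftc 1 n a (m - n), ?_, ?_⟩, ?_⟩
  · filter_upwards [eventually_ge_atTop n] with m hm'
    obtain ⟨k, rfl⟩ := Nat.exists_eq_add_of_le hm'
    simp only [Nat.add_sub_cancel_left, show n + k + 1 - n = k + 1 by omega]
    exact ⟨rfl, iota_liftc 1 n a k⟩
  · refine Tendsto.congr' ?_ (hy.comp (tendsto_sub_atTop_nat n))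
    filter_upwards [eventually_ge_atTop n] with m hm'
    obtain ⟨k, rfl⟩ := Nat.exists_eq_add_of_le hm'
    simp only [Function.comp_apply, Nat.add_sub_cancel_left, hu]
  · have := dist_le_of_le_geometric_of_tendsto₀ _ _ (by norm_num) hstep hy
    simp only [hu, Nat.add_zero, liftc] at this
    refine this.trans_eq ?_
    ring

theorem norm_eq_of_mem_SS {q : HH × CC} (h : q ∈ SS) : ‖q.1‖ = ‖q.2‖ := by
  obtain ⟨s, hs, hs'⟩ := h
  refine tendsto_nhds_unique (tendsto_const_nhds.congr' ?_) hs'.norm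
  filter_upwards [hs] with m hm'
  rw [← hm'.2]
  exact (sq_eq_sq₀ (norm_nonneg _) (norm_nonneg _)).1
    (by rw [norm_iota_sq 1 m one_ne_zero, norm_Phi_sq])

theorem norm_sub_of_mem_SS {q r : HH × CC} (hq : q ∈ SS) (hr : r ∈ SS) :
    ‖q.1 - r.1‖ = ‖q.2 - r.2‖ := by
  have h1 : q - r ∈ SS := Submodule.sub_mem SS hq hr
  have h := norm_eq_of_mem_SS (q := q - r) h1
  rw [Prod.fst_sub, Prod.snd_sub] at h
  exact h

theorem snd_unique_SS {x : HH} {y y' : CC} (h : (x, y) ∈ SS) (h' : (x, y') ∈ SS) : y = y' := by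
  have hn : ‖x - x‖ = ‖y - y'‖ := norm_sub_of_mem_SS (q := (x, y)) (r := (x, y')) h h'
  rw [sub_self, norm_zero] at hn
  exact sub_eq_zero.1 (norm_eq_zero.1 hn.symm)

/-- the closed graph -/
def GS : Submodule ℂ (HH × CC) := SS.topologicalClosure

theorem norm_eq_of_mem_GS {q : HH × CC} (h : q ∈ GS) : ‖q.1‖ = ‖q.2‖ := by
  have hc : IsClosed {q : HH × CC | ‖q.1‖ = ‖q.2‖} := isClosed_eq continuous_fst.norm continuous_snd.norm
  exact closure_minimal (fun q hq => norm_eq_of_mem_SS hq) hc h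

theorem memLp_fourier_mul (k : ℤ) (f : CC) : MemLp (fun θ => fourier k θ * f θ) 2 hm :=
  MemLp.of_le (g := f) (Lp.memLp f)
    ((fourier k).continuous.aestronglyMeasurable.mul (Lp.aestronglyMeasurable f))
    (Eventually.of_forall fun θ => by simp [-fourier_apply, norm_fourier_apply])

/-- multiplication by a character -/
def mulF (k : ℤ) : CC →L[ℂ] CC :=
  LinearMap.mkContinuous
    { toFun := fun f => (memLp_fourier_mul k f).toLp
      map_add' := fun f g => by
        rw [← MemLp.toLp_add]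
        refine MemLp.toLp_congr _ _ ?_
        filter_upwards [Lp.coeFn_add f g] with θ hθ
        simp only [hθ, Pi.add_apply]; ring
      map_smul' := fun c f => by
        rw [RingHom.id_apply, ← MemLp.toLp_const_smul]
        refine MemLp.toLp_congr _ _ ?_
        filter_upwards [Lp.coeFn_smul c f] with θ hθ
        simp only [hθ, Pi.smul_apply, smul_eq_mul]; ring }
    1 (fun f => by
      rw [one_mul]
      refine Lp.norm_le_norm_of_ae_le ?_
      simp only [LinearMap.coe_mk, AddHom.coe_mk]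
      filter_upwards [(memLp_fourier_mul k f).coeFn_toLp] with θ hθ
      rw [hθ, norm_mul, norm_fourier_apply, one_mul])

theorem coeFn_mulF (k : ℤ) (f : CC) : mulF k f =ᵐ[hm] fun θ => fourier k θ * f θ :=
  (memLp_fourier_mul k f).coeFn_toLp

theorem mulF_zero (f : CC) : mulF 0 f = f := by
  refine Lp.ext ((coeFn_mulF 0 f).trans (Eventually.of_forall fun θ => ?_))
  simp [-fourier_apply, fourier_zero]

theorem mulF_add (k l : ℤ) (f : CC) : mulF (k + l) f = mulF k (mulF l f) := by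
  refine Lp.ext ((coeFn_mulF _ f).trans ?_)
  filter_upwards [coeFn_mulF k (mulF l f), coeFn_mulF l f] with θ h1 h2
  rw [h1, h2, fourier_add, mul_assoc]

/-- `b` shifted up by one step is `c` -/
def Shifted (m : ℕ) (b c : Coef) : Prop :=
  b (hh m - 1) = 0 ∧ c 0 = 0 ∧ ∀ p, p + 1 < hh m → b p = c (p + 1)

theorem Shifted.emb' {m : ℕ} {b c : Coef} (h : Shifted m b c) :
    Shifted (m + 1) (emb 1 m b) (emb 1 m c) := by
  obtain ⟨h1, h2, h3⟩ := h
  have hz : ∀ (a : Coef) (p : ℕ), a (p % hh m) = 0 → emb 1 m a p = 0 := by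
    intro a p hp; simp only [emb, hp, Prod.fst_zero, Prod.snd_zero, zero_mul]; split_ifs <;> rfl
  refine ⟨hz _ _ ?_, hz _ _ ?_, fun p hp => ?_⟩
  · have hq := QQ_pos m
    have hh' := hh_pos m
    have e : hh (m + 1) - 1 = (QQ m - 1) * hh m + (hh m - 1) := by
      rw [hh_succ, Nat.sub_mul, Nat.one_mul]
      have : hh m ≤ QQ m * hh m := Nat.le_mul_of_pos_left _ hq
      omega
    rw [e, Nat.add_comm, Nat.add_mul_mod_self_right, Nat.mod_eq_of_lt (by omega), h1]
  · rw [Nat.zero_mod, h2]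
  · have hd := Nat.div_add_mod p (hh m)
    have hm' := Nat.mod_lt p (hh_pos m)
    by_cases hr : p % hh m + 1 < hh m
    · have e1 : (p + 1) % hh m = p % hh m + 1 := by
        conv_lhs => rw [← hd, Nat.add_assoc, Nat.mul_add_mod, Nat.mod_eq_of_lt hr]
      have e2 : (p + 1) / hh m = p / hh m := by
        conv_lhs => rw [← hd, Nat.add_assoc, Nat.mul_add_div (hh_pos m), Nat.div_eq_of_lt hr, Nat.add_zero]
      simp only [emb, e1, e2, h3 _ hr]
    · rw [hz b p, hz c (p + 1)]
      · have : (p + 1) % hh m = 0 := by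
          conv_lhs => rw [← hd, Nat.add_assoc, show p % hh m + 1 = hh m by omega]
          simp
        rw [this, h2]
      · rw [show p % hh m = hh m - 1 by omega, h1]

theorem Shifted.UU_iota {m : ℕ} {b c : Coef} (h : Shifted m b c) : UU (iota 1 m c) = iota 1 m b :=
  UU_iota_shift 1 m b c h.2.2 h.1 h.2.1

theorem Shifted.mulF_Phi {m : ℕ} {b c : Coef} (h : Shifted m b c) : mulF 1 (Phi m b) = Phi m c := by
  obtain ⟨h1, h2, h3⟩ := h
  have hF : ∀ (pr : ℂ × ℂ → ℂ), pr 0 = 0 → ∀ θ,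
      fourier 1 θ * FF (hh m) (fun p => pr (b p)) θ = FF (hh m) (fun p => pr (c p)) θ := by
    intro pr hpr θ
    obtain ⟨t, ht⟩ : ∃ t, hh m = t + 1 := ⟨hh m - 1, by have := hh_pos m; omega⟩
    simp only [FF, ht]
    rw [Finset.sum_range_succ, Finset.sum_range_succ' (fun p => pr (c p) * fourier (p:ℤ) θ),
      show b t = 0 by rw [← h1, ht, Nat.add_sub_cancel], h2, hpr, zero_mul, zero_mul, add_zero, add_zero,
      Finset.mul_sum]
    refine Finset.sum_congr rfl fun p hp => ?_
    rw [h3 p (by rw [ht]; have := Finset.mem_range.1 hp; omega), Nat.cast_add, Nat.cast_one, fourier_add]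
    ring
  refine Lp.ext ((coeFn_mulF 1 _).trans ?_)
  filter_upwards [coeFn_Phi m b, coeFn_Phi m c] with θ e1 e2
  rw [e1, e2, phiFun, phiFun, psi, psi, ← hF Prod.fst rfl θ, ← hF Prod.snd rfl θ]
  ring

theorem Shifted.mem_SS {m : ℕ} {b c : Coef} (h : Shifted m b c) {y : CC}
    (hy : (iota 1 m b, y) ∈ SS) : (iota 1 m c, mulF 1 y) ∈ SS := by
  obtain ⟨y', hy', -⟩ := exists_mem_SS m b
  have heq : y = y' := by
    have hn := norm_eq_of_mem_SS (SS.sub_mem hy hy')
    simp only [Prod.fst_sub, Prod.snd_sub, sub_self, norm_zero] at hn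
    exact sub_eq_zero.1 (norm_eq_zero.1 hn.symm)
  have hsh : ∀ k, Shifted (m + k) (liftc 1 m b k) (liftc 1 m c k) := by
    intro k
    induction k with
    | zero => exact h
    | succ k ih => exact ih.emb'
  obtain ⟨s, hs, hs'⟩ := hy
  refine ⟨fun i => liftc 1 m c (i - m), ?_, ?_⟩
  · filter_upwards [eventually_ge_atTop m] with i hi
    obtain ⟨k, rfl⟩ := Nat.exists_eq_add_of_le hi
    simp only [Nat.add_sub_cancel_left, show m + k + 1 - m = k + 1 by omega]
    exact ⟨rfl, iota_liftc 1 m c k⟩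
  · refine (((mulF 1).continuous.tendsto _).comp hs').congr' ?_
    filter_upwards [hs, eventually_ge_atTop m] with i h1 hi
    obtain ⟨k, rfl⟩ := Nat.exists_eq_add_of_le hi
    simp only [Function.comp_apply, Nat.add_sub_cancel_left]
    rw [← (hsh k).mulF_Phi]
    congr 1
    have hz : ‖Phi (m + k) (s (m + k) - liftc 1 m b k)‖ = 0 := by
      have h2 := norm_Phi_sq (m + k) (s (m + k) - liftc 1 m b k)
      rw [← norm_iota_sq 1 (m + k) one_ne_zero, map_sub (iota 1 (m + k)), h1.2, iota_liftc, sub_self,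
        norm_zero] at h2
      simpa using h2
    rw [norm_eq_zero, map_sub, sub_eq_zero] at hz
    exact hz

theorem slot_bound (j n : ℕ) (a : Coef) (p : ℕ) :
    ‖(emb j n a p).1‖ + ‖(emb j n a p).2‖ = ‖(a (p % hh n)).1‖ + ‖(a (p % hh n)).2‖ := by
  simp only [emb]
  split_ifs <;> simp [norm_mul, -fourier_apply, norm_fourier_apply] <;> ring

theorem exists_bound_of_mem {q : HH × CC} {s : ℕ → Coef}
    (hs : ∀ᶠ m in atTop, s (m + 1) = emb 1 m (s m) ∧ iota 1 m (s m) = q.1) :
    ∃ B : ℝ, 0 ≤ B ∧ ∀ᶠ m in atTop, ∀ p < hh m, ‖(s m p).1‖ + ‖(s m p).2‖ ≤ B := by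
  obtain ⟨N, hN⟩ := eventually_atTop.1 hs
  refine ⟨bnd N (s N), by unfold bnd; positivity, eventually_atTop.2 ⟨N, fun m hm' => ?_⟩⟩
  induction m, hm' using Nat.le_induction with
  | base =>
    intro p hp
    exact Finset.single_le_sum (f := fun p => ‖(s N p).1‖ + ‖(s N p).2‖)
      (fun p _ => by positivity) (Finset.mem_range.2 hp)
  | succ m hm' ih =>
    intro p _
    rw [(hN m hm').1, slot_bound]
    exact ih _ (Nat.mod_lt _ (hh_pos m))

theorem norm_iota_single (m i : ℕ) (hi : i < hh m) (v : ℂ × ℂ) :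
    ‖iota 1 m (fun p => if p = i then v else 0)‖ ≤ (‖v.1‖ + ‖v.2‖) * Real.sqrt ((hh m : ℝ)⁻¹) := by
  refine (sq_le_sq₀ (norm_nonneg _) (by positivity)).1 ?_
  rw [norm_iota_sq 1 m one_ne_zero, nrm2, mul_pow, Real.sq_sqrt (by positivity), mul_comm]
  refine mul_le_mul_of_nonneg_right ?_ (by positivity)
  rw [Finset.sum_eq_single_of_mem i (Finset.mem_range.2 hi) fun p _ hp => by simp [hp]]
  simp only [if_true]
  nlinarith [norm_nonneg v.1, norm_nonneg v.2]

theorem tendsto_single (i : ℕ → ℕ) (hi : ∀ m, i m < hh m) {q : HH × CC} {s : ℕ → Coef}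
    (hs : ∀ᶠ m in atTop, s (m + 1) = emb 1 m (s m) ∧ iota 1 m (s m) = q.1) :
    Tendsto (fun m => iota 1 m (fun p => if p = i m then s m (i m) else 0)) atTop (𝓝 0) := by
  obtain ⟨B, hB0, hB⟩ := exists_bound_of_mem hs
  have h0 : Tendsto (fun m => B * Real.sqrt ((hh m : ℝ)⁻¹)) atTop (𝓝 0) := by
    have := ((tendsto_inv_atTop_nhds_zero_nat (𝕜 := ℝ)).comp tendsto_hh).sqrt.const_mul B
    simpa [Function.comp_def] using this
  refine squeeze_zero_norm' ?_ h0
  filter_upwards [hB] with m hm'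
  exact (norm_iota_single m (i m) (hi m) _).trans
    (mul_le_mul_of_nonneg_right (hm' _ (hi m)) (Real.sqrt_nonneg _))

theorem mem_GS_shift {q : HH × CC} (hq : q ∈ GS) :
    (UU.symm q.1, mulF 1 q.2) ∈ GS ∧ (UU q.1, mulF (-1) q.2) ∈ GS := by
  have hc1 : Continuous fun q : HH × CC => (UU.symm q.1, mulF 1 q.2) :=
    (UU.symm.continuous.comp continuous_fst).prodMk ((mulF 1).continuous.comp continuous_snd)
  have hc2 : Continuous fun q : HH × CC => (UU q.1, mulF (-1) q.2) :=
    (UU.continuous.comp continuous_fst).prodMk ((mulF (-1)).continuous.comp continuous_snd)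
  have hcl : IsClosed (GS : Set (HH × CC)) := SS.isClosed_topologicalClosure
  suffices H : ∀ q ∈ SS, (UU.symm q.1, mulF 1 q.2) ∈ GS ∧ (UU q.1, mulF (-1) q.2) ∈ GS by
    exact closure_minimal (fun q hq => H q hq) ((hcl.preimage hc1).inter (hcl.preimage hc2)) hq
  intro q hqS
  obtain ⟨s, hs, hs'⟩ := hqS
  have hqS' : q ∈ SS := ⟨s, hs, hs'⟩
  choose Y hY hYd using fun m (a : Coef) => exists_mem_SS m a
  have happ : ∀ (i : ℕ → ℕ), (∀ m, i m < hh m) → ∀ t : ℕ → Coef,
      (∀ m, t m = fun p => if p = i m then 0 else s m p) →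
      Tendsto (fun m => (iota 1 m (t m), Y m (t m))) atTop (𝓝 q) := by
    intro i hi t ht
    have h1 : Tendsto (fun m => iota 1 m (t m)) atTop (𝓝 q.1) := by
      have h := (tendsto_const_nhds (x := q.1)).sub (tendsto_single i hi hs)
      rw [sub_zero] at h
      refine h.congr' ?_
      filter_upwards [hs] with m hm'
      rw [← hm'.2, ← map_sub]
      congr 1; funext p
      simp only [Pi.sub_apply, ht m]
      by_cases hp : p = i m <;> simp [hp]
    have h2 : Tendsto (fun m => Y m (t m)) atTop (𝓝 q.2) := by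
      rw [tendsto_iff_norm_sub_tendsto_zero] at h1 ⊢
      refine h1.congr fun m => ?_
      exact norm_sub_of_mem_SS (q := (iota 1 m (t m), Y m (t m))) (r := q) (hY m (t m)) hqS'
    rw [nhds_prod_eq]
    exact h1.prodMk h2
  have hpos := hh_pos
  constructor
  · set t : ℕ → Coef := fun m p => if p = hh m - 1 then 0 else s m p with ht
    set c : ℕ → Coef := fun m p => if p = 0 then 0 else t m (p - 1) with hc
    have hsh : ∀ m, Shifted m (t m) (c m) := fun m =>
      ⟨by simp [ht], by simp [hc], fun p _ => by simp [hc]⟩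
    refine hcl.mem_of_tendsto ((hc1.tendsto q).comp (happ (fun m => hh m - 1)
      (fun m => by have := hpos m; omega) t fun m => rfl)) (Eventually.of_forall fun m => ?_)
    have h := (hsh m).mem_SS (hY m (t m))
    simp only [Function.comp_apply]
    rw [← (hsh m).UU_iota, LinearIsometryEquiv.symm_apply_apply]
    exact SS.le_topologicalClosure h
  · set t : ℕ → Coef := fun m p => if p = 0 then 0 else s m p with ht
    set b : ℕ → Coef := fun m p => if p + 1 < hh m then t m (p + 1) else 0 with hb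
    have hsh : ∀ m, Shifted m (b m) (t m) := fun m =>
      ⟨by have := hpos m; simp only [hb]; rw [if_neg (by omega)], by simp [ht],
        fun p hp => by simp [hb, hp]⟩
    refine hcl.mem_of_tendsto ((hc2.tendsto q).comp (happ (fun _ => 0) hpos t fun m => rfl))
      (Eventually.of_forall fun m => ?_)
    simp only [Function.comp_apply]
    rw [(hsh m).UU_iota]
    have h := (hsh m).mem_SS (hY m (b m))
    have hYt : Y m (t m) = mulF 1 (Y m (b m)) := snd_unique_SS (hY m (t m)) h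
    rw [hYt, ← mulF_add, neg_add_cancel, mulF_zero]
    exact SS.le_topologicalClosure (hY m (b m))

/-- range of the unitary -/
def RY : Submodule ℂ CC := GS.map (LinearMap.snd ℂ HH CC)

theorem isClosed_RY : IsClosed (RY : Set CC) := by
  have : CompleteSpace GS := SS.isClosed_topologicalClosure.completeSpace_coe
  have hiso : Isometry fun q : GS => (q : HH × CC).2 := by
    refine Isometry.of_dist_eq fun q r => ?_
    rw [dist_eq_norm, dist_eq_norm, Submodule.norm_coe (q - r) |>.symm, Submodule.coe_sub, Prod.norm_def,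
      norm_eq_of_mem_GS (GS.sub_mem q.2 r.2), Prod.snd_sub, max_self]
  have : (RY : Set CC) = Set.range fun q : GS => (q : HH × CC).2 := by
    ext y
    simp only [RY, Submodule.map_coe, LinearMap.snd_apply, mem_image, SetLike.mem_coe, mem_range]
    constructor
    · rintro ⟨q, hq, rfl⟩; exact ⟨⟨q, hq⟩, rfl⟩
    · rintro ⟨q, rfl⟩; exact ⟨q, q.2, rfl⟩
  rw [this]
  exact hiso.isClosedEmbedding.isClosed_range

theorem mulF_mem_RY {y : CC} (hy : y ∈ RY) (k : ℤ) : mulF k y ∈ RY := by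
  induction k with
  | zero => rwa [mulF_zero]
  | succ k ih =>
    obtain ⟨q, hq, hq2⟩ := Submodule.mem_map.1 ih
    refine Submodule.mem_map.2 ⟨_, (mem_GS_shift hq).1, ?_⟩
    simp only [LinearMap.snd_apply] at hq2 ⊢
    rw [hq2, ← mulF_add, add_comm]
  | pred k ih =>
    obtain ⟨q, hq, hq2⟩ := Submodule.mem_map.1 ih
    refine Submodule.mem_map.2 ⟨_, (mem_GS_shift hq).2, ?_⟩
    simp only [LinearMap.snd_apply] at hq2 ⊢
    rw [hq2, ← mulF_add, neg_add_eq_sub]

theorem integral_norm_mul_le (f g : CC) : ∫ θ, ‖f θ‖ * ‖g θ‖ ∂hm ≤ ‖f‖ * ‖g‖ := by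
  have h := integral_mul_norm_le_Lp_mul_Lq (μ := hm) (f := f) (g := g) Real.HolderConjugate.two_two
    (by simpa using Lp.memLp f) (by simpa using Lp.memLp g)
  simp only [Real.rpow_two, ← norm_sq_eq_integral, ← Real.sqrt_eq_rpow, Real.sqrt_sq (norm_nonneg _)] at h
  exact h

theorem RY_eq_top : RY = ⊤ := by
  have : CompleteSpace RY := isClosed_RY.completeSpace_coe
  rw [← Submodule.orthogonal_eq_bot_iff, Submodule.eq_bot_iff]
  intro g hg
  rw [Submodule.mem_orthogonal] at hg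
  have hprod : ∀ y ∈ RY, ∀ᵐ θ ∂hm, ‖y θ‖ * ‖g θ‖ = 0 := by
    intro y hy
    have hint : Integrable (fun θ => conj (y θ) * g θ) hm := by
      exact (L2.integrable_inner (𝕜 := ℂ) y g).congr
        (Eventually.of_forall fun θ => RCLike.inner_apply' _ _)
    have h0 := ae_zero_of_integral_fourier_mul hint fun n => by
      have h := hg _ (mulF_mem_RY hy (-n))
      rw [L2.inner_def] at h
      rw [← h]
      refine integral_congr_ae ?_
      filter_upwards [coeFn_mulF (-n) y] with θ hθ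
      rw [hθ, RCLike.inner_apply', map_mul, fourier_neg, Complex.conj_conj, mul_assoc]
    filter_upwards [h0] with θ hθ
    have := congrArg norm hθ
    simpa [norm_mul] using this
  have key : ∀ n, Real.sqrt 2 * ∫ θ, ‖g θ‖ ∂hm ≤ 8 * (1/2:ℝ) ^ n * ‖g‖ := by
    intro n
    set s : ℂ := (Real.sqrt (hh n) : ℂ)
    set a : Coef := fun p => if p = 0 then (s, 0) else 0 with ha
    set b : Coef := fun p => if p = 0 then (0, s) else 0 with hb
    obtain ⟨y, hy, hyd⟩ := exists_mem_SS n a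
    obtain ⟨z, hz, hzd⟩ := exists_mem_SS n b
    have hymem : y ∈ RY := Submodule.mem_map.2 ⟨_, SS.le_topologicalClosure hy, rfl⟩
    have hzmem : z ∈ RY := Submodule.mem_map.2 ⟨_, SS.le_topologicalClosure hz, rfl⟩
    have hsum : ∀ (c : ℕ → ℂ), (∀ p, p ≠ 0 → c p = 0) → ∀ θ, FF (hh n) c θ = c 0 := by
      intro c hc θ
      rw [FF, Finset.sum_eq_single_of_mem 0 (Finset.mem_range.2 (hh_pos n)) fun p _ hp => by simp [hc p hp]]
      simp [-fourier_apply, fourier_zero]
    have hsq : ∀ (v : ℂ × ℂ), ‖v.1‖ ^ 2 + ‖v.2‖ ^ 2 = hh n →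
        ‖Phi n (fun p => if p = 0 then v else 0)‖ = 1 := by
      intro v hv
      have h := norm_Phi_sq n (fun p => if p = 0 then v else 0)
      rw [nrm2, Finset.sum_eq_single_of_mem 0 (Finset.mem_range.2 (hh_pos n)) fun p _ hp => by simp [hp]] at h
      simp only [if_true] at h
      rw [hv, inv_mul_cancel₀ (by exact_mod_cast (hh_pos n).ne')] at h
      exact (pow_left_inj₀ (norm_nonneg _) zero_le_one two_ne_zero).1 (by rw [h, one_pow])
    have hs2 : ‖s‖ ^ 2 = hh n := by
      simp only [s, Complex.norm_real, Real.norm_eq_abs, sq_abs, Real.sq_sqrt (Nat.cast_nonneg _)]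
    rw [hsq (s, 0) (by simp [hs2]), mul_one, dist_eq_norm] at hyd
    rw [hsq (0, s) (by simp [hs2]), mul_one, dist_eq_norm] at hzd
    have hpt : ∀ᵐ θ ∂hm, Real.sqrt 2 * ‖g θ‖ ≤
        ‖(Phi n a - y) θ‖ * ‖g θ‖ + ‖(Phi n b - z) θ‖ * ‖g θ‖ := by
      filter_upwards [hprod y hymem, hprod z hzmem, Lp.coeFn_sub (Phi n a) y, Lp.coeFn_sub (Phi n b) z,
        coeFn_Phi n a, coeFn_Phi n b] with θ h1 h2 h3 h4 h5 h6
      by_cases hg0 : g θ = 0
      · simp [hg0]
      have hgn : ‖g θ‖ ≠ 0 := norm_ne_zero_iff.2 hg0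
      have hy0 : y θ = 0 := norm_eq_zero.1 ((mul_eq_zero.1 h1).resolve_right hgn)
      have hz0 : z θ = 0 := norm_eq_zero.1 ((mul_eq_zero.1 h2).resolve_right hgn)
      have hc : cst n * Real.sqrt (hh n) = Real.sqrt 2 :=
        div_mul_cancel₀ _ (Real.sqrt_ne_zero'.2 (by exact_mod_cast hh_pos n))
      have hna : ‖phiFun n a θ‖ = Real.sqrt 2 * bb n θ := by
        rw [norm_phiFun, psi, hsum _ (fun p hp => by simp [ha, hp]), hsum _ (fun p hp => by simp [ha, hp])]
        rcases bb_cases n θ with h | h <;>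
          simp [ha, h, s, abs_of_nonneg (cst_nonneg n), abs_of_nonneg (Real.sqrt_nonneg _), hc]
      have hnb : ‖phiFun n b θ‖ = Real.sqrt 2 * (1 - bb n θ) := by
        rw [norm_phiFun, psi, hsum _ (fun p hp => by simp [hb, hp]), hsum _ (fun p hp => by simp [hb, hp])]
        rcases bb_cases n θ with h | h <;>
          simp [hb, h, s, abs_of_nonneg (cst_nonneg n), abs_of_nonneg (Real.sqrt_nonneg _), hc]
      rw [h3, h4, Pi.sub_apply, Pi.sub_apply, h5, h6, hy0, hz0, sub_zero, sub_zero, hna, hnb]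
      exact le_of_eq (by ring)
    have hi : ∀ f : CC, Integrable (fun θ => ‖f θ‖ * ‖g θ‖) hm := fun f => by
      exact (L2.integrable_inner (𝕜 := ℂ) f g).norm.congr
        (Eventually.of_forall fun θ => by simp [norm_mul, mul_comm])
    rw [← integral_const_mul]
    refine (integral_mono_ae (((Lp.memLp g).integrable one_le_two).norm.const_mul _)
      ((hi _).fun_add (hi _)) hpt).trans ?_
    rw [integral_add (hi _) (hi _)]
    refine (add_le_add (integral_norm_mul_le _ g) (integral_norm_mul_le _ g)).trans ?_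
    calc ‖Phi n a - y‖ * ‖g‖ + ‖Phi n b - z‖ * ‖g‖
        ≤ (4 * (1/2:ℝ) ^ n) * ‖g‖ + (4 * (1/2:ℝ) ^ n) * ‖g‖ := by gcongr
    _ = 8 * (1/2:ℝ) ^ n * ‖g‖ := by ring
  have hlim : Tendsto (fun n : ℕ => 8 * (1/2:ℝ) ^ n * ‖g‖) atTop (𝓝 0) := by
    simpa using ((tendsto_pow_atTop_nhds_zero_of_lt_one (by norm_num) (by norm_num : (1/2:ℝ) < 1)).const_mul 8).mul_const ‖g‖
  have h0 : ∫ θ, ‖g θ‖ ∂hm = 0 := by
    have h1 := ge_of_tendsto' hlim key
    have h2 : 0 ≤ ∫ θ, ‖g θ‖ ∂hm := integral_nonneg fun _ => norm_nonneg _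
    have h3 : 0 < Real.sqrt 2 := by positivity
    nlinarith
  rw [integral_eq_zero_iff_of_nonneg (fun _ => norm_nonneg _) ((Lp.memLp g).integrable one_le_two).norm] at h0
  refine Lp.ext (EventuallyEq.trans ?_ (Lp.coeFn_zero ℂ 2 hm).symm)
  filter_upwards [h0] with θ hθ
  simpa using hθ

end

end Vale.Agent.P130
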