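import Vale.Agent.P130.Singular

/-! The absolutely continuous part is simple Lebesgue. -/

namespace Vale.Agent.P130

open MeasureTheory Filter Topology Set
open scoped ENNReal ComplexConjugate InnerProductSpace

noncomputable section

attribute [local irreducible] lev gg pos natO act dinv coc

/-- mode-one subspace (first projection of the closed graph) -/
def VV : Submodule ℂ HH := GS.map (LinearMap.fst ℂ HH CC)

theorem norm_sub_of_mem_GS {q r : HH × CC} (hq : q ∈ GS) (hr : r ∈ GS) :
    ‖q.1 - r.1‖ = ‖q.2 - r.2‖ := by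
  have h1 : q - r ∈ GS := Submodule.sub_mem GS hq hr
  have h := norm_eq_of_mem_GS (q := q - r) h1
  rw [Prod.fst_sub, Prod.snd_sub] at h
  exact h

theorem fst_unique_GS {x x' : HH} {y : CC} (h : (x, y) ∈ GS) (h' : (x', y) ∈ GS) : x = x' := by
  have hn : ‖x - x'‖ = ‖y - y‖ := norm_sub_of_mem_GS (q := (x, y)) (r := (x', y)) h h'
  rw [sub_self, norm_zero] at hn
  exact sub_eq_zero.1 (norm_eq_zero.1 hn)

theorem inner_eq_of_mem_GS {q r : HH × CC} (hq : q ∈ GS) (hr : r ∈ GS) :
    ⟪q.1, r.1⟫_ℂ = ⟪q.2, r.2⟫_ℂ := by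
  have key : ∀ c : ℂ, ‖q.1 + c • r.1‖ = ‖q.2 + c • r.2‖ := fun c => by
    have h := norm_eq_of_mem_GS (q := q + c • r) (Submodule.add_mem GS hq (Submodule.smul_mem GS c hr))
    simpa only [Prod.fst_add, Prod.snd_add, Prod.smul_fst, Prod.smul_snd] using h
  have h1 := key 1; have h2 := key (-1); have h3 := key Complex.I; have h4 := key (-Complex.I)
  simp only [one_smul, neg_smul, ← sub_eq_add_neg] at h1 h2 h3 h4
  rw [inner_eq_sum_norm_sq_div_four, inner_eq_sum_norm_sq_div_four]
  simp only [RCLike.I_to_complex, h1, h2, h3, h4]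

theorem isClosed_VV : IsClosed (VV : Set HH) := by
  have : CompleteSpace GS := SS.isClosed_topologicalClosure.completeSpace_coe
  have hiso : Isometry fun q : GS => (q : HH × CC).1 := by
    refine Isometry.of_dist_eq fun q r => ?_
    rw [dist_eq_norm, dist_eq_norm, Submodule.norm_coe (q - r) |>.symm, Submodule.coe_sub, Prod.norm_def,
      ← norm_eq_of_mem_GS (GS.sub_mem q.2 r.2), Prod.fst_sub, max_self]
  have : (VV : Set HH) = Set.range fun q : GS => (q : HH × CC).1 := by
    ext y
    simp only [VV, Submodule.map_coe, LinearMap.fst_apply, mem_image, SetLike.mem_coe, mem_range]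
    constructor
    · rintro ⟨q, hq, rfl⟩; exact ⟨⟨q, hq⟩, rfl⟩
    · rintro ⟨q, rfl⟩; exact ⟨q, q.2, rfl⟩
  rw [this]
  exact hiso.isClosedEmbedding.isClosed_range

theorem iota_one_mem_VV (n : ℕ) (a : Coef) : iota 1 n a ∈ VV := by
  obtain ⟨y, hy, -⟩ := exists_mem_SS n a
  exact Submodule.mem_map.2 ⟨_, SS.le_topologicalClosure hy, rfl⟩

theorem mem_GS_pow {x : HH} {y : CC} (h : (x, y) ∈ GS) (k : ℤ) : ((UU ^ k) x, mulF (-k) y) ∈ GS := by
  induction k with
  | zero => simpa [mulF_zero] using h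
  | succ k ih =>
    have h1 := (mem_GS_shift ih).2
    simp only at h1
    rw [← mulF_add] at h1
    rw [add_comm (k:ℤ) 1, zpow_add, zpow_one, neg_add]
    exact h1
  | pred k ih =>
    have h1 := (mem_GS_shift ih).1
    simp only at h1
    rw [← mulF_add] at h1
    rw [sub_eq_neg_add, zpow_add, zpow_neg_one]
    rw [show -(-1 + -(k:ℤ)) = 1 + - -(k:ℤ) by ring]
    exact h1

theorem exists_generator : ∃ x₀ : HH, (x₀, fourierLp 2 0) ∈ GS := by
  have h : (fourierLp 2 0 : CC) ∈ RY := by rw [RY_eq_top]; exact Submodule.mem_top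
  obtain ⟨⟨x, y⟩, hq, hy⟩ := Submodule.mem_map.1 h
  simp only [LinearMap.snd_apply] at hy
  exact ⟨x, hy ▸ hq⟩

/-- the cyclic vector -/
def x0 : HH := exists_generator.choose

theorem mulF_fourierLp (k : ℤ) : mulF k (fourierLp 2 0) = fourierLp 2 k := by
  refine Lp.ext ((coeFn_mulF k _).trans ?_)
  filter_upwards [coeFn_fourierLp (T := (1:ℝ)) 2 0, coeFn_fourierLp (T := (1:ℝ)) 2 k] with θ h1 h2
  rw [h1, h2, ← fourier_add, add_zero]

theorem mem_GS_orbit (k : ℤ) : ((UU ^ k) x0, fourierLp 2 (-k)) ∈ GS := by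
  rw [← mulF_fourierLp]; exact mem_GS_pow exists_generator.choose_spec k

theorem orthonormal_orbit : Orthonormal ℂ fun k : ℤ => (UU ^ k) x0 := by
  rw [orthonormal_iff_ite]
  intro i j
  have h : ⟪(UU ^ i) x0, (UU ^ j) x0⟫_ℂ = ⟪(fourierLp 2 (-i) : CC), fourierLp 2 (-j)⟫_ℂ :=
    inner_eq_of_mem_GS (q := ((UU ^ i) x0, fourierLp 2 (-i))) (r := ((UU ^ j) x0, fourierLp 2 (-j)))
      (mem_GS_orbit i) (mem_GS_orbit j)
  rw [h, orthonormal_iff_ite.1 orthonormal_fourier (-i) (-j)]
  simp [neg_inj]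

theorem VV_eq_closure_span :
    VV = (Submodule.span ℂ (Set.range fun k : ℤ => (UU ^ k) x0)).topologicalClosure := by
  refine le_antisymm ?_ (Submodule.topologicalClosure_minimal _ ?_ isClosed_VV)
  swap
  · rw [Submodule.span_le]
    rintro _ ⟨k, rfl⟩
    exact Submodule.mem_map.2 ⟨_, mem_GS_orbit k, rfl⟩
  intro x hx
  obtain ⟨⟨x', y⟩, hq, rfl⟩ := Submodule.mem_map.1 hx
  simp only [LinearMap.fst_apply]
  have hsum : HasSum (fun i => fourierCoeff y i • fourierLp 2 i) y := hasSum_fourier_series_L2 y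
  rw [← SetLike.mem_coe, Submodule.topologicalClosure_coe]
  refine mem_closure_of_tendsto (b := atTop) (f := fun F : Finset ℤ => ∑ i ∈ F, fourierCoeff y i • (UU ^ (-i)) x0) ?_
    (Eventually.of_forall fun F => Submodule.sum_mem _ fun i _ =>
      Submodule.smul_mem _ _ (Submodule.subset_span ⟨-i, rfl⟩))
  rw [tendsto_iff_norm_sub_tendsto_zero]
  have h2 := tendsto_iff_norm_sub_tendsto_zero.1 hsum
  refine h2.congr fun F => ?_
  have hm' : (∑ i ∈ F, fourierCoeff y i • (UU ^ (-i)) x0, ∑ i ∈ F, fourierCoeff y i • (fourierLp 2 i : CC)) ∈ GS := by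
    rw [show (∑ i ∈ F, fourierCoeff y i • (UU ^ (-i)) x0, ∑ i ∈ F, fourierCoeff y i • (fourierLp 2 i : CC))
      = ∑ i ∈ F, fourierCoeff y i • (((UU ^ (-i)) x0, (fourierLp 2 i : CC)) : HH × CC) from
      Prod.ext (by simp [Prod.fst_sum]) (by simp [Prod.snd_sum])]
    refine Submodule.sum_mem _ fun i _ => ?_
    have h := mem_GS_orbit (-i)
    rw [neg_neg] at h
    exact Submodule.smul_mem GS (fourierCoeff y i) h
  exact (norm_sub_of_mem_GS hm' hq).symm

/-- the correlation sequence of `g` is the Fourier sequence of a nonnegative integrable density -/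
def IsAC (g : HH) : Prop :=
  ∃ ρ : UnitAddCircle → ℝ, Integrable ρ hm ∧ 0 ≤ ρ ∧
    ∀ k : ℤ, ⟪g, (UU ^ k) g⟫_ℂ = ∫ t, (ρ t : ℂ) * fourier k t ∂hm

theorem inner_mulF_eq (k : ℤ) (y : CC) :
    ⟪y, mulF (-k) y⟫_ℂ = ∫ t, ((‖y (-t)‖ ^ 2 : ℝ) : ℂ) * fourier k t ∂hm := by
  rw [L2.inner_def, ← integral_neg_eq_self (fun t => (((‖y (-t)‖ ^ 2 : ℝ)) : ℂ) * fourier k t) hm]
  refine integral_congr_ae ?_
  filter_upwards [coeFn_mulF (-k) y] with t ht
  rw [ht, RCLike.inner_apply', neg_neg, fourier_neg_arg, Complex.ofReal_pow, ← Complex.conj_mul']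
  ring

theorem integrable_sq_neg (y : CC) : Integrable (fun t => ‖y (-t)‖ ^ 2) hm := by
  have h1 : Integrable (fun t => ‖y t‖ ^ 2) hm := by
    have := (Lp.memLp y).norm.integrable_sq
    exact this
  have h2 := h1.comp_neg
  exact h2

theorem isAC_of_mem_VV {g : HH} (hg : g ∈ VV) : IsAC g := by
  obtain ⟨⟨x, y⟩, hq, hx⟩ := Submodule.mem_map.1 hg
  have hx' : x = g := hx
  refine ⟨fun t => ‖y (-t)‖ ^ 2, integrable_sq_neg y, fun t => sq_nonneg _, fun k => ?_⟩
  have h : ⟪x, (UU ^ k) x⟫_ℂ = ⟪y, mulF (-k) y⟫_ℂ :=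
    inner_eq_of_mem_GS (q := (x, y)) (r := ((UU ^ k) x, mulF (-k) y)) hq (mem_GS_pow hq k)
  rw [← hx', h]
  exact inner_mulF_eq k y

theorem tendsto_fourier_coeff_cofinite {ρ : UnitAddCircle → ℂ} (hρ : Integrable ρ hm) :
    Tendsto (fun k : ℤ => ∫ t, ρ t * fourier k t ∂hm) cofinite (𝓝 0) := by
  rw [Metric.tendsto_nhds]
  intro ε hε
  have hmem : (memLp_one_iff_integrable.2 hρ).toLp ρ ∈
      closure ((Submodule.span ℂ (Set.range (fourierLp (T := (1:ℝ)) 1)) : Submodule ℂ (Lp ℂ 1 hm)) : Set (Lp ℂ 1 hm)) := by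
    rw [← Submodule.topologicalClosure_coe, span_fourierLp_closure_eq_top ENNReal.one_ne_top]
    exact Submodule.mem_top
  obtain ⟨P, hP, hd⟩ := Metric.mem_closure_iff.1 hmem ε hε
  obtain ⟨c, hc⟩ := Finsupp.mem_span_range_iff_exists_finsupp.1 hP
  rw [eventually_cofinite]
  refine (c.support.image fun i => -i).finite_toSet.subset fun k hk => ?_
  simp only [Finset.coe_image, Set.mem_image, SetLike.mem_coe, mem_ofPred_eq] at hk ⊢
  by_contra hne
  push Not at hne
  apply hk
  have hPi : Integrable (P : UnitAddCircle → ℂ) hm := memLp_one_iff_integrable.1 (Lp.memLp P)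
  have hP0 : ∫ t, P t * fourier k t ∂hm = 0 := by
    have hae : (P : UnitAddCircle → ℂ) =ᵐ[hm] fun t => ∑ i ∈ c.support, c i * fourier i t := by
      rw [← hc, Finsupp.sum]
      refine (Lp.coeFn_finsetSum _ _).trans ?_
      have : ∀ i ∈ c.support, (fun t => ((c i • fourierLp (T := (1:ℝ)) 1 i : Lp ℂ 1 hm) : UnitAddCircle → ℂ) t)
          =ᵐ[hm] fun t => c i * fourier i t := by
        intro i _
        filter_upwards [Lp.coeFn_smul (c i) (fourierLp (T := (1:ℝ)) 1 i), coeFn_fourierLp (T := (1:ℝ)) 1 i] with t h1 h2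
        rw [h1, Pi.smul_apply, h2, smul_eq_mul]
      filter_upwards [(eventually_all_finset _).2 this] with t ht
      rw [Finset.sum_apply]
      exact Finset.sum_congr rfl fun i hi => ht i hi
    rw [integral_congr_ae (hae.mono fun t ht => show P t * fourier k t = ∑ i ∈ c.support, c i * fourier (i + k) t by
      rw [ht, Finset.sum_mul]; exact Finset.sum_congr rfl fun i _ => by rw [fourier_add, mul_assoc])]
    rw [integral_finsetSum]
    · refine Finset.sum_eq_zero fun i hi => ?_
      rw [integral_const_mul, integral_fourier, if_neg, mul_zero]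
      intro h0
      exact hne i hi (by omega)
    · intro i _
      exact (integrable_mul_of_continuous (integrable_const (1:ℂ)) (fourier (i + k))).const_mul (c i) |>.congr
        (Eventually.of_forall fun t => by simp [-fourier_apply])
  rw [dist_eq_norm] at hd ⊢
  rw [sub_zero]
  set R := (memLp_one_iff_integrable.2 hρ).toLp ρ with hR
  have h1 : ∫ t, ρ t * fourier k t ∂hm = ∫ t, (R t - P t) * fourier k t ∂hm := by
    rw [← sub_zero (∫ t, ρ t * fourier k t ∂hm), ← hP0, ← integral_sub]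
    · refine integral_congr_ae ?_
      filter_upwards [(memLp_one_iff_integrable.2 hρ).coeFn_toLp] with t ht
      rw [hR, ht, sub_mul]
    · exact (integrable_mul_of_continuous hρ (fourier k)).congr (Eventually.of_forall fun t => mul_comm _ _)
    · exact (integrable_mul_of_continuous hPi (fourier k)).congr (Eventually.of_forall fun t => mul_comm _ _)
  rw [h1]
  refine lt_of_le_of_lt ?_ hd
  rw [L1.norm_eq_integral_norm]
  refine (norm_integral_le_integral_norm _).trans (le_of_eq (integral_congr_ae ?_))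
  filter_upwards [Lp.coeFn_sub R P] with t ht
  rw [norm_mul, norm_fourier_apply, mul_one, ht, Pi.sub_apply]

theorem inner_pow_pow (i k : ℤ) (g h : HH) : ⟪(UU ^ i) g, (UU ^ k) h⟫_ℂ = ⟪g, (UU ^ (k - i)) h⟫_ℂ := by
  rw [show (UU ^ k) h = (UU ^ i) ((UU ^ (k - i)) h) from by
    rw [← LinearIsometryEquiv.trans_apply, ← LinearIsometryEquiv.mul_def, ← zpow_add, add_sub_cancel]]
  exact LinearIsometryEquiv.inner_map_map _ _ _

theorem weak_null_of_isAC {g : HH} (hg : IsAC g) (v : HH) :
    Tendsto (fun k : ℤ => ⟪v, (UU ^ k) g⟫_ℂ) cofinite (𝓝 0) := by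
  obtain ⟨ρ, hρ, -, hcorr⟩ := hg
  set W := (Submodule.span ℂ (Set.range fun k : ℤ => (UU ^ k) g)) with hW
  set S : Set HH := (Set.range fun k : ℤ => (UU ^ k) g) ∪ (Wᗮ : Set HH)
  have hS : (Submodule.span ℂ S).topologicalClosure = ⊤ := by
    rw [Submodule.topologicalClosure_eq_top_iff, Submodule.eq_bot_iff]
    intro u hu
    have h1 : u ∈ Wᗮ := by
      rw [Submodule.mem_orthogonal]
      intro w hw
      exact Submodule.inner_right_of_mem_orthogonal (Submodule.span_mono subset_union_left hw) hu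
    have h2 := Submodule.inner_right_of_mem_orthogonal
      (K := Submodule.span ℂ S) (Submodule.subset_span (Or.inr h1)) hu
    exact inner_self_eq_zero.1 h2
  have hgoal := tendsto_inner_of_bounded (l := cofinite) (fun k : ℤ => (UU ^ k) g) 0 ‖g‖
    (fun k => le_of_eq (LinearIsometryEquiv.norm_map _ _)) hS ?_ v
  · simpa only [inner_zero_right] using hgoal
  rintro s (⟨i, rfl⟩ | hs)
  · simp only [inner_zero_right, inner_pow_pow, hcorr]
    have hinj : Function.Injective fun k : ℤ => k - i := fun a b h => by simpa using h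
    exact (tendsto_fourier_coeff_cofinite hρ.ofReal).comp hinj.tendsto_cofinite
  · simp only [inner_zero_right]
    refine tendsto_const_nhds.congr' (Eventually.of_forall fun k => ?_)
    have : (UU ^ k) g ∈ W := Submodule.subset_span ⟨k, rfl⟩
    exact (Submodule.inner_left_of_mem_orthogonal this hs).symm

theorem tt_tendsto (j : ℕ) : Tendsto (fun k => tt (stg j k)) atTop atTop := by
  refine tendsto_atTop_mono (fun k => ?_) (tendsto_hh.comp (tendsto_stg j))
  exact Nat.le_mul_of_pos_left _ (one_le_LL _)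

theorem weak_null_neg {g : HH} (hg : IsAC g) {t : ℕ → ℕ} (ht : Tendsto t atTop atTop) (φ : HH) :
    Tendsto (fun k => ⟪g, (UU ^ t k) φ⟫_ℂ) atTop (𝓝 0) := by
  have hneg : Tendsto (fun k => -(t k : ℤ)) atTop cofinite := by
    have h1 : Tendsto (fun k => (t k : ℤ)) atTop atTop := tendsto_natCast_atTop_atTop.comp ht
    exact (tendsto_neg_atTop_atBot.comp h1).mono_right atBot_le_cofinite
  have h := ((weak_null_of_isAC hg φ).comp hneg)
  have h2 := (Complex.continuous_conj.tendsto 0).comp h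
  rw [map_zero] at h2
  refine h2.congr fun k => ?_
  simp only [Function.comp_apply, inner_conj_symm]
  have := inner_pow_pow (-(t k : ℤ)) 0 g φ
  rw [zpow_zero, zero_sub, neg_neg, zpow_natCast] at this
  exact this

theorem inner_iota_of_isAC {g : HH} (hg : IsAC g) (j n : ℕ) (a : Coef) (hj : j ≠ 1) :
    ⟪g, iota j n a⟫_ℂ = 0 := by
  by_cases h0 : j = 0
  · subst h0
    have ht : Tendsto (fun k => k * hh n) atTop atTop :=
      tendsto_atTop_mono (fun k => Nat.le_mul_of_pos_right k (hh_pos n)) tendsto_id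
    have h := weak_null_neg hg ht (iota 0 n a)
    simp only [UU_pow_iota_zero] at h
    exact tendsto_nhds_unique tendsto_const_nhds h
  · have hj2 : 2 ≤ j := by omega
    have h1 := tendsto_rigid j j hj2 n a g
    have h2 := weak_null_neg hg (tt_tendsto j) (iota j n a)
    have h3 := tendsto_nhds_unique h1 h2
    rw [cJ, if_neg h0, if_pos dvd_rfl, inner_smul_right, mul_eq_zero] at h3
    refine h3.resolve_left ?_
    rw [sub_eq_zero]
    intro hc
    have : (j : ℂ) = 1 := inv_eq_one.1 hc.symm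
    exact hj (by exact_mod_cast this)

theorem mem_VV_inner_iota {u : HH} (hu : u ∈ VV) (j n : ℕ) (a : Coef) (hj : j ≠ 1) :
    ⟪u, iota j n a⟫_ℂ = 0 := inner_iota_of_isAC (isAC_of_mem_VV hu) j n a hj

theorem mem_VV_of_isAC {g : HH} (hg : IsAC g) : g ∈ VV := by
  have : CompleteSpace VV := isClosed_VV.completeSpace_coe
  set P := VV.starProjection g with hP
  have hPm : P ∈ VV := Submodule.starProjection_apply_mem _ _
  suffices g - P = 0 by rwa [sub_eq_zero.1 this]
  refine eq_zero_of_forall_inner_iota _ fun j n a => ?_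
  by_cases hj : j = 1
  · subst hj
    exact Submodule.inner_right_of_mem_orthogonal (iota_one_mem_VV n a)
      (Submodule.sub_starProjection_mem_orthogonal g)
  · rw [← inner_conj_symm, inner_sub_left, inner_iota_of_isAC hg j n a hj, mem_VV_inner_iota hPm j n a hj,
      sub_zero, map_zero]

/-- the constant `1` -/
def oneH : HH := iota 0 0 (fun _ => (1, 0))

theorem coeFn_oneH : oneH =ᵐ[hY] fun _ => (1:ℂ) := by
  refine (coeFn_iota _ _ _).trans (Eventually.of_forall fun y => ?_)
  simp [lf, mfun_zero]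

theorem inner_oneH (g : HH) : ⟪oneH, g⟫_ℂ = ∫ y, g y ∂hY := by
  rw [L2.inner_def]
  refine integral_congr_ae ?_
  filter_upwards [coeFn_oneH] with y hy
  rw [hy, RCLike.inner_apply', map_one, one_mul]

theorem integral_eq_zero_of_mem_VV {g : HH} (hg : g ∈ VV) : ∫ y, g y ∂hY = 0 := by
  rw [← inner_oneH, ← inner_conj_symm, oneH, mem_VV_inner_iota hg 0 0 _ zero_ne_one, map_zero]

theorem invariant_eq_const {g : HH} (hg : UU g = g) : g = (∫ y, g y ∂hY) • oneH := by
  have hpow : ∀ k : ℕ, (UU ^ k) g = g := by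
    intro k; induction k with
    | zero => rfl
    | succ k ih => rw [pow_succ, LinearIsometryEquiv.mul_def, LinearIsometryEquiv.trans_apply, hg, ih]
  have honeU : UU oneH = oneH := by
    refine Lp.ext ((coeFn_UU _).trans ((measurePreserving_TT.quasiMeasurePreserving.ae_eq_comp coeFn_oneH).trans ?_))
    exact EventuallyEq.trans (Eventually.of_forall fun y => rfl) coeFn_oneH.symm
  set m := ∫ y, g y ∂hY
  set u := g - m • oneH with hu
  have hUu : UU u = u := by rw [hu, map_sub, map_smul, hg, honeU]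
  have hupow : ∀ k : ℕ, (UU ^ k) u = u := by
    intro k; induction k with
    | zero => rfl
    | succ k ih => rw [pow_succ, LinearIsometryEquiv.mul_def, LinearIsometryEquiv.trans_apply, hUu, ih]
  suffices u = 0 from sub_eq_zero.1 this
  have h11 : ∫ y, oneH y ∂hY = 1 := by rw [integral_congr_ae coeFn_oneH]; simp
  have hone : ⟪oneH, u⟫_ℂ = 0 := by
    rw [hu, inner_sub_right, inner_smul_right, inner_oneH, inner_oneH, h11, mul_one, sub_self]
  refine eq_zero_of_forall_inner_iota _ fun j n a => ?_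
  rcases lt_trichotomy j 1 with hj | hj | hj
  · have hj0 : j = 0 := by omega
    subst hj0
    set d : ℕ → Coef := fun p q => if q = p then (1, 0) else 0 with hd
    have hstep : ∀ p, p + 1 < hh n → ⟪iota 0 n (d p), u⟫_ℂ = ⟪iota 0 n (d (p + 1)), u⟫_ℂ := by
      intro p hp
      have hsh : UU (iota 0 n (d (p + 1))) = iota 0 n (d p) :=
        UU_iota_shift 0 n _ _ (fun q _ => by simp [hd]) (by simp [hd]; omega) (by simp [hd])
      conv_lhs => rw [← hsh, ← hUu]
      exact LinearIsometryEquiv.inner_map_map _ _ _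
    have hall : ∀ p < hh n, ⟪iota 0 n (d p), u⟫_ℂ = ⟪iota 0 n (d 0), u⟫_ℂ := by
      intro p
      induction p with
      | zero => intro _; rfl
      | succ p ih => intro hp; rw [← hstep p hp, ih (by omega)]
    have hdec : ∀ b : Coef, iota 0 n b = ∑ p ∈ Finset.range (hh n), ((b p).1 + (b p).2) • iota 0 n (d p) := by
      intro b
      simp only [← map_smul, ← map_sum]
      refine MemLp.toLp_congr (memLp_lf 0 n _) (memLp_lf 0 n _) (Eventually.of_forall fun y => ?_)
      simp only [lf, mfun_zero, crd, Finset.sum_apply, Pi.smul_apply, Prod.fst_sum, Prod.snd_sum, hd]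
      rw [← Finset.sum_add_distrib, Finset.sum_eq_single_of_mem (pos n y.1) (Finset.mem_range.2 (pos_lt n y.1))
        fun p _ hp => by simp [Ne.symm hp]]
      simp
    have hcon : ∀ b : Coef, ⟪iota 0 n b, u⟫_ℂ
        = conj (∑ p ∈ Finset.range (hh n), ((b p).1 + (b p).2)) * ⟪iota 0 n (d 0), u⟫_ℂ := by
      intro b
      rw [hdec b, sum_inner, map_sum, Finset.sum_mul]
      exact Finset.sum_congr rfl fun p hp => by rw [inner_smul_left, hall p (Finset.mem_range.1 hp)]
    have hone' : iota 0 n (fun _ => (1, 0)) = oneH := by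
      refine MemLp.toLp_congr (memLp_lf 0 n _) (memLp_lf 0 0 _) (Eventually.of_forall fun y => ?_)
      simp [lf, mfun_zero]
    have h := hcon (fun _ => (1, 0))
    rw [hone', hone] at h
    simp only [add_zero, Finset.sum_const, Finset.card_range, nsmul_eq_mul, mul_one, map_natCast] at h
    rw [hcon a, (mul_eq_zero.1 h.symm).resolve_left (by exact_mod_cast (hh_pos n).ne'), mul_zero]
  · subst hj
    have h := weak_null_of_isAC (isAC_of_mem_VV (iota_one_mem_VV n a)) u
    have hc : Tendsto (fun k : ℕ => ⟪u, (UU ^ (k : ℤ)) (iota 1 n a)⟫_ℂ) atTop (𝓝 0) :=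
      h.comp (tendsto_natCast_atTop_atTop.mono_right atTop_le_cofinite)
    have heq : ∀ k : ℕ, ⟪u, (UU ^ (k : ℤ)) (iota 1 n a)⟫_ℂ = ⟪u, iota 1 n a⟫_ℂ := by
      intro k
      rw [zpow_natCast, ← LinearIsometryEquiv.inner_map_map (UU ^ k) u (iota 1 n a), hupow k]
    simp only [heq] at hc
    rw [← inner_conj_symm, tendsto_nhds_unique tendsto_const_nhds hc, map_zero]
  · have h1 := tendsto_rigid j j hj n a u
    rw [cJ, if_neg (show j ≠ 0 by omega), if_pos dvd_rfl] at h1
    have heq : ∀ k, ⟪u, (UU ^ tt (stg j k)) (iota j n a)⟫_ℂ = ⟪u, iota j n a⟫_ℂ := by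
      intro k
      rw [← LinearIsometryEquiv.inner_map_map (UU ^ tt (stg j k)) u (iota j n a), hupow (tt (stg j k))]
    simp only [heq, inner_smul_right] at h1
    have h2 := tendsto_nhds_unique tendsto_const_nhds h1
    have hj0 : ((j:ℂ)⁻¹) ≠ 0 := inv_ne_zero (by exact_mod_cast (by omega : j ≠ 0))
    have h3 : (j:ℂ)⁻¹ * ⟪u, iota j n a⟫_ℂ = 0 := by linear_combination h2
    rw [← inner_conj_symm, (mul_eq_zero.1 h3).resolve_left hj0, map_zero]

theorem ergodic_TT : Ergodic TT hY := by
  refine ⟨measurePreserving_TT, ⟨fun s hs hinv => ?_⟩⟩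
  have hmem : MemLp (s.indicator fun _ : YY => (1:ℂ)) 2 hY := (memLp_const 1).indicator hs
  set g : HH := hmem.toLp with hg
  have hUg : UU g = g := by
    refine Lp.ext ((coeFn_UU g).trans ?_)
    refine (measurePreserving_TT.quasiMeasurePreserving.ae_eq_comp hmem.coeFn_toLp).trans
      (EventuallyEq.trans (Eventually.of_forall fun y => ?_) hmem.coeFn_toLp.symm)
    simp only [Function.comp_apply]
    have : (TT y ∈ s) ↔ y ∈ s := by rw [← mem_preimage, hinv]
    by_cases hy : y ∈ s
    · rw [indicator_of_mem hy, indicator_of_mem (this.2 hy)]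
    · rw [indicator_of_notMem hy, indicator_of_notMem (this.not.2 hy)]
  have hconst := invariant_eq_const hUg
  have hae : ∀ᵐ y ∂hY, s.indicator (fun _ : YY => (1:ℂ)) y = ∫ y, g y ∂hY := by
    filter_upwards [hmem.coeFn_toLp, Lp.coeFn_smul (∫ y, g y ∂hY) oneH, coeFn_oneH] with y h1 h2 h3
    rw [← h1, ← hg]
    conv_lhs => rw [hconst]
    rw [h2, Pi.smul_apply, h3, smul_eq_mul, mul_one]
  rw [eventuallyConst_set]
  by_cases hm0 : ∫ y, g y ∂hY = 1
  · left; filter_upwards [hae] with y hy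
    by_contra hys; rw [indicator_of_notMem hys, hm0] at hy; exact zero_ne_one hy
  · right; filter_upwards [hae] with y hy
    intro hys; rw [indicator_of_mem hys] at hy; exact hm0 hy.symm

end

end Vale.Agent.P130
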