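import Vale.Agent.P130.Space
import Vale.Agent.P130.L1Fourier

/-! Level functions of a given fibre mode, and the Koopman operator. -/

namespace Vale.Agent.P130

open MeasureTheory Filter Topology Set
open scoped ENNReal ComplexConjugate InnerProductSpace

noncomputable section

attribute [local irreducible] lev gg pos natO act dinv coc GG alpha

/-- coefficient sequences -/
abbrev Coef : Type := ℕ → ℂ × ℂ

/-- fibre function of mode `j` -/
def mfun (j : ℕ) (a : Coef) (p : ℕ) (w : UnitAddCircle) : ℂ :=
  (a p).1 * fourier (j:ℤ) w + (a p).2 * fourier (-(j:ℤ)) w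

/-- level function of mode `j` -/
def lf (j n : ℕ) (a : Coef) (y : YY) : ℂ := mfun j a (crd n y).1 (crd n y).2

theorem continuous_mfun (j : ℕ) (a : Coef) (p : ℕ) : Continuous (mfun j a p) := by
  unfold mfun; fun_prop

theorem norm_mfun_le (j : ℕ) (a : Coef) (p : ℕ) (w : UnitAddCircle) :
    ‖mfun j a p w‖ ≤ ‖(a p).1‖ + ‖(a p).2‖ :=
  (norm_add_le _ _).trans_eq (by simp [norm_mul, -fourier_apply, norm_fourier_apply])

theorem measurable_lf (j n : ℕ) (a : Coef) : Measurable (lf j n a) := by
  have h : Measurable fun w : ℕ × UnitAddCircle => mfun j a w.1 w.2 :=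
    measurable_from_prod_countable_right fun p => (continuous_mfun j a p).measurable
  exact h.comp (measurable_crd n)

/-- a sup bound of a level function -/
def bnd (n : ℕ) (a : Coef) : ℝ := ∑ p ∈ Finset.range (hh n), (‖(a p).1‖ + ‖(a p).2‖)

theorem norm_lf_le (j n : ℕ) (a : Coef) (y : YY) : ‖lf j n a y‖ ≤ bnd n a :=
  (norm_mfun_le j a _ _).trans
    (Finset.single_le_sum (f := fun p => ‖(a p).1‖ + ‖(a p).2‖) (fun p _ => by positivity)
      (Finset.mem_range.2 (pos_lt n y.1)))

theorem memLp_lf (j n : ℕ) (a : Coef) : MemLp (lf j n a) 2 hY :=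
  MemLp.of_bound (measurable_lf j n a).aestronglyMeasurable (bnd n a)
    (Eventually.of_forall (norm_lf_le j n a))

/-- embedding of the level `n` into level `n + 1` -/
def emb (j n : ℕ) (a : Coef) : Coef := fun p' =>
  if (GG n (p' / hh n)).1 then
    ((a (p' % hh n)).2 * conj (fourier (j:ℤ) (GG n (p' / hh n)).2),
      (a (p' % hh n)).1 * fourier (j:ℤ) (GG n (p' / hh n)).2)
  else
    ((a (p' % hh n)).1 * fourier (j:ℤ) (GG n (p' / hh n)).2,
      (a (p' % hh n)).2 * conj (fourier (j:ℤ) (GG n (p' / hh n)).2))

theorem fourier_add_arg (n : ℤ) (x y : UnitAddCircle) :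
    fourier n (x + y) = fourier n x * fourier n y := by
  simp only [fourier_eq_ex, smul_add, ex_add]

theorem fourier_neg_arg (n : ℤ) (x : UnitAddCircle) : fourier n (-x) = fourier (-n) x := by
  simp only [fourier_eq_ex, smul_neg, neg_smul]

theorem act_def (g : Dih) (z : UnitAddCircle) : act g z = g.2 + (if g.1 then -z else z) := by
  unfold act; rfl

theorem mfun_act (j : ℕ) (a : Coef) (p : ℕ) (g : Dih) (w : UnitAddCircle) :
    mfun j a p (act g w) =
      (if g.1 then (a p).2 * conj (fourier (j:ℤ) g.2) else (a p).1 * fourier (j:ℤ) g.2)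
          * fourier (j:ℤ) w
      + (if g.1 then (a p).1 * fourier (j:ℤ) g.2 else (a p).2 * conj (fourier (j:ℤ) g.2))
          * fourier (-(j:ℤ)) w := by
  rcases g with ⟨⟨⟩ | ⟨⟩, b⟩
  · simp only [mfun, act_def, Bool.false_eq_true, if_false, fourier_add_arg, fourier_neg, map_mul]
    ring
  · simp only [mfun, act_def, if_true, fourier_add_arg, fourier_neg_arg, fourier_neg, map_mul,
      Complex.conj_conj]
    ring

theorem lf_emb (j n : ℕ) (a : Coef) : lf j (n + 1) (emb j n a) = lf j n a := by
  funext y
  simp only [lf]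
  rw [crd_eq_crd_succ n y, mfun_act]
  simp only [mfun, emb]
  split_ifs <;> rfl

/-- inner product in coordinates -/
def ip (n : ℕ) (a b : Coef) : ℂ :=
  (hh n : ℂ)⁻¹ * ∑ p ∈ Finset.range (hh n), (conj (a p).1 * (b p).1 + conj (a p).2 * (b p).2)

/-- squared norm in coordinates -/
def nrm2 (n : ℕ) (a : Coef) : ℝ :=
  (hh n : ℝ)⁻¹ * ∑ p ∈ Finset.range (hh n), (‖(a p).1‖ ^ 2 + ‖(a p).2‖ ^ 2)

theorem nrm2_nonneg (n : ℕ) (a : Coef) : 0 ≤ nrm2 n a := by unfold nrm2; positivity

theorem ip_self (n : ℕ) (a : Coef) : ip n a a = (nrm2 n a : ℂ) := by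
  simp only [ip, nrm2, Complex.conj_mul']
  push_cast; rfl

theorem integral_fourier_mul (j k : ℤ) :
    ∫ w, fourier j w * fourier k w ∂hm = if j + k = 0 then 1 else 0 := by
  simp only [← fourier_add, integral_fourier]

theorem integral_conj_mfun_mul (j j' : ℕ) (a b : Coef) (p : ℕ) :
    ∫ w, conj (mfun j a p w) * mfun j' b p w ∂hm =
      (conj (a p).1 * (b p).1) * (if -(j:ℤ) + j' = 0 then 1 else 0)
      + (conj (a p).1 * (b p).2) * (if -(j:ℤ) + -(j':ℤ) = 0 then 1 else 0)
      + (conj (a p).2 * (b p).1) * (if (j:ℤ) + j' = 0 then 1 else 0)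
      + (conj (a p).2 * (b p).2) * (if (j:ℤ) + -(j':ℤ) = 0 then 1 else 0) := by
  have hpt : ∀ w, conj (mfun j a p w) * mfun j' b p w =
      (conj (a p).1 * (b p).1) * (fourier (-(j:ℤ)) w * fourier (j':ℤ) w)
      + (conj (a p).1 * (b p).2) * (fourier (-(j:ℤ)) w * fourier (-(j':ℤ)) w)
      + (conj (a p).2 * (b p).1) * (fourier (j:ℤ) w * fourier (j':ℤ) w)
      + (conj (a p).2 * (b p).2) * (fourier (j:ℤ) w * fourier (-(j':ℤ)) w) := by
    intro w
    simp only [mfun, map_add, map_mul, ← fourier_neg, neg_neg]
    ring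
  have hi : ∀ (c : ℂ) (k l : ℤ), Integrable (fun w => c * (fourier k w * fourier l w)) hm :=
    fun c k l => ((integrable_mul_of_continuous (integrable_const (1:ℂ)) (fourier k * fourier l)).const_mul c).congr
      (Eventually.of_forall fun w => by simp [-fourier_apply])
  simp_rw [hpt]
  rw [integral_add (((hi _ _ _).fun_add (hi _ _ _)).fun_add (hi _ _ _)) (hi _ _ _),
    integral_add ((hi _ _ _).fun_add (hi _ _ _)) (hi _ _ _), integral_add (hi _ _ _) (hi _ _ _),
    integral_const_mul, integral_const_mul, integral_const_mul, integral_const_mul,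
    integral_fourier_mul, integral_fourier_mul, integral_fourier_mul, integral_fourier_mul]

theorem integral_conj_lf_mul (j j' n : ℕ) (a b : Coef) :
    ∫ y, conj (lf j n a y) * lf j' n b y ∂hY
      = (hh n : ℂ)⁻¹ * ∑ p ∈ Finset.range (hh n), ∫ w, conj (mfun j a p w) * mfun j' b p w ∂hm :=
  integral_crd n fun p =>
    (Complex.continuous_conj.comp (continuous_mfun j a p)).mul (continuous_mfun j' b p)

theorem integral_conj_lf_same (j n : ℕ) (hj : j ≠ 0) (a b : Coef) :
    ∫ y, conj (lf j n a y) * lf j n b y ∂hY = ip n a b := by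
  rw [integral_conj_lf_mul, ip]
  congr 1
  refine Finset.sum_congr rfl fun p _ => ?_
  rw [integral_conj_mfun_mul, if_pos (by ring), if_neg (by omega), if_neg (by omega), if_pos (by ring)]
  ring

theorem integral_conj_lf_ne (j j' n : ℕ) (hne : j ≠ j') (a b : Coef) :
    ∫ y, conj (lf j n a y) * lf j' n b y ∂hY = 0 := by
  rw [integral_conj_lf_mul, Finset.sum_eq_zero, mul_zero]
  intro p _
  rw [integral_conj_mfun_mul, if_neg (by omega), if_neg (by omega), if_neg (by omega), if_neg (by omega)]
  ring

/-- the Hilbert space -/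
abbrev HH : Type := Lp ℂ 2 hY

/-- level functions as elements of `L²` -/
def iota (j n : ℕ) : Coef →ₗ[ℂ] HH where
  toFun a := (memLp_lf j n a).toLp
  map_add' a b := by
    rw [← MemLp.toLp_add]
    refine MemLp.toLp_congr _ _ (Eventually.of_forall fun y => ?_)
    simp only [lf, mfun, Pi.add_apply, Prod.fst_add, Prod.snd_add]; ring
  map_smul' c a := by
    rw [RingHom.id_apply, ← MemLp.toLp_const_smul]
    refine MemLp.toLp_congr _ _ (Eventually.of_forall fun y => ?_)
    simp only [lf, mfun, Pi.smul_apply, Prod.smul_fst, Prod.smul_snd, smul_eq_mul]; ring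

theorem coeFn_iota (j n : ℕ) (a : Coef) : iota j n a =ᵐ[hY] lf j n a := (memLp_lf j n a).coeFn_toLp

theorem iota_emb (j n : ℕ) (a : Coef) : iota j (n + 1) (emb j n a) = iota j n a :=
  MemLp.toLp_congr (memLp_lf j (n + 1) (emb j n a)) (memLp_lf j n a)
    (Eventually.of_forall fun y => congrFun (lf_emb j n a) y)

/-- lift by `k` levels -/
def liftc (j n : ℕ) (a : Coef) : ℕ → Coef
  | 0 => a
  | k + 1 => emb j (n + k) (liftc j n a k)

theorem iota_liftc (j n : ℕ) (a : Coef) (k : ℕ) : iota j (n + k) (liftc j n a k) = iota j n a := by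
  induction k with
  | zero => rfl
  | succ k ih => exact (iota_emb j (n + k) (liftc j n a k)).trans ih

theorem exists_level_coef (j n m : ℕ) (hnm : n ≤ m) (a : Coef) :
    ∃ b, iota j m b = iota j n a := by
  obtain ⟨k, rfl⟩ := Nat.exists_eq_add_of_le hnm
  exact ⟨_, iota_liftc j n a k⟩

theorem inner_iota_eq (j j' n : ℕ) (a b : Coef) :
    ⟪iota j n a, iota j' n b⟫_ℂ = ∫ y, conj (lf j n a y) * lf j' n b y ∂hY := by
  rw [L2.inner_def]
  refine integral_congr_ae ?_
  filter_upwards [coeFn_iota j n a, coeFn_iota j' n b] with y h1 h2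
  rw [h1, h2, RCLike.inner_apply']

theorem inner_iota_same (j n : ℕ) (hj : j ≠ 0) (a b : Coef) :
    ⟪iota j n a, iota j n b⟫_ℂ = ip n a b := by
  rw [inner_iota_eq, integral_conj_lf_same j n hj]

theorem norm_iota_sq (j n : ℕ) (hj : j ≠ 0) (a : Coef) : ‖iota j n a‖ ^ 2 = nrm2 n a := by
  have h := inner_iota_same j n hj a a
  rw [inner_self_eq_norm_sq_to_K, ip_self] at h
  exact Complex.ofReal_injective (by simpa using h)

theorem inner_iota_ne (j j' n n' : ℕ) (hne : j ≠ j') (a b : Coef) :
    ⟪iota j n a, iota j' n' b⟫_ℂ = 0 := by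
  obtain ⟨a', ha'⟩ := exists_level_coef j n (max n n') (le_max_left _ _) a
  obtain ⟨b', hb'⟩ := exists_level_coef j' n' (max n n') (le_max_right _ _) b
  rw [← ha', ← hb', inner_iota_eq, integral_conj_lf_ne j j' _ hne]

theorem norm_emb_nrm2 (j n : ℕ) (hj : j ≠ 0) (a : Coef) : nrm2 (n + 1) (emb j n a) = nrm2 n a := by
  rw [← norm_iota_sq j (n + 1) hj, iota_emb, norm_iota_sq j n hj]

/-- Koopman operator -/
def UU : HH ≃ₗᵢ[ℂ] HH where
  toFun := Lp.compMeasurePreserving TT measurePreserving_TT
  invFun := Lp.compMeasurePreserving TT.symm (measurePreserving_TT.symm TT)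
  map_add' := map_add _
  map_smul' c g := by
    exact (Lp.compMeasurePreservingₗ ℂ TT measurePreserving_TT).map_smul c g
  left_inv g := by
    rw [← Lp.compMeasurePreserving_comp_apply]
    refine Lp.ext ?_
    refine (Lp.coeFn_compMeasurePreserving _ _).trans (Eventually.of_forall fun y => ?_)
    simp
  right_inv g := by
    rw [← Lp.compMeasurePreserving_comp_apply]
    refine Lp.ext ?_
    refine (Lp.coeFn_compMeasurePreserving _ _).trans (Eventually.of_forall fun y => ?_)
    simp
  norm_map' g := Lp.norm_compMeasurePreserving g _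

theorem coeFn_UU (g : HH) : UU g =ᵐ[hY] g ∘ TT :=
  Lp.coeFn_compMeasurePreserving g measurePreserving_TT

theorem coeFn_UU_symm (g : HH) : UU.symm g =ᵐ[hY] g ∘ TT.symm :=
  Lp.coeFn_compMeasurePreserving g (measurePreserving_TT.symm TT)

theorem UU_iota_shift (j n : ℕ) (a b : Coef) (hab : ∀ p, p + 1 < hh n → a p = b (p + 1))
    (htop : a (hh n - 1) = 0) (hbot : b 0 = 0) : UU (iota j n b) = iota j n a := by
  refine Lp.ext ((coeFn_UU _).trans ?_)
  refine ((measurePreserving_TT.quasiMeasurePreserving).ae_eq_comp (coeFn_iota j n b)).trans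
    (EventuallyEq.trans (Eventually.of_forall fun y => ?_) (coeFn_iota j n a).symm)
  simp only [Function.comp_apply, lf]
  have hlt := pos_lt n y.1
  by_cases h : pos n y.1 + 1 < hh n
  · rw [crd_TT n y h]
    simp only [mfun, crd, hab _ h]
  · have hp : pos n y.1 = hh n - 1 := by omega
    have h2 : (crd n (TT y)).1 = 0 := by
      simp only [crd, TT_apply, pos_natO_add]
      rw [hp, Nat.sub_add_cancel (hh_pos n), Nat.mod_self]
    have h3 : (crd n y).1 = hh n - 1 := hp
    simp only [mfun, h2, h3, htop, hbot]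
    simp

theorem coeFn_UU_pow (t : ℕ) (g : HH) : (UU ^ t) g =ᵐ[hY] g ∘ TT^[t] := by
  induction t generalizing g with
  | zero => exact EventuallyEq.rfl
  | succ t ih =>
    rw [pow_succ, LinearIsometryEquiv.mul_def, LinearIsometryEquiv.trans_apply]
    refine (ih (UU g)).trans ?_
    refine ((measurePreserving_TT.iterate t).quasiMeasurePreserving.ae_eq_comp (coeFn_UU g)).trans ?_
    refine Eventually.of_forall fun y => ?_
    simp only [Function.comp_apply]
    rw [Function.iterate_succ_apply']

theorem coeFn_UU_zpow (k : ℤ) (g : HH) :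
    (UU ^ k) g =ᵐ[hY] g ∘ ⇑((TT.toEquiv : Equiv.Perm YY) ^ k) := by
  have hmp : ∀ k : ℤ, MeasurePreserving (⇑((TT.toEquiv : Equiv.Perm YY) ^ k)) hY hY := by
    intro k
    induction k with
    | zero => exact MeasurePreserving.id hY
    | succ k ih =>
      rw [zpow_add, zpow_one]
      exact ih.comp measurePreserving_TT
    | pred k ih =>
      rw [zpow_sub, zpow_one]
      exact ih.comp (measurePreserving_TT.symm TT)
  induction k generalizing g with
  | zero => exact EventuallyEq.rfl
  | succ k ih =>
    rw [add_comm, zpow_add, zpow_one, add_comm, zpow_add, zpow_one]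
    refine (coeFn_UU _).trans ?_
    refine (measurePreserving_TT.quasiMeasurePreserving.ae_eq_comp (ih g)).trans ?_
    exact Eventually.of_forall fun y => rfl
  | pred k ih =>
    rw [sub_eq_neg_add, zpow_add, zpow_neg_one, neg_add_eq_sub, zpow_sub, zpow_one]
    refine (coeFn_UU_symm _).trans ?_
    refine ((measurePreserving_TT.symm TT).quasiMeasurePreserving.ae_eq_comp (ih g)).trans ?_
    exact Eventually.of_forall fun y => rfl

/-- Level functions of all modes are total. -/
theorem eq_zero_of_forall_inner_iota (g : HH) (h : ∀ j n a, ⟪iota j n a, g⟫_ℂ = 0) : g = 0 := by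
  have hgint : Integrable g hY := (Lp.memLp g).integrable one_le_two
  have hint : ∀ l : ℤ, Integrable (fun y : YY => fourier l y.2 * g y) hY := fun l =>
    hgint.bdd_mul ((fourier l).continuous.measurable.comp measurable_snd).aestronglyMeasurable
      (Eventually.of_forall fun y => (fourier l).norm_coe_le_norm _)
  have hcyl : ∀ (l : ℤ) (n p : ℕ), ∫ y in {y : YY | pos n y.1 = p}, fourier l y.2 * g y ∂hY = 0 := by
    intro l n p
    have hS : MeasurableSet {y : YY | pos n y.1 = p} :=
      (measurable_pos n).comp measurable_fst (measurableSet_singleton p)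
    rw [← integral_indicator hS]
    set g0 : Dih := gg n p
    set c : ℂ := fourier (-l) g0.2
    set k : ℤ := if g0.1 then l else -l with hk
    set a : Coef := fun q => if q = p then (if 0 ≤ k then (c, 0) else (0, c)) else 0 with ha
    have key : ∀ y, lf l.natAbs n a y = {y : YY | pos n y.1 = p}.indicator (fun y => fourier (-l) y.2) y := by
      intro y
      by_cases hy : pos n y.1 = p
      · rw [Set.indicator_of_mem (show y ∈ {y : YY | pos n y.1 = p} from hy)]
        simp only [lf, crd, hy, mfun, ha, if_true]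
        have hw : fourier (-l) y.2 = c * fourier k (act (dinv g0) y.2) := by
          conv_lhs => rw [← act_act_dinv g0 y.2, act_def, fourier_add_arg]
          cases hb : g0.1
          · simp only [hk, hb, Bool.false_eq_true, if_false, c]
          · simp only [hk, hb, if_true, fourier_neg_arg, neg_neg, c]
        rw [hw]
        have habs : k.natAbs = l.natAbs := by
          simp only [hk]; split_ifs <;> simp
        by_cases h0 : 0 ≤ k
        · rw [if_pos h0, show ((l.natAbs : ℕ) : ℤ) = k by omega]
          simp [g0]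
        · rw [if_neg h0, show -((l.natAbs : ℕ) : ℤ) = k by omega]
          simp [g0]
      · rw [Set.indicator_of_notMem (by simpa using hy)]
        simp [lf, crd, mfun, ha, hy]
    have := h l.natAbs n a
    rw [L2.inner_def] at this
    rw [← this]
    refine integral_congr_ae ?_
    filter_upwards [coeFn_iota l.natAbs n a] with y hy
    rw [hy, key, RCLike.inner_apply']
    by_cases hyp : y ∈ {y : YY | pos n y.1 = p}
    · simp only [Set.indicator_of_mem hyp, ← fourier_neg, neg_neg]
    · simp only [Set.indicator_of_notMem hyp, map_zero, zero_mul]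
  have hG : ∀ l : ℤ, (fun x => ∫ z, fourier l z * g (x, z) ∂hm) =ᵐ[hX] 0 := by
    intro l
    have hGi : Integrable (fun x => ∫ z, fourier l z * g (x, z) ∂hm) hX := (hint l).integral_prod_left
    refine hGi.ae_eq_zero_of_forall_setIntegral_eq_zero fun s hs hfin => ?_
    clear hfin
    have hprod : ∀ s : Set Odo, MeasurableSet s →
        ∫ x in s, ∫ z, fourier l z * g (x, z) ∂hm ∂hX = ∫ y in s ×ˢ univ, fourier l y.2 * g y ∂hY := by
      intro s hs
      have := setIntegral_prod (μ := hX) (ν := hm) (fun y : YY => fourier l y.2 * g y)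
        (s := s) (t := univ) (hint l).integrableOn
      refine Eq.trans ?_ this.symm
      simp
    set C : Set (Set Odo) := {s | ∃ n p, s = {x | pos n x = p}} ∪ {∅}
    have hgen : (inferInstance : MeasurableSpace Odo) = MeasurableSpace.generateFrom C := by
      refine le_antisymm ?_ (MeasurableSpace.generateFrom_le ?_)
      · show MeasurableSpace.comap _ (⨆ n, MeasurableSpace.comap _ _) ≤ _
        rw [MeasurableSpace.comap_iSup]
        refine iSup_le fun n => ?_
        rw [MeasurableSpace.comap_comp]
        rintro _ ⟨t, -, rfl⟩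
        have : ((fun f : ∀ n, ZMod (hh n) => f n) ∘ Subtype.val) ⁻¹' t
            = ⋃ p ∈ (ZMod.val '' t), {x : Odo | pos n x = p} := by
          ext x
          simp only [mem_preimage, Function.comp_apply, mem_image, mem_iUnion, mem_ofPred_eq, exists_prop]
          constructor
          · intro hx; exact ⟨_, ⟨_, hx, rfl⟩, by unfold pos; rfl⟩
          · rintro ⟨_, ⟨q, hq, rfl⟩, hpq⟩
            have : x.1 n = q := ZMod.val_injective _ (by unfold pos at hpq; exact hpq)
            exact this ▸ hq
        rw [this]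
        exact MeasurableSet.biUnion (Set.to_countable _) fun p _ =>
          MeasurableSpace.measurableSet_generateFrom (Or.inl ⟨n, p, rfl⟩)
      · rintro s (⟨n, p, rfl⟩ | rfl)
        · exact measurable_pos n (measurableSet_singleton p)
        · exact MeasurableSet.empty
    have hpi : IsPiSystem C := by
      rintro s (⟨n, p, rfl⟩ | rfl) t (⟨m, q, rfl⟩ | rfl) hne <;>
        try (simp at hne; done)
      obtain ⟨x, hx1, hx2⟩ := hne
      wlog hnm : n ≤ m generalizing n m p q
      · rw [Set.inter_comm]; exact this (n := m) (p := q) (m := n) (q := p) hx2 hx1 (Nat.le_of_not_le hnm)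
      refine Or.inl ⟨m, q, ?_⟩
      have hdet : ∀ k (u v : Odo), pos (n + k) u = pos (n + k) v → pos n u = pos n v := by
        intro k
        induction k with
        | zero => intro u v h; exact h
        | succ k ih =>
          intro u v h
          refine ih u v ?_
          rw [← pos_succ_mod (n + k) u, ← pos_succ_mod (n + k) v]
          exact congrArg (· % hh (n + k)) h
      obtain ⟨k, rfl⟩ := Nat.exists_eq_add_of_le hnm
      ext y
      simp only [mem_inter_iff, mem_ofPred_eq] at hx1 hx2 ⊢
      exact ⟨fun hy => hy.2, fun hy => ⟨(hdet k y x (hy.trans hx2.symm)).trans hx1, hy⟩⟩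
    induction s, hs using MeasurableSpace.induction_on_inter hgen hpi with
    | empty => simp
    | basic t ht =>
      rcases ht with ⟨n, p, rfl⟩ | rfl
      · have hms : MeasurableSet {x : Odo | pos n x = p} := measurable_pos n (measurableSet_singleton p)
        rw [hprod _ hms]
        convert hcyl l n p using 3
        ext y; simp
      · simp
    | compl t htm ih =>
      have htot : ∫ x, ∫ z, fourier l z * g (x, z) ∂hm ∂hX = 0 := by
        rw [← setIntegral_univ, hprod _ MeasurableSet.univ]
        convert hcyl l 0 0 using 3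
        ext y; simp [pos_zero]
      rw [setIntegral_compl htm hGi, htot, ih, sub_zero]
    | iUnion f hd hfm ih =>
      rw [integral_iUnion hfm hd hGi.integrableOn]; simp_rw [ih]; exact tsum_zero
  have hslice : ∀ᵐ x ∂hX, (fun z => g (x, z)) =ᵐ[hm] 0 := by
    filter_upwards [hgint.prod_right_ae, ae_all_iff.2 hG] with x hx hxl
    exact ae_zero_of_integral_fourier_mul hx hxl
  refine Lp.ext (EventuallyEq.trans ?_ (Lp.coeFn_zero ℂ 2 hY).symm)
  have hmeas : MeasurableSet {y : YY | g y = 0} :=
    (Lp.stronglyMeasurable g).measurable (measurableSet_singleton 0)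
  show ∀ᵐ y ∂(hX.prod hm), g y = 0
  exact (Measure.ae_prod_iff_ae_ae hmeas).2 hslice

end

end Vale.Agent.P130
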