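import Vale.Agent.P130.Poly
import Vale.Agent.P130.Dihedral

/-! Parameters of the construction. -/

namespace Vale.Agent.P130

open MeasureTheory Filter Topology

noncomputable section

/-- the mode which is killed at stage `n` -/
def jj (n : ℕ) : ℕ := n.unpair.1 + 2

/-- number of classes at stage `n` -/
def RR (n : ℕ) : ℕ := n + 2

/-- number of pieces of each of the two halves -/
def MM (n : ℕ) : ℕ := jj n * RR n

/-- band carried by the piece `s` -/
def band (n s : ℕ) : ℕ := s / jj n + RR n * (s % jj n)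

theorem one_le_MM (n : ℕ) : 1 ≤ MM n := Nat.mul_pos (by simp [jj]) (by simp [RR])

theorem band_bijOn (n : ℕ) : Set.BijOn (band n) (Set.Iio (MM n)) (Set.Iio (MM n)) := by
  have hj : 0 < jj n := by simp [jj]
  have hR : 0 < RR n := by simp [RR]
  have hmaps : ∀ s < MM n, band n s < MM n := by
    intro s hs
    have h1 : s / jj n < RR n := Nat.div_lt_of_lt_mul hs
    have h2 : RR n * (s % jj n + 1) ≤ RR n * jj n := Nat.mul_le_mul_left _ (Nat.mod_lt _ hj)
    rw [Nat.mul_add, Nat.mul_one] at h2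
    simp only [band, MM, Nat.mul_comm (jj n)]
    omega
  refine ⟨fun s hs => hmaps s hs, ?_, ?_⟩
  · intro s hs t ht h
    simp only [band] at h
    have h1 : s / jj n < RR n := Nat.div_lt_of_lt_mul hs
    have h2 : t / jj n < RR n := Nat.div_lt_of_lt_mul ht
    have e1 := congrArg (fun x => x % RR n) h
    simp only [Nat.add_mul_mod_self_left, Nat.mod_eq_of_lt h1, Nat.mod_eq_of_lt h2] at e1
    rw [e1] at h
    have e2 : s % jj n = t % jj n := Nat.eq_of_mul_eq_mul_left hR (Nat.add_left_cancel h)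
    rw [← Nat.div_add_mod s (jj n), ← Nat.div_add_mod t (jj n), e1, e2]
  · intro τ hτ
    refine ⟨τ % RR n * jj n + τ / RR n, ?_, ?_⟩
    · have h1 : τ / RR n < jj n := Nat.div_lt_of_lt_mul (by simpa [MM, Nat.mul_comm] using hτ)
      have h2 : (τ % RR n + 1) * jj n ≤ RR n * jj n := Nat.mul_le_mul_right _ (Nat.mod_lt _ hR)
      rw [Nat.add_mul, Nat.one_mul] at h2
      simp only [Set.mem_Iio, MM, Nat.mul_comm (jj n) (RR n)]
      omega
    · have h1 : τ / RR n < jj n := Nat.div_lt_of_lt_mul (by simpa [MM, Nat.mul_comm] using hτ)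
      simp only [band]
      rw [Nat.add_comm (τ % RR n * jj n), Nat.add_mul_div_right _ _ hj, Nat.add_mul_mod_self_right,
        Nat.mod_eq_of_lt h1, Nat.div_eq_of_lt h1, Nat.zero_add, Nat.mod_add_div]

theorem exists_qq (n : ℕ) : ∃ p : ℕ × (ℤ → ℂ),
    ∫ x, ‖qpoly p.1 p.2 x - (chi (RR n) x : ℂ)‖ ^ 2 ∂hm ≤ 1 / ((n + 1) * MM n) :=
  exists_qpoly _ _ (by have : (0:ℝ) < MM n := by exact_mod_cast one_le_MM n
                       positivity)

/-- degree of the filter of stage `n` -/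
def KK (n : ℕ) : ℕ := (exists_qq n).choose.1

/-- coefficients of the filter of stage `n` -/
def qc (n : ℕ) : ℤ → ℂ := (exists_qq n).choose.2

/-- the filter of stage `n` -/
def qq (n : ℕ) (x : UnitAddCircle) : ℂ := qpoly (KK n) (qc n) x

/-- `ℓ¹` bound of the filter of stage `n`, plus one -/
def CQ (n : ℕ) : ℝ := ∑ l ∈ Finset.Icc (-(KK n : ℤ)) (KK n), ‖qc n l‖ + 1

theorem one_le_CQ (n : ℕ) : 1 ≤ CQ n :=
  le_add_of_nonneg_left (Finset.sum_nonneg fun _ _ => norm_nonneg _)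

theorem integral_qq_sub_le (n : ℕ) :
    ∫ x, ‖qq n x - (chi (RR n) x : ℂ)‖ ^ 2 ∂hm ≤ 1 / ((n + 1) * MM n) :=
  (exists_qq n).choose_spec

theorem exists_LL (n : ℕ) : ∃ l : ℕ, 1 ≤ l ∧
    ∫ x, pdev (MM n) (MM n * l) (band n) x ^ 2 ∂hm ≤ (1 / 4 : ℝ) ^ n ∧
    CQ n ^ 2 * MM n * Real.sqrt (∫ x, dev (RR n) (MM n * l) x ^ 2 ∂hm) ≤ 1 / (n + 1) ∧
    CQ n ^ 2 * (KK n + 1) / ((MM n * l : ℕ) : ℝ) ≤ 1 / (n + 1) := by
  have h := tendsto_integral_pdev_sq (MM n) (one_le_MM n) (band n) (band_bijOn n)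
  have h2 : Tendsto (fun l : ℕ => MM n * l) atTop atTop :=
    tendsto_atTop_mono (fun l => Nat.le_mul_of_pos_left l (one_le_MM n)) tendsto_id
  have h3 := (h.comp h2).eventually (eventually_le_nhds (show (0:ℝ) < (1/4:ℝ) ^ n by positivity))
  have hd : Tendsto (fun L : ℕ => CQ n ^ 2 * MM n * Real.sqrt (∫ x, dev (RR n) L x ^ 2 ∂hm)) atTop (𝓝 0) := by
    simpa using ((tendsto_integral_dev_sq (RR n) (by simp [RR])).sqrt).const_mul (CQ n ^ 2 * MM n)
  have h4 := (hd.comp h2).eventually (eventually_le_nhds (show (0:ℝ) < 1 / (n + 1) by positivity))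
  have hk : Tendsto (fun L : ℕ => CQ n ^ 2 * (KK n + 1) / (L : ℝ)) atTop (𝓝 0) :=
    tendsto_const_nhds.div_atTop tendsto_natCast_atTop_atTop
  have h5 := (hk.comp h2).eventually (eventually_le_nhds (show (0:ℝ) < 1 / (n + 1) by positivity))
  obtain ⟨l, hl, hA, hB, hC⟩ := ((eventually_ge_atTop 1).and (h3.and (h4.and h5))).exists
  exact ⟨l, hl, hA, hB, hC⟩

/-- length of a piece -/
def LL (n : ℕ) : ℕ := MM n * (exists_LL n).choose

theorem one_le_LL (n : ℕ) : 1 ≤ LL n := Nat.mul_pos (one_le_MM n) (exists_LL n).choose_spec.1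

theorem MM_dvd_LL (n : ℕ) : MM n ∣ LL n := dvd_mul_right _ _

theorem integral_pdev_sq_le (n : ℕ) :
    ∫ x, pdev (MM n) (LL n) (band n) x ^ 2 ∂hm ≤ (1 / 4 : ℝ) ^ n :=
  (exists_LL n).choose_spec.2.1

theorem dev_RR_le (n : ℕ) :
    CQ n ^ 2 * MM n * Real.sqrt (∫ x, dev (RR n) (LL n) x ^ 2 ∂hm) ≤ 1 / (n + 1) :=
  (exists_LL n).choose_spec.2.2.1

theorem KK_LL_le (n : ℕ) : CQ n ^ 2 * (KK n + 1) / (LL n : ℝ) ≤ 1 / (n + 1) :=
  (exists_LL n).choose_spec.2.2.2

/-- number of slots at stage `n` -/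
def QQ (n : ℕ) : ℕ := 2 * (MM n * LL n)

/-- tower heights -/
def hh : ℕ → ℕ
  | 0 => 1
  | n + 1 => QQ n * hh n

@[simp] theorem hh_zero : hh 0 = 1 := rfl

theorem hh_succ (n : ℕ) : hh (n + 1) = QQ n * hh n := rfl

theorem QQ_pos (n : ℕ) : 0 < QQ n :=
  Nat.mul_pos (by norm_num) (Nat.mul_pos (one_le_MM n) (one_le_LL n))

theorem two_le_QQ (n : ℕ) : 2 ≤ QQ n :=
  Nat.le_mul_of_pos_right 2 (Nat.mul_pos (one_le_MM n) (one_le_LL n))

theorem hh_pos : ∀ n, 0 < hh n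
  | 0 => Nat.one_pos
  | n + 1 => Nat.mul_pos (QQ_pos n) (hh_pos n)

instance (n : ℕ) : NeZero (hh n) := ⟨(hh_pos n).ne'⟩

theorem hh_dvd_succ (n : ℕ) : hh n ∣ hh (n + 1) := dvd_mul_left _ _

theorem hh_le_succ (n : ℕ) : hh n ≤ hh (n + 1) := Nat.le_mul_of_pos_left _ (QQ_pos n)

theorem two_pow_le_hh : ∀ n, 2 ^ n ≤ hh n
  | 0 => le_rfl
  | n + 1 => by
      rw [pow_succ', hh_succ]; exact Nat.mul_le_mul (two_le_QQ n) (two_pow_le_hh n)

theorem tendsto_hh : Tendsto hh atTop atTop :=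
  tendsto_atTop_mono two_pow_le_hh (tendsto_pow_atTop_atTop_of_one_lt one_lt_two)

/-- chirp phase of slot `k` of stage `n` -/
def alpha (n k : ℕ) : UnitAddCircle :=
  -((((k % (MM n * LL n)) % LL n : ℕ) : ℤ) • ctr (MM n) (band n ((k % (MM n * LL n)) / LL n)))
    + ((-((((k % (MM n * LL n)) % LL n : ℕ) : ℝ) ^ 2) / (4 * MM n * LL n) : ℝ) : UnitAddCircle)

/-- the isometry of slot `k` of stage `n` -/
def GG (n k : ℕ) : Dih := (decide (MM n * LL n ≤ k), alpha n k)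

/-- the isometry of position `p` in the tower of level `n` -/
def gg : ℕ → ℕ → Dih
  | 0, _ => done
  | n + 1, p => dcomp (gg n (p % hh n)) (GG n (p / hh n))

theorem gg_succ (n p : ℕ) : gg (n + 1) p = dcomp (gg n (p % hh n)) (GG n (p / hh n)) := rfl

end

end Vale.Agent.P130
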