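import Vale.Agent.P130.Chirp

/-! Assembling shifted chirps into a pattern which is flat on a comb of bands. -/

namespace Vale.Agent.P130

open MeasureTheory Complex Real Filter Topology
open scoped ComplexConjugate ENNReal

noncomputable section

/-- the point `σ/M` of the circle -/
def ctr (M σ : ℕ) : UnitAddCircle := (((σ:ℝ) / M : ℝ) : UnitAddCircle)

/-- the pattern: piece `s` carries a chirp centred in the `σ s`-th band -/
def pat (M L : ℕ) (σ : ℕ → ℕ) (x : UnitAddCircle) : ℂ :=
  ∑ s ∈ Finset.range M, fourier ((s * L : ℕ) : ℤ) x * chirpSum M L (x - ctr M (σ s))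

theorem continuous_pat (M L : ℕ) (σ : ℕ → ℕ) : Continuous (pat M L σ) := by
  unfold pat; fun_prop

theorem sum_bandI_eq_chi (M : ℕ) (hM : 1 ≤ M) (x : UnitAddCircle) :
    ∑ τ ∈ Finset.range M, bandI M (x - ctr M τ) = chi M x := by
  set t := rep x with ht
  have ht0 := rep_nonneg x
  have ht1 := rep_lt_one x
  have hM' : (0:ℝ) < M := by exact_mod_cast hM
  have hrep : ∀ τ, rep (x - ctr M τ) = Int.fract (t - (τ:ℝ) / M) := by
    intro τ
    rw [← rep_coe, AddCircle.coe_sub, ctr, ht, coe_rep]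
  set u : ℕ := ⌊(M:ℝ) * t⌋₊ with hu
  have hu1 : (u:ℝ) ≤ M * t := Nat.floor_le (by positivity)
  have hu2 : (M:ℝ) * t < u + 1 := Nat.lt_floor_add_one _
  have huM : u < M := by
    have : (M:ℝ) * t < M := mul_lt_of_lt_one_right hM' ht1
    exact_mod_cast (hu1.trans_lt this)
  have hfr : Int.fract ((M:ℝ) * t) = M * t - u := by
    rw [Int.fract_eq_iff]
    exact ⟨by linarith, by linarith, ⟨u, by push_cast; ring⟩⟩
  rw [Finset.sum_eq_single u]
  · rw [bandI, chi, hrep, ← ht, hfr]
    have : Int.fract (t - (u:ℝ) / M) = t - u / M := by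
      rw [Int.fract_eq_self]
      constructor
      · rw [sub_nonneg, div_le_iff₀ hM']; linarith
      · have : (0:ℝ) ≤ u / M := by positivity
        linarith
    rw [this]
    congr 1
    rw [eq_iff_iff, lt_div_iff₀ (by positivity), lt_div_iff₀ (by norm_num : (0:ℝ) < 2)]
    constructor <;> intro h <;> (field_simp at h ⊢; linarith)
  · intro τ hτ hne
    rw [bandI, if_neg]
    rw [hrep, not_lt]
    have hτM : (τ:ℝ) + 1 ≤ M := by exact_mod_cast Finset.mem_range.1 hτ
    rcases lt_or_gt_of_ne hne with h | h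
    · have hh : (τ:ℝ) + 1 ≤ u := by exact_mod_cast h
      have h0 : 0 ≤ t - (τ:ℝ) / M := by rw [sub_nonneg, div_le_iff₀ hM']; linarith
      have h1 : t - (τ:ℝ) / M < 1 := by
        have : (0:ℝ) ≤ τ / M := by positivity
        linarith
      rw [Int.fract_eq_self.2 ⟨h0, h1⟩, div_le_iff₀ (by positivity)]
      field_simp
      nlinarith
    · have hh : (u:ℝ) + 1 ≤ τ := by exact_mod_cast h
      have h0 : 0 ≤ t - (τ:ℝ) / M + 1 := by
        have : (τ:ℝ) / M ≤ 1 := by rw [div_le_one hM']; linarith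
        linarith
      have h1 : t - (τ:ℝ) / M + 1 < 1 := by
        have : t < (τ:ℝ) / M := by rw [lt_div_iff₀ hM']; linarith
        linarith
      rw [show Int.fract (t - (τ:ℝ) / M) = t - τ / M + 1 by
        rw [← Int.fract_add_one, Int.fract_eq_self.2 ⟨h0, h1⟩], div_le_iff₀ (by positivity)]
      field_simp
      nlinarith
  · intro h; exact absurd (Finset.mem_range.2 huM) h

theorem bandI_eq_zero_or_one (M : ℕ) (x : UnitAddCircle) : bandI M x = 0 ∨ bandI M x = 1 := by
  unfold bandI; split_ifs <;> simp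

/-- deviation of the modulus of the pattern from the comb indicator -/
def pdev (M L : ℕ) (σ : ℕ → ℕ) (x : UnitAddCircle) : ℝ :=
  ‖pat M L σ x‖ / Real.sqrt (2 * M * L) - chi M x

theorem measurable_pdev (M L : ℕ) (σ : ℕ → ℕ) : Measurable (pdev M L σ) :=
  (((continuous_pat M L σ).norm).measurable.div_const _).sub (measurable_chi M)

theorem pdev_sq_le (M L : ℕ) (hM : 1 ≤ M) (hL : 1 ≤ L) (σ : ℕ → ℕ)
    (hσ : Set.BijOn σ (Set.Iio M) (Set.Iio M)) (x : UnitAddCircle) :
    pdev M L σ x ^ 2 ≤ ∑ s ∈ Finset.range M, |dev M L (x - ctr M (σ s))| := by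
  have hM' : (0:ℝ) < M := by exact_mod_cast hM
  have hL' : (0:ℝ) < L := by exact_mod_cast hL
  set rt := Real.sqrt (2 * M * L) with hrt
  have hrt0 : 0 < rt := Real.sqrt_pos.2 (by positivity)
  set b : ℕ → ℝ := fun s => bandI M (x - ctr M (σ s)) with hb
  have hsum : ∑ s ∈ Finset.range M, b s = chi M x := by
    rw [← sum_bandI_eq_chi M hM x]
    refine Finset.sum_nbij σ (fun s hs => ?_) ?_ ?_ (fun _ _ => rfl)
    · exact Finset.mem_range.2 (hσ.mapsTo (Finset.mem_range.1 hs))
    · simpa using hσ.injOn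
    · simpa using hσ.surjOn
  set u : ℕ → ℂ := fun s => fourier ((s * L : ℕ) : ℤ) x * chirpSum M L (x - ctr M (σ s)) / (rt:ℂ) with hu
  set ph : ℕ → ℂ := fun s => if u s = 0 then 1 else u s / (‖u s‖ : ℂ) with hph
  have hphn : ∀ s, ‖ph s‖ = 1 := by
    intro s; simp only [hph]; split_ifs with h
    · simp
    · rw [norm_div, Complex.norm_real, norm_norm, div_self (norm_ne_zero_iff.2 h)]
  have hphu : ∀ s, (‖u s‖ : ℂ) * ph s = u s := by
    intro s; simp only [hph]; split_ifs with h
    · simp [h]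
    · rw [mul_div_cancel₀]; simp [h]
  have hvsum : ‖∑ s ∈ Finset.range M, (b s : ℂ) * ph s‖ = chi M x := by
    rw [← hsum]
    by_cases h : ∀ s ∈ Finset.range M, b s = 0
    · rw [Finset.sum_eq_zero fun s hs => by simp [h s hs], Finset.sum_eq_zero h, norm_zero]
    push Not at h
    obtain ⟨s₀, hs₀, hne⟩ := h
    have h1 : b s₀ = 1 := (bandI_eq_zero_or_one _ _).resolve_left hne
    have hz : ∀ s ∈ Finset.range M, s ≠ s₀ → b s = 0 := by
      intro s hs hss
      refine (bandI_eq_zero_or_one _ _).resolve_right fun h2 => ?_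
      have hle : b s + b s₀ ≤ ∑ r ∈ Finset.range M, b r := by
        rw [← Finset.sum_pair hss]
        refine Finset.sum_le_sum_of_subset_of_nonneg (by simp [Finset.insert_subset_iff, hs₀, Finset.mem_range.1 hs]) fun r _ _ => ?_
        rcases bandI_eq_zero_or_one M (x - ctr M (σ r)) with h3 | h3 <;> simp [hb, h3]
      rw [hsum] at hle
      have := le_of_abs_le (abs_chi_le M x)
      have h2' : b s = 1 := h2
      linarith
    rw [Finset.sum_eq_single_of_mem s₀ hs₀ fun s hs hss => by simp [hz s hs hss],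
      Finset.sum_eq_single_of_mem s₀ hs₀ hz, h1]
    simp [hphn]
  have hpat : ‖pat M L σ x‖ / rt = ‖∑ s ∈ Finset.range M, u s‖ := by
    simp only [hu, ← Finset.sum_div, norm_div, pat, Complex.norm_real, Real.norm_eq_abs, abs_of_pos hrt0]
  have h1 : |pdev M L σ x| ≤ ∑ s ∈ Finset.range M, |‖u s‖ - b s| := by
    rw [pdev, ← hrt, hpat, ← hvsum]
    refine (abs_norm_sub_norm_le _ _).trans ?_
    rw [← Finset.sum_sub_distrib]
    refine (norm_sum_le _ _).trans (Finset.sum_le_sum fun s _ => ?_)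
    conv_lhs => rw [← hphu s, ← sub_mul, norm_mul, hphn, mul_one, ← Complex.ofReal_sub, Complex.norm_real, Real.norm_eq_abs]
  calc pdev M L σ x ^ 2 = |pdev M L σ x| ^ 2 := (sq_abs _).symm
  _ ≤ (∑ s ∈ Finset.range M, |‖u s‖ - b s|) ^ 2 := by gcongr
  _ ≤ (M:ℝ) * ∑ s ∈ Finset.range M, |‖u s‖ - b s| ^ 2 := by
      simpa using sq_sum_le_card_mul_sum_sq (s := Finset.range M) (f := fun s => |‖u s‖ - b s|)
  _ ≤ (M:ℝ) * ∑ s ∈ Finset.range M, |dev M L (x - ctr M (σ s))| / (2 * M) := by
      gcongr with s _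
      have hn : ‖u s‖ ^ 2 = ‖chirpSum M L (x - ctr M (σ s))‖ ^ 2 / (2 * M * L) := by
        simp only [hu, norm_div, norm_mul, norm_fourier_apply, one_mul, Complex.norm_real, Real.norm_eq_abs,
          div_pow, sq_abs]
        rw [hrt, Real.sq_sqrt (by positivity)]
      have hb01 : b s ^ 2 = b s ∧ 0 ≤ b s := by
        rcases bandI_eq_zero_or_one M (x - ctr M (σ s)) with h3 | h3 <;> simp [hb, h3]
      have heq : |dev M L (x - ctr M (σ s))| / (2 * M) = |‖u s‖ ^ 2 - b s ^ 2| := by
        rw [hn, hb01.1, dev, ← abs_of_pos (show (0:ℝ) < 2 * M by positivity), ← abs_div,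
          abs_of_pos (show (0:ℝ) < 2 * M by positivity)]
        congr 1; simp only [hb]; field_simp
      rw [heq, sq_sub_sq, abs_mul, sq]
      have h4 : 0 ≤ ‖u s‖ + b s := add_nonneg (norm_nonneg _) hb01.2
      refine mul_le_mul_of_nonneg_right ?_ (abs_nonneg _)
      rw [abs_of_nonneg h4]
      exact (abs_sub _ _).trans_eq (by rw [abs_norm, abs_of_nonneg hb01.2])
  _ ≤ ∑ s ∈ Finset.range M, |dev M L (x - ctr M (σ s))| := by
      rw [Finset.mul_sum]
      refine Finset.sum_le_sum fun s _ => ?_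
      have := abs_nonneg (dev M L (x - ctr M (σ s)))
      field_simp
      nlinarith

theorem tendsto_integral_pdev_sq (M : ℕ) (hM : 1 ≤ M) (σ : ℕ → ℕ)
    (hσ : Set.BijOn σ (Set.Iio M) (Set.Iio M)) :
    Tendsto (fun L : ℕ => ∫ x, pdev M L σ x ^ 2 ∂hm) atTop (𝓝 0) := by
  have h0 : Tendsto (fun L : ℕ => (M:ℝ) * Real.sqrt (∫ x, dev M L x ^ 2 ∂hm)) atTop (𝓝 0) := by
    simpa using ((tendsto_integral_dev_sq M hM).sqrt).const_mul (M:ℝ)
  refine squeeze_zero' (Eventually.of_forall fun L => integral_nonneg fun x => sq_nonneg _) ?_ h0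
  filter_upwards [eventually_ge_atTop 1] with L hL
  have hd2 : MemLp (fun x => dev M L x) 2 hm := by
    simpa using (dev_memLp M L).re
  have hd : Integrable (fun x => |dev M L x|) hm := (hd2.integrable one_le_two).abs
  have hds : ∀ s, Integrable (fun x => |dev M L (x - ctr M (σ s))|) hm := fun s =>
    hd.comp_sub_right (ctr M (σ s))
  have hp : Integrable (fun x => pdev M L σ x ^ 2) hm := by
    refine Integrable.mono' (integrable_finsetSum (Finset.range M) fun s _ => hds s)
      ((measurable_pdev M L σ).pow_const 2).aestronglyMeasurable (Eventually.of_forall fun x => ?_)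
    rw [Real.norm_eq_abs, abs_of_nonneg (sq_nonneg _)]
    exact pdev_sq_le M L hM hL σ hσ x
  calc ∫ x, pdev M L σ x ^ 2 ∂hm ≤ ∫ x, ∑ s ∈ Finset.range M, |dev M L (x - ctr M (σ s))| ∂hm :=
        integral_mono hp (integrable_finsetSum _ fun s _ => hds s) (pdev_sq_le M L hM hL σ hσ)
  _ = (M:ℝ) * ∫ x, |dev M L x| ∂hm := by
        rw [integral_finsetSum _ fun s _ => hds s]
        simp [integral_sub_right_eq_self (μ := hm) (fun x => |dev M L x|)]
  _ ≤ (M:ℝ) * Real.sqrt (∫ x, dev M L x ^ 2 ∂hm) := by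
        gcongr
        refine Real.le_sqrt_of_sq_le ?_
        have habs : MemLp (fun x => |dev M L x|) 2 hm := hd2.abs
        have hvar := ProbabilityTheory.variance_nonneg (fun x => |dev M L x|) hm
        rw [ProbabilityTheory.variance_eq_sub habs] at hvar
        simp only [Pi.pow_apply, sq_abs] at hvar
        linarith

end

end Vale.Agent.P130
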