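import Vale.Agent.P130.Pattern

/-! Trigonometric polynomials approximating the comb indicators. -/

namespace Vale.Agent.P130

open MeasureTheory Filter Topology

noncomputable section

/-- trigonometric polynomial with coefficients `c` on `[-K, K]` -/
def qpoly (K : ℕ) (c : ℤ → ℂ) (x : UnitAddCircle) : ℂ :=
  ∑ l ∈ Finset.Icc (-(K:ℤ)) K, c l * fourier (-l) x

theorem continuous_qpoly (K : ℕ) (c : ℤ → ℂ) : Continuous (qpoly K c) := by unfold qpoly; fun_prop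

theorem norm_qpoly_le (K : ℕ) (c : ℤ → ℂ) (x : UnitAddCircle) :
    ‖qpoly K c x‖ ≤ ∑ l ∈ Finset.Icc (-(K:ℤ)) K, ‖c l‖ :=
  (norm_sum_le _ _).trans_eq (by simp [-fourier_apply, norm_fourier_apply])

theorem exists_qpoly (R : ℕ) (ε : ℝ) (hε : 0 < ε) : ∃ p : ℕ × (ℤ → ℂ),
    ∫ x, ‖qpoly p.1 p.2 x - (chi R x : ℂ)‖ ^ 2 ∂hm ≤ ε := by
  have hmem : MemLp (fun x => (chi R x : ℂ)) 2 hm :=
    MemLp.of_bound (Complex.continuous_ofReal.measurable.comp (measurable_chi R)).aestronglyMeasurable 1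
      (Eventually.of_forall fun x => by rw [Complex.norm_real, Real.norm_eq_abs]; exact abs_chi_le R x)
  set g : Lp ℂ 2 hm := hmem.toLp
  have h := Metric.tendsto_nhds.1 (hasSum_fourier_series_L2 g) (Real.sqrt ε) (Real.sqrt_pos.2 hε)
  obtain ⟨F, hF⟩ := eventually_atTop.1 h
  obtain ⟨K, hK⟩ : ∃ K : ℕ, ∀ l ∈ F, l ∈ Finset.Icc (-(K:ℤ)) K :=
    ⟨F.sup Int.natAbs, fun l hl => by
      have := Finset.le_sup (f := Int.natAbs) hl
      rw [Finset.mem_Icc]; omega⟩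
  refine ⟨(K, fun l => fourierCoeff g (-l)), ?_⟩
  have h2 := hF (Finset.Icc (-(K:ℤ)) K) hK
  set S : Lp ℂ 2 hm := ∑ i ∈ Finset.Icc (-(K:ℤ)) K, fourierCoeff g i • fourierLp 2 i
  rw [dist_eq_norm] at h2
  have h3 : ∫ x, ‖qpoly K (fun l => fourierCoeff g (-l)) x - (chi R x : ℂ)‖ ^ 2 ∂hm = ‖S - g‖ ^ 2 := by
    have e : ‖S - g‖ ^ 2 = ∫ x, ‖(S - g) x‖ ^ 2 ∂hm := by
      have h : ((‖S - g‖ ^ 2 : ℝ) : ℂ) = inner ℂ (S - g) (S - g) := by
        rw [inner_self_eq_norm_sq_to_K]; norm_num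
      rw [L2.inner_def] at h
      simp only [inner_self_eq_norm_sq_to_K] at h
      have h2 : ((‖S - g‖ ^ 2 : ℝ) : ℂ) = ((∫ x, ‖(S - g) x‖ ^ 2 ∂hm : ℝ) : ℂ) := by
        rw [h, ← integral_complex_ofReal]
        refine integral_congr_ae (Eventually.of_forall fun x => ?_)
        norm_num
      exact Complex.ofReal_injective h2
    rw [e]
    refine integral_congr_ae ?_
    have hterm : ∀ i ∈ Finset.Icc (-(K:ℤ)) K, ∀ᵐ x ∂hm,
        ((fourierCoeff g i • fourierLp (T := (1:ℝ)) 2 i : Lp ℂ 2 hm) : UnitAddCircle → ℂ) x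
          = fourierCoeff g i * fourier i x := by
      intro i _
      filter_upwards [Lp.coeFn_smul (fourierCoeff g i) (fourierLp (T := (1:ℝ)) 2 i),
        coeFn_fourierLp (T := (1:ℝ)) 2 i] with x h1 h2
      rw [h1, Pi.smul_apply, h2, smul_eq_mul]
    filter_upwards [Lp.coeFn_sub S g, Lp.coeFn_finsetSum (Finset.Icc (-(K:ℤ)) K)
        (fun i => fourierCoeff g i • fourierLp (T := (1:ℝ)) 2 i), hmem.coeFn_toLp,
      (eventually_all_finset _).2 hterm] with x h1 h2 h3 h4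
    rw [h1, Pi.sub_apply, h2, h3, Finset.sum_apply, Finset.sum_congr rfl h4, qpoly]
    congr 3
    refine Finset.sum_nbij' (fun l => -l) (fun l => -l) ?_ ?_ ?_ ?_ ?_ <;>
      simp [-fourier_apply] <;> omega
  rw [h3]
  calc ‖S - g‖ ^ 2 ≤ Real.sqrt ε ^ 2 := by gcongr
  _ = ε := Real.sq_sqrt hε.le

end

end Vale.Agent.P130
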