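import Vale.Agent.P130.Graph

/-! Partial rigidity of the modes `j ≥ 2`. -/

namespace Vale.Agent.P130

open MeasureTheory Filter Topology Set
open scoped ENNReal ComplexConjugate InnerProductSpace

noncomputable section

attribute [local irreducible] lev gg pos natO act dinv coc

theorem fibre_iterate (t : ℕ) (x : Odo) :
    ∃ (x' : Odo) (d : Dih), ∀ z, TT^[t] (x, z) = (x', act d z) := by
  induction t with
  | zero => exact ⟨x, done, fun z => by simp⟩
  | succ t ih =>
    obtain ⟨x', d, h⟩ := ih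
    exact ⟨x' + natO 1, dcomp (coc x') d, fun z => by
      rw [Function.iterate_succ_apply', h, TT_apply, act_dcomp]⟩

theorem mfun_act_exists (j : ℕ) (a : Coef) (p : ℕ) (g : Dih) :
    ∃ a' : Coef, ∀ w, mfun j a p (act g w) = mfun j a' 0 w :=
  ⟨fun _ => (if g.1 then (a p).2 * conj (fourier (j:ℤ) g.2) else (a p).1 * fourier (j:ℤ) g.2,
    if g.1 then (a p).1 * fourier (j:ℤ) g.2 else (a p).2 * conj (fourier (j:ℤ) g.2)),
    fun w => mfun_act j a p g w⟩

theorem inner_iota_UU_pow (j j' n n' t : ℕ) (a b : Coef) :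
    ⟪iota j' n' b, (UU ^ t) (iota j n a)⟫_ℂ
      = ∫ y, conj (lf j' n' b y) * lf j n a (TT^[t] y) ∂hY := by
  rw [L2.inner_def]
  refine integral_congr_ae ?_
  filter_upwards [coeFn_iota j' n' b, coeFn_UU_pow t (iota j n a),
    (measurePreserving_TT.iterate t).quasiMeasurePreserving.ae_eq_comp (coeFn_iota j n a)] with y h1 h2 h3
  rw [h1, h2, h3, RCLike.inner_apply']
  rfl

theorem measurable_lf_iterate (j n t : ℕ) (a : Coef) : Measurable fun y => lf j n a (TT^[t] y) :=
  (measurable_lf j n a).comp (measurePreserving_TT.iterate t).measurable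

theorem integrable_pair (j j' n n' t : ℕ) (a b : Coef) :
    Integrable (fun y => conj (lf j' n' b y) * lf j n a (TT^[t] y)) hY :=
  Integrable.of_bound ((Complex.continuous_conj.measurable.comp (measurable_lf j' n' b)).mul
      (measurable_lf_iterate j n t a)).aestronglyMeasurable (bnd n' b * bnd n a)
    (Eventually.of_forall fun y => by
      rw [norm_mul, Complex.norm_conj]
      exact mul_le_mul (norm_lf_le _ _ _ _) (norm_lf_le _ _ _ _) (norm_nonneg _)
        ((norm_nonneg _).trans (norm_lf_le j' n' b y)))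

theorem inner_iota_UU_pow_ne (j j' n n' t : ℕ) (hne : j' ≠ j) (a b : Coef) :
    ⟪iota j' n' b, (UU ^ t) (iota j n a)⟫_ℂ = 0 := by
  rw [inner_iota_UU_pow, hY, integral_prod _ (integrable_pair j j' n n' t a b)]
  refine (integral_congr_ae (Eventually.of_forall fun x => ?_)).trans (integral_zero Odo ℂ)
  obtain ⟨x', d, hd⟩ := fibre_iterate t x
  obtain ⟨a', ha'⟩ := mfun_act_exists j a (pos n x') (dcomp (dinv (gg n (pos n x'))) d)
  obtain ⟨b', hb'⟩ := mfun_act_exists j' b (pos n' x) (dinv (gg n' (pos n' x)))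
  have e1 : ∀ z, lf j' n' b (x, z) = mfun j' b' 0 z := fun z => by simp only [lf, crd]; exact hb' z
  have e2 : ∀ z, lf j n a (TT^[t] (x, z)) = mfun j a' 0 z := fun z => by
    rw [hd]; simp only [lf, crd, ← act_dcomp]; exact ha' z
  simp only [e1, e2]
  rw [integral_conj_mfun_mul, if_neg (by omega), if_neg (by omega), if_neg (by omega), if_neg (by omega)]
  ring

/-- the shift used at stage `n` -/
def tt (n : ℕ) : ℕ := LL n * hh n

theorem slot_bound_lift (j n : ℕ) (a : Coef) (k : ℕ) :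
    ∀ p < hh (n + k), ‖(liftc j n a k p).1‖ + ‖(liftc j n a k p).2‖ ≤ bnd n a := by
  induction k with
  | zero =>
    intro p hp
    exact Finset.single_le_sum (f := fun p => ‖(a p).1‖ + ‖(a p).2‖)
      (fun p _ => by positivity) (Finset.mem_range.2 hp)
  | succ k ih =>
    intro p _
    rw [show liftc j n a (k + 1) = emb j (n + k) (liftc j n a k) from rfl, slot_bound]
    exact ih _ (Nat.mod_lt _ (hh_pos _))

/-- contribution of slot `k` -/
def Sk (j n : ℕ) (a b : Coef) (k : ℕ) : ℂ :=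
  (hh n : ℂ)⁻¹ * ∑ p ∈ Finset.range (hh n),
    ∫ w, conj (mfun j b p (act (GG n k) w)) * mfun j a p (act (GG n (k + LL n)) w) ∂hm

theorem norm_Sk_le (j n : ℕ) (a b : Coef) (k : ℕ) (A B : ℝ)
    (hA : ∀ p < hh n, ‖(a p).1‖ + ‖(a p).2‖ ≤ A) (hB : ∀ p < hh n, ‖(b p).1‖ + ‖(b p).2‖ ≤ B) :
    ‖Sk j n a b k‖ ≤ A * B := by
  have h0 : (0:ℝ) < hh n := by exact_mod_cast hh_pos n
  rw [Sk, norm_mul, norm_inv, Complex.norm_natCast, inv_mul_le_iff₀ h0]
  refine (norm_sum_le _ _).trans ((Finset.sum_le_card_nsmul _ _ (A * B) fun p hp => ?_).trans_eq (by simp))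
  have hp' := Finset.mem_range.1 hp
  refine (norm_integral_le_of_norm_le_const (C := A * B) (Eventually.of_forall fun w => ?_)).trans_eq (by simp)
  rw [norm_mul, Complex.norm_conj, mul_comm]
  exact mul_le_mul ((norm_mfun_le _ _ _ _).trans (hA p hp')) ((norm_mfun_le _ _ _ _).trans (hB p hp'))
    (norm_nonneg _) ((add_nonneg (norm_nonneg _) (norm_nonneg _)).trans (hA p hp'))

/-- the relative phase of two consecutive pieces -/
def om (n s : ℕ) (j : ℕ) : ℂ :=
  fourier (-(j:ℤ)) (ctr (MM n) (band n (s + 1))) * fourier (j:ℤ) (ctr (MM n) (band n s))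

theorem fourier_alpha (n s i h : ℕ) (j : ℕ) (hs : s < MM n) (hi : i < LL n) :
    fourier (j:ℤ) (alpha n (h * (MM n * LL n) + (s * LL n + i))) =
      (fourier (-(j:ℤ)) (ctr (MM n) (band n s))) ^ i *
        fourier (j:ℤ) ((-((i:ℝ) ^ 2) / (4 * MM n * LL n) : ℝ) : UnitAddCircle) := by
  have hlt : s * LL n + i < MM n * LL n := by
    have : (s + 1) * LL n ≤ MM n * LL n := Nat.mul_le_mul_right _ hs
    rw [Nat.succ_mul] at this; omega
  have e0 : (h * (MM n * LL n) + (s * LL n + i)) % (MM n * LL n) = s * LL n + i := by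
    rw [Nat.add_comm, Nat.add_mul_mod_self_right, Nat.mod_eq_of_lt hlt]
  have e1 : (s * LL n + i) % LL n = i := by
    rw [Nat.add_comm, Nat.add_mul_mod_self_right, Nat.mod_eq_of_lt hi]
  have e2 : (s * LL n + i) / LL n = s := by
    rw [Nat.add_comm, Nat.add_mul_div_right _ _ (show 0 < LL n from one_le_LL n),
      Nat.div_eq_of_lt hi, Nat.zero_add]
  simp only [alpha, e0, e1, e2]
  rw [fourier_add_arg, fourier_neg_arg]
  congr 1
  rw [natCast_zsmul, fourier_nsmul_arg]
  induction i with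
  | zero => simp [-fourier_apply, fourier_zero]
  | succ i _ =>
    clear * - i
    generalize i + 1 = m
    induction m with
    | zero => simp [-fourier_apply, fourier_zero]
    | succ m ih => rw [pow_succ, ← ih, Nat.cast_succ, mul_add, mul_one, fourier_add]

theorem Sk_good (j n : ℕ) (hj : j ≠ 0) (a b : Coef) (h s i : ℕ) (hh2 : h < 2) (hs : s + 1 < MM n)
    (hi : i < LL n) :
    Sk j n a b (h * (MM n * LL n) + (s * LL n + i)) =
      (hh n : ℂ)⁻¹ * ∑ p ∈ Finset.range (hh n),
        (conj (b p).1 * (a p).1 * om n s j ^ i + conj (b p).2 * (a p).2 * conj (om n s j ^ i)) := by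
  rw [Sk]
  congr 1
  refine Finset.sum_congr rfl fun p _ => ?_
  set k := h * (MM n * LL n) + (s * LL n + i) with hk
  have hk' : k + LL n = h * (MM n * LL n) + ((s + 1) * LL n + i) := by rw [hk, Nat.succ_mul]; omega
  have hflip : (GG n k).1 = decide (h = 1) ∧ (GG n (k + LL n)).1 = decide (h = 1) := by
    have hb : ∀ r < MM n, decide (MM n * LL n ≤ h * (MM n * LL n) + (r * LL n + i)) = decide (h = 1) := by
      intro r hr
      have : (r + 1) * LL n ≤ MM n * LL n := Nat.mul_le_mul_right _ hr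
      rw [Nat.succ_mul] at this
      rw [decide_eq_decide]
      interval_cases h <;> omega
    exact ⟨hb s (by omega), by rw [hk']; exact hb (s + 1) hs⟩
  have e1 := fourier_alpha n s i h j (by omega) hi
  have e2 := fourier_alpha n (s + 1) i h j hs hi
  rw [← hk'] at e2
  rw [← hk] at e1
  have hG : ∀ k, (GG n k).2 = alpha n k := fun _ => rfl
  have hprod : conj (fourier (j:ℤ) (alpha n k)) * fourier (j:ℤ) (alpha n (k + LL n)) = om n s j ^ i := by
    rw [e1, e2, map_mul, map_pow, ← fourier_neg, neg_neg, om, mul_pow]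
    have hu : conj (fourier (j:ℤ) ((-((i:ℝ) ^ 2) / (4 * MM n * LL n) : ℝ) : UnitAddCircle)) *
        fourier (j:ℤ) ((-((i:ℝ) ^ 2) / (4 * MM n * LL n) : ℝ) : UnitAddCircle) = 1 := by
      rw [Complex.conj_mul', norm_fourier_apply]; norm_num
    linear_combination (fourier (j:ℤ) (ctr (MM n) (band n s)) ^ i *
      fourier (-(j:ℤ)) (ctr (MM n) (band n (s + 1))) ^ i) * hu
  simp only [mfun_act, hG, hflip.1, hflip.2]
  rw [integral_congr_ae (Eventually.of_forall fun w => rfl)]
  have key := integral_conj_mfun_mul j j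
    (fun _ => (if decide (h = 1) then (b p).2 * conj (fourier (j:ℤ) (alpha n k)) else (b p).1 * fourier (j:ℤ) (alpha n k),
      if decide (h = 1) then (b p).1 * fourier (j:ℤ) (alpha n k) else (b p).2 * conj (fourier (j:ℤ) (alpha n k))))
    (fun _ => (if decide (h = 1) then (a p).2 * conj (fourier (j:ℤ) (alpha n (k + LL n))) else (a p).1 * fourier (j:ℤ) (alpha n (k + LL n)),
      if decide (h = 1) then (a p).1 * fourier (j:ℤ) (alpha n (k + LL n)) else (a p).2 * conj (fourier (j:ℤ) (alpha n (k + LL n))))) 0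
  simp only [mfun] at key
  rw [key]
  simp only [neg_add_cancel, add_neg_cancel, if_true, mul_one,
    if_neg (show ¬ (-(j:ℤ) + -(j:ℤ) = 0) by omega), if_neg (show ¬ ((j:ℤ) + (j:ℤ) = 0) by omega),
    mul_zero, add_zero, ← hprod]
  interval_cases h <;> simp [-fourier_apply, -fourier_neg] <;> ring

theorem band_succ_same (n s : ℕ) (hs : s % jj n + 1 < jj n) : band n (s + 1) = band n s + RR n := by
  have e1 : (s + 1) % jj n = s % jj n + 1 := by
    conv_lhs => rw [← Nat.div_add_mod s (jj n), Nat.add_assoc, Nat.mul_add_mod, Nat.mod_eq_of_lt hs]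
  have e2 : (s + 1) / jj n = s / jj n := by
    conv_lhs => rw [← Nat.div_add_mod s (jj n), Nat.add_assoc, Nat.mul_add_div (by simp [jj]),
      Nat.div_eq_of_lt hs, Nat.add_zero]
  simp only [band, e1, e2, Nat.mul_add, Nat.mul_one]; omega

theorem band_succ_change (n s : ℕ) (hs : s % jj n + 1 = jj n) :
    (band n s : ℤ) = (band n (s + 1) : ℤ) - 1 + RR n * ((jj n : ℤ) - 1) := by
  have e1 : (s + 1) % jj n = 0 := by
    conv_lhs => rw [← Nat.div_add_mod s (jj n), Nat.add_assoc, hs]
    simp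
  have e2 : (s + 1) / jj n = s / jj n + 1 := by
    conv_lhs => rw [← Nat.div_add_mod s (jj n), Nat.add_assoc, hs, Nat.mul_add_div (by simp [jj]),
      Nat.div_self (by simp [jj])]
  have hcast : ((s % jj n : ℕ) : ℤ) = (jj n : ℤ) - 1 := by omega
  simp only [band, e1, e2]
  push_cast at hcast ⊢
  rw [hcast]; ring

theorem om_pow_LL (n s j : ℕ) : om n s j ^ LL n = 1 := by
  have key : ∀ (k : ℤ) (τ : ℕ), fourier k (ctr (MM n) τ) ^ MM n = 1 := by
    intro k τ
    have hM : (MM n : ℂ) ≠ 0 := by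
      have := one_le_MM n
      exact_mod_cast (by omega : MM n ≠ 0)
    rw [ctr, fourier_coe_apply, ← Complex.exp_nat_mul, Complex.exp_eq_one_iff]
    refine ⟨k * τ, ?_⟩
    push_cast
    field_simp
  obtain ⟨l, hl⟩ := MM_dvd_LL n
  rw [hl, pow_mul, om, mul_pow, key, key, one_mul, one_pow]

/-- `om = 1` exactly when `M` divides `j` times the jump of the band index. -/
theorem om_eq_one_iff (n s j : ℕ) :
    om n s j = 1 ↔ ∃ k : ℤ, (j:ℤ) * ((band n (s + 1) : ℤ) - band n s) = k * MM n := by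
  have hM : (MM n : ℂ) ≠ 0 := by
    have := one_le_MM n
    exact_mod_cast (by omega : MM n ≠ 0)
  have hpi : (2 * (Real.pi : ℂ) * Complex.I) ≠ 0 := Complex.two_pi_I_ne_zero
  rw [om, ctr, ctr, fourier_coe_apply, fourier_coe_apply, ← Complex.exp_add, Complex.exp_eq_one_iff]
  constructor
  · rintro ⟨k, hk⟩
    refine ⟨-k, ?_⟩
    have h : ((j:ℂ) * ((band n (s + 1) : ℂ) - band n s)) = -(k:ℂ) * MM n := by
      push_cast at hk
      field_simp at hk
      linear_combination -hk
    exact_mod_cast h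
  · rintro ⟨k, hk⟩
    refine ⟨-k, ?_⟩
    have h : ((j:ℂ) * ((band n (s + 1) : ℂ) - band n s)) = (k:ℂ) * MM n := by exact_mod_cast hk
    push_cast
    field_simp
    linear_combination -h

theorem om_same (n s j : ℕ) (hs : s % jj n + 1 < jj n) : om n s j = 1 ↔ jj n ∣ j := by
  rw [om_eq_one_iff, band_succ_same n s hs]
  have hR : (RR n : ℤ) ≠ 0 := by simp [RR]; omega
  push_cast [MM]
  constructor
  · rintro ⟨k, hk⟩
    have h : (j:ℤ) = k * jj n := mul_right_cancel₀ hR (by linear_combination hk)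
    exact Int.natCast_dvd_natCast.1 ⟨k, by rw [h]; ring⟩
  · rintro ⟨k, hk⟩
    exact ⟨k, by rw [hk]; push_cast; ring⟩

theorem om_change (n s j : ℕ) (hs : s % jj n + 1 = jj n) (hj : j ≠ 0) (hjR : j < RR n) :
    om n s j ≠ 1 := by
  rw [Ne, om_eq_one_iff, band_succ_change n s hs]
  rintro ⟨k, hk⟩
  push_cast [MM] at hk
  have hd : (RR n : ℤ) ∣ (j:ℤ) := ⟨k * jj n + j * ((jj n : ℤ) - 1), by linear_combination hk⟩
  have := Nat.le_of_dvd (Nat.pos_of_ne_zero hj) (Int.natCast_dvd_natCast.1 hd)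
  omega

/-- A piece is good for the mode `j` unless it is the last of its class or `J ∤ j`. -/
def IsBad (n j s : ℕ) : Prop := s % jj n + 1 = jj n ∨ ¬ jj n ∣ j

instance (n j s : ℕ) : Decidable (IsBad n j s) := by unfold IsBad; infer_instance

theorem sum_piece (n s j : ℕ) (hj : j ≠ 0) (hjR : j < RR n) (hs : s + 1 < MM n) (a b : Coef) (h : ℕ)
    (hh2 : h < 2) :
    ∑ i ∈ Finset.range (LL n), Sk j n a b (h * (MM n * LL n) + (s * LL n + i))
      = if IsBad n j s then 0 else (LL n : ℂ) * ip n b a := by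
  rw [Finset.sum_congr rfl fun i hi => Sk_good j n hj a b h s i hh2 hs (Finset.mem_range.1 hi)]
  rw [← Finset.mul_sum, Finset.sum_comm]
  simp only [Finset.sum_add_distrib, ← Finset.mul_sum]
  have hlt : s % jj n + 1 ≠ jj n → s % jj n + 1 < jj n := fun h => by
    have := Nat.mod_lt s (show 0 < jj n by simp [jj]); omega
  split_ifs with hc
  · have h1 : om n s j ≠ 1 := by
      rcases eq_or_ne (s % jj n + 1) (jj n) with he | he
      · exact om_change n s j he hj hjR
      · exact fun h => (hc.resolve_left he) ((om_same n s j (hlt he)).1 h)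
    rw [← map_sum, geom_sum_eq h1, om_pow_LL]
    simp
  · simp only [IsBad, not_or, not_not] at hc
    simp only [(om_same n s j (hlt hc.1)).2 hc.2, one_pow, map_one, Finset.sum_const, Finset.card_range,
      nsmul_eq_mul, mul_one]
    simp only [ip, Finset.sum_add_distrib]
    rw [← Finset.sum_mul, ← Finset.sum_mul]
    ring

theorem card_change (J R : ℕ) (hJ : 0 < J) :
    ((Finset.range (J * R)).filter fun s => ¬ s % J + 1 = J).card = R * (J - 1) := by
  induction R with
  | zero => simp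
  | succ R ih =>
    rw [Finset.card_filter] at ih ⊢
    rw [Nat.mul_succ, Finset.sum_range_add, ih, Nat.succ_mul]
    congr 1
    rw [Finset.sum_congr rfl (g := fun x => if ¬ x + 1 = J then 1 else 0) fun x hx => by
      rw [Nat.mul_add_mod, Nat.mod_eq_of_lt (Finset.mem_range.1 hx)]]
    obtain ⟨K, rfl⟩ := Nat.exists_eq_add_of_le' hJ
    rw [Finset.sum_range_succ, if_neg (by simp)]
    rw [Finset.sum_congr rfl (g := fun _ => 1) fun x hx => if_pos (by have := Finset.mem_range.1 hx; omega)]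
    simp

/-- number of good pieces of one half -/
def ngood (n j : ℕ) : ℕ := if jj n ∣ j then RR n * (jj n - 1) else 0

theorem sum_Sk (n j : ℕ) (hj : j ≠ 0) (hjR : j < RR n) (a b : Coef) (A B : ℝ)
    (hA : ∀ p < hh n, ‖(a p).1‖ + ‖(a p).2‖ ≤ A) (hB : ∀ p < hh n, ‖(b p).1‖ + ‖(b p).2‖ ≤ B) :
    ‖∑ k ∈ Finset.range (QQ n), Sk j n a b k
        - (2 * LL n * (ngood n j : ℕ) : ℂ) * ip n b a‖ ≤ 2 * LL n * (A * B) := by
  set J := jj n with hJdef
  obtain ⟨m, hm'⟩ : ∃ m, MM n = m + 1 := ⟨MM n - 1, by have := one_le_MM n; omega⟩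
  have hJ : 0 < J := by simp [J, jj]
  have hlast : m % J + 1 = J := by
    have h1 : (m + 1) % J = 0 := by rw [← hm', MM]; exact Nat.mul_mod_right _ _
    have h2 := Nat.div_add_mod m J
    have h3 := Nat.mod_lt m hJ
    by_contra hne
    rw [← h2, Nat.add_assoc, Nat.mul_add_mod, Nat.mod_eq_of_lt (by omega)] at h1
    omega
  have hsplit : ∑ k ∈ Finset.range (QQ n), Sk j n a b k = ∑ h ∈ Finset.range 2,
      ∑ s ∈ Finset.range (MM n), ∑ i ∈ Finset.range (LL n), Sk j n a b (h * (MM n * LL n) + (s * LL n + i)) := by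
    rw [QQ, sum_range_mul']
    exact Finset.sum_congr rfl fun h _ => sum_range_mul' _ _ _
  have hng : ∑ s ∈ Finset.range m, (if IsBad n j s then 0 else 1) = ngood n j := by
    by_cases hd : jj n ∣ j
    · have hcard := card_change J (RR n) hJ
      rw [show J * RR n = MM n from rfl, Finset.card_filter, hm', Finset.sum_range_succ,
        if_neg (by simpa using hlast), Nat.add_zero] at hcard
      simp only [ngood, if_pos hd]
      rw [← hcard]
      refine Finset.sum_congr rfl fun s _ => ?_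
      by_cases hc : s % J + 1 = J <;> simp [IsBad, ← hJdef, hc, (hJdef ▸ hd : J ∣ j)]
    · simp [IsBad, ngood, hd]
  have hhalf : ∀ h < 2, ∑ s ∈ Finset.range (MM n), ∑ i ∈ Finset.range (LL n),
      Sk j n a b (h * (MM n * LL n) + (s * LL n + i))
      = ((ngood n j : ℕ) : ℂ) * (LL n * ip n b a)
        + ∑ i ∈ Finset.range (LL n), Sk j n a b (h * (MM n * LL n) + (m * LL n + i)) := by
    intro h hh2
    conv_lhs => rw [hm', Finset.sum_range_succ]
    rw [← hm']
    congr 1
    rw [Finset.sum_congr rfl fun s hs => sum_piece n s j hj hjR (by have := Finset.mem_range.1 hs; omega) a b h hh2]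
    rw [← hng, Nat.cast_sum, Finset.sum_mul]
    refine Finset.sum_congr rfl fun s _ => ?_
    by_cases hc : IsBad n j s <;> simp [hc]
  rw [hsplit, Finset.sum_congr rfl fun h hh2 => hhalf h (Finset.mem_range.1 hh2), Finset.sum_add_distrib,
    Finset.sum_const, Finset.card_range, nsmul_eq_mul]
  rw [show ((2:ℕ):ℂ) * (((ngood n j : ℕ) : ℂ) * (LL n * ip n b a))
      = (2 * LL n * (ngood n j : ℕ) : ℂ) * ip n b a by push_cast; ring, add_sub_cancel_left]
  refine (norm_sum_le _ _).trans ((Finset.sum_le_card_nsmul _ _ (LL n * (A * B)) fun h _ => ?_).trans_eq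
    (by simp; ring))
  refine (norm_sum_le _ _).trans ((Finset.sum_le_card_nsmul _ _ (A * B) fun i _ => ?_).trans_eq (by simp))
  exact norm_Sk_le j n a b _ A B hA hB

/-- the eigenvalue of the limit operator of the `J`-stages on the mode `j` -/
def cJ (J j : ℕ) : ℂ := if j = 0 then 1 else if J ∣ j then 1 - (J : ℂ)⁻¹ else 0

/-- the approximating integrand in tower coordinates -/
def Fc (j n : ℕ) (a b : Coef) (p : ℕ) (w : UnitAddCircle) : ℂ :=
  conj (mfun j b (p % hh n) (act (GG n (p / hh n)) w)) *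
    mfun j a (p % hh n) (act (GG n (p / hh n + LL n)) w)

theorem continuous_Fc (j n : ℕ) (a b : Coef) (p : ℕ) : Continuous (Fc j n a b p) :=
  (Complex.continuous_conj.comp ((continuous_mfun j b _).comp (continuous_act _))).mul
    ((continuous_mfun j a _).comp (continuous_act _))

theorem inner_shift_approx (n j : ℕ) (hj : j ≠ 0) (hjR : j < RR n) (a b : Coef) (A B : ℝ)
    (hA : ∀ p < hh n, ‖(a p).1‖ + ‖(a p).2‖ ≤ A) (hB : ∀ p < hh n, ‖(b p).1‖ + ‖(b p).2‖ ≤ B) :
    ‖⟪iota j n b, (UU ^ tt n) (iota j n a)⟫_ℂ - cJ (jj n) j * ip n b a‖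
      ≤ 3 * (A * B) / MM n := by
  set J := jj n with hJdef
  have hA0 : 0 ≤ A := (add_nonneg (norm_nonneg _) (norm_nonneg _)).trans (hA 0 (hh_pos n))
  have hB0 : 0 ≤ B := (add_nonneg (norm_nonneg _) (norm_nonneg _)).trans (hB 0 (hh_pos n))
  rw [inner_iota_UU_pow]
  set f : YY → ℂ := fun y => conj (lf j n b y) * lf j n a (TT^[tt n] y) with hf
  set G : YY → ℂ := fun y => Fc j n a b (crd (n+1) y).1 (crd (n+1) y).2 with hG
  set K := (QQ n - LL n) * hh n with hK
  set ind : ℕ → ℂ := fun p => if K ≤ p then 1 else 0 with hind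
  have hLQ : LL n ≤ QQ n := by
    have h1 : LL n ≤ MM n * LL n := Nat.le_mul_of_pos_left _ (one_le_MM n)
    simp only [QQ]; omega
  have hKt : K + tt n = hh (n + 1) := by rw [hK, tt, ← Nat.add_mul, Nat.sub_add_cancel hLQ, hh_succ]
  have hlfa : ∀ y, ‖lf j n a y‖ ≤ A := fun y => (norm_mfun_le _ _ _ _).trans (hA _ (pos_lt n y.1))
  have hlfb : ∀ y, ‖lf j n b y‖ ≤ B := fun y => (norm_mfun_le _ _ _ _).trans (hB _ (pos_lt n y.1))
  have hGb : ∀ y, ‖G y‖ ≤ A * B := fun y => by
    simp only [hG, Fc, norm_mul, Complex.norm_conj]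
    rw [mul_comm A B]
    exact mul_le_mul ((norm_mfun_le _ _ _ _).trans (hB _ (Nat.mod_lt _ (hh_pos n))))
      ((norm_mfun_le _ _ _ _).trans (hA _ (Nat.mod_lt _ (hh_pos n)))) (norm_nonneg _) hB0
  have hbound : ∀ y, ‖f y - G y‖ ≤ 2 * (A * B) * (ind (crd (n+1) y).1).re := by
    intro y
    by_cases hy : K ≤ (crd (n+1) y).1
    · simp only [hind, if_pos hy, Complex.one_re, mul_one]
      refine (norm_sub_le _ _).trans ?_
      have : ‖f y‖ ≤ A * B := by
        simp only [hf, norm_mul, Complex.norm_conj]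
        rw [mul_comm A B]
        exact mul_le_mul (hlfb _) (hlfa _) (norm_nonneg _) hB0
      linarith [hGb y]
    · simp only [hind, if_neg hy, Complex.zero_re, mul_zero, norm_le_zero_iff, sub_eq_zero]
      have hlt : pos (n + 1) y.1 + tt n < hh (n + 1) := by
        have : pos (n + 1) y.1 = (crd (n+1) y).1 := rfl
        omega
      simp only [hf, hG, Fc, lf]
      rw [crd_eq_crd_succ n (TT^[tt n] y), crd_TT_iterate (n + 1) (tt n) y hlt, crd_eq_crd_succ n y]
      simp only [tt, Nat.add_mul_mod_self_right, Nat.add_mul_div_right _ _ (hh_pos n)]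
  have hintf : Integrable f hY := integrable_pair j j n n (tt n) a b
  have hmG : Measurable G := by
    have h : Measurable fun w : ℕ × UnitAddCircle => Fc j n a b w.1 w.2 :=
      measurable_from_prod_countable_right fun p => (continuous_Fc j n a b p).measurable
    exact h.comp (measurable_crd (n+1))
  have hintG : Integrable G hY :=
    Integrable.of_bound hmG.aestronglyMeasurable (A * B) (Eventually.of_forall hGb)
  have hmi : Measurable fun y => ind (crd (n+1) y).1 :=
    (Measurable.of_discrete (f := ind)).comp (measurable_fst.comp (measurable_crd (n+1)))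
  have hinti : Integrable (fun y => ind (crd (n+1) y).1) hY :=
    Integrable.of_bound hmi.aestronglyMeasurable 1 (Eventually.of_forall fun y => by
      simp only [hind]; split_ifs <;> simp)
  have hIi : ∫ y, ind (crd (n+1) y).1 ∂hY = (LL n : ℂ) / QQ n := by
    rw [integral_crd (n+1) (F := fun p _ => ind p) (fun p => continuous_const)]
    simp only [integral_const, probReal_univ, one_smul, hind]
    have hh0 : (hh n : ℂ) ≠ 0 := by exact_mod_cast (hh_pos n).ne'
    conv_lhs => rw [← hKt, Finset.sum_range_add]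
    rw [Finset.sum_congr rfl (g := fun _ => (0:ℂ)) fun x hx => if_neg (by have := Finset.mem_range.1 hx; omega),
      Finset.sum_congr rfl (g := fun _ => (1:ℂ)) (s₁ := Finset.range (tt n)) fun x _ => if_pos (by omega),
      hKt]
    simp only [Finset.sum_const_zero, zero_add, Finset.sum_const, Finset.card_range, nsmul_eq_mul, mul_one,
      tt, hh_succ, Nat.cast_mul]
    field_simp
  have hIG : ∫ y, G y ∂hY = (QQ n : ℂ)⁻¹ * ∑ k ∈ Finset.range (QQ n), Sk j n a b k := by
    rw [hG, integral_crd (n+1) (fun p => continuous_Fc j n a b p), hh_succ, sum_range_mul',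
      Nat.cast_mul, mul_inv, mul_assoc, Finset.mul_sum]
    congr 1
    refine Finset.sum_congr rfl fun k _ => ?_
    rw [Sk]
    congr 1
    refine Finset.sum_congr rfl fun p hp => ?_
    have hp' := Finset.mem_range.1 hp
    simp only [Fc]
    rw [Nat.add_comm (k * hh n) p, Nat.add_mul_mod_self_right, Nat.mod_eq_of_lt hp',
      Nat.add_mul_div_right _ _ (hh_pos n), Nat.div_eq_of_lt hp', Nat.zero_add]
  have h1 : ‖∫ y, f y ∂hY - ∫ y, G y ∂hY‖ ≤ 2 * (A * B) * ((LL n : ℝ) / QQ n) := by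
    rw [← integral_sub hintf hintG]
    have hre : ∫ y, (ind (crd (n+1) y).1).re ∂hY = (LL n : ℝ) / QQ n := by
      have := integral_re hinti
      simp only [RCLike.re_to_complex] at this
      rw [this, hIi, ← Complex.ofReal_natCast, ← Complex.ofReal_natCast, ← Complex.ofReal_div,
        Complex.ofReal_re]
    refine (norm_integral_le_of_norm_le (hinti.re.const_mul _) (Eventually.of_forall hbound)).trans_eq ?_
    rw [← hre, ← integral_const_mul]
    rfl
  have hQ : (QQ n : ℝ) = 2 * MM n * LL n := by rw [QQ]; push_cast; ring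
  have hQ0 : (0:ℝ) < QQ n := by exact_mod_cast QQ_pos n
  have h2 : ‖∫ y, G y ∂hY - cJ J j * ip n b a‖ ≤ 2 * LL n * (A * B) / QQ n := by
    have hJ0 : (J : ℂ) ≠ 0 := by exact_mod_cast (show J ≠ 0 by simp [J, jj])
    have hid : ((2 * LL n * (ngood n j : ℕ)) : ℂ) = (QQ n : ℂ) * cJ J j := by
      simp only [cJ, if_neg hj, ngood, ← hJdef]
      split_ifs with hd
      · rw [QQ, MM, Nat.cast_mul, Nat.cast_sub (show 1 ≤ J by simp [J, jj])]
        push_cast
        field_simp
        simp only [J]; ring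
      · simp
    have hrw : ∫ y, G y ∂hY - cJ J j * ip n b a = (QQ n : ℂ)⁻¹ *
        (∑ k ∈ Finset.range (QQ n), Sk j n a b k - (2 * LL n * (ngood n j : ℕ) : ℂ) * ip n b a) := by
      have hq : (QQ n : ℂ) ≠ 0 := by exact_mod_cast (QQ_pos n).ne'
      rw [hIG, hid, mul_sub]
      field_simp
    rw [hrw, norm_mul, norm_inv, Complex.norm_natCast, inv_mul_le_iff₀ hQ0, mul_div_cancel₀ _ hQ0.ne']
    exact sum_Sk n j hj hjR a b A B hA hB
  refine (norm_sub_le_norm_sub_add_norm_sub _ (∫ y, G y ∂hY) _).trans ((add_le_add h1 h2).trans ?_)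
  have hL : (0:ℝ) < LL n := by exact_mod_cast one_le_LL n
  have hM : (0:ℝ) < MM n := by exact_mod_cast one_le_MM n
  rw [hQ, mul_div_assoc', ← add_div, div_le_div_iff₀ (by positivity) hM]
  have : 0 ≤ A * B := mul_nonneg hA0 hB0
  nlinarith [mul_nonneg (mul_nonneg this hL.le) hM.le]

theorem dense_span_iota :
    (Submodule.span ℂ {x : HH | ∃ j n a, x = iota j n a}).topologicalClosure = ⊤ := by
  rw [Submodule.topologicalClosure_eq_top_iff, Submodule.eq_bot_iff]
  intro g hg
  refine eq_zero_of_forall_inner_iota g fun j n a => ?_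
  exact Submodule.inner_right_of_mem_orthogonal
    (K := Submodule.span ℂ {x : HH | ∃ j n a, x = iota j n a})
    (Submodule.subset_span (show iota j n a ∈ {x : HH | ∃ j n a, x = iota j n a} from ⟨j, n, a, rfl⟩)) hg

/-- A criterion for weak convergence to `c • φ`. -/
theorem tendsto_inner_of_bounded {ι : Type*} {l : Filter ι} (v : ι → HH) (w : HH) (C : ℝ)
    (hC : ∀ i, ‖v i‖ ≤ C) {S : Set HH} (hS : (Submodule.span ℂ S).topologicalClosure = ⊤)
    (h : ∀ s ∈ S, Tendsto (fun i => ⟪s, v i⟫_ℂ) l (𝓝 ⟪s, w⟫_ℂ)) (g : HH) :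
    Tendsto (fun i => ⟪g, v i⟫_ℂ) l (𝓝 ⟪g, w⟫_ℂ) := by
  have hspan : ∀ u ∈ Submodule.span ℂ S, Tendsto (fun i => ⟪u, v i⟫_ℂ) l (𝓝 ⟪u, w⟫_ℂ) := by
    intro u hu
    induction hu using Submodule.span_induction with
    | mem x hx => exact h x hx
    | zero => simp only [inner_zero_left]; exact tendsto_const_nhds
    | add x y _ _ hx hy => simp only [inner_add_left]; exact hx.add hy
    | smul c x _ hx => simp only [inner_smul_left]; exact hx.const_mul _
  rw [Metric.tendsto_nhds]
  intro ε hε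
  set C' := |C| + ‖w‖ + 1 with hC'
  have hC'0 : 0 < C' := by positivity
  have hmem : g ∈ closure ((Submodule.span ℂ S : Submodule ℂ HH) : Set HH) := by
    rw [← Submodule.topologicalClosure_coe, hS]; exact Submodule.mem_top
  obtain ⟨u, hu, hdu⟩ := Metric.mem_closure_iff.1 hmem (ε / (3 * C')) (by positivity)
  rw [dist_eq_norm] at hdu
  filter_upwards [(Metric.tendsto_nhds.1 (hspan u hu)) (ε / 3) (by positivity)] with i hi
  rw [dist_eq_norm] at hi ⊢
  have e : ⟪g, v i⟫_ℂ - ⟪g, w⟫_ℂ = ⟪g - u, v i⟫_ℂ + (⟪u, v i⟫_ℂ - ⟪u, w⟫_ℂ) - ⟪g - u, w⟫_ℂ := by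
    simp only [inner_sub_left]; ring
  have h1 : ‖⟪g - u, v i⟫_ℂ‖ ≤ ‖g - u‖ * C' := (norm_inner_le_norm _ _).trans
    (mul_le_mul_of_nonneg_left ((hC i).trans (by rw [hC']; linarith [le_abs_self C, norm_nonneg w]))
      (norm_nonneg _))
  have h2 : ‖⟪g - u, w⟫_ℂ‖ ≤ ‖g - u‖ * C' := (norm_inner_le_norm _ _).trans
    (mul_le_mul_of_nonneg_left (by rw [hC']; linarith [abs_nonneg C]) (norm_nonneg _))
  have h3 : ‖g - u‖ * C' < ε / 3 := by
    have := mul_lt_mul_of_pos_right hdu hC'0
    calc _ < ε / (3 * C') * C' := this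
    _ = ε / 3 := by field_simp
  rw [e]
  linarith [norm_sub_le (⟪g - u, v i⟫_ℂ + (⟪u, v i⟫_ℂ - ⟪u, w⟫_ℂ)) ⟪g - u, w⟫_ℂ,
    norm_add_le ⟪g - u, v i⟫_ℂ (⟪u, v i⟫_ℂ - ⟪u, w⟫_ℂ)]

/-- stages killing the mode `j` -/
def stg (j k : ℕ) : ℕ := Nat.pair (j - 2) k

theorem jj_stg (j k : ℕ) (hj : 2 ≤ j) : jj (stg j k) = j := by
  simp only [jj, stg, Nat.unpair_pair]; omega

theorem tendsto_stg (j : ℕ) : Tendsto (stg j) atTop atTop :=
  tendsto_atTop_mono (fun k => Nat.right_le_pair _ k) tendsto_id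

theorem mfun_zero (a : Coef) (p : ℕ) (w : UnitAddCircle) : mfun 0 a p w = (a p).1 + (a p).2 := by
  simp [mfun, -fourier_apply, fourier_zero]

theorem pos_iterate (n t : ℕ) (y : YY) : pos n (TT^[t] y).1 = (pos n y.1 + t) % hh n := by
  induction t with
  | zero => simp [Nat.mod_eq_of_lt (pos_lt n y.1)]
  | succ t ih =>
    rw [Function.iterate_succ_apply', TT_apply, pos_natO_add, ih, Nat.mod_add_mod, Nat.add_assoc]

theorem UU_pow_iota_zero (n k : ℕ) (a : Coef) : (UU ^ (k * hh n)) (iota 0 n a) = iota 0 n a := by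
  refine Lp.ext ((coeFn_UU_pow _ _).trans ?_)
  refine ((measurePreserving_TT.iterate _).quasiMeasurePreserving.ae_eq_comp (coeFn_iota 0 n a)).trans
    (EventuallyEq.trans (Eventually.of_forall fun y => ?_) (coeFn_iota 0 n a).symm)
  simp only [Function.comp_apply, lf, mfun_zero, crd, pos_iterate, Nat.add_mul_mod_self_right,
    Nat.mod_eq_of_lt (pos_lt n y.1)]

/-- Weak limits along the stages of `J`: `U^{t} → c • id` on every mode. -/
theorem tendsto_rigid (J j : ℕ) (hJ : 2 ≤ J) (n₀ : ℕ) (a : Coef) (g : HH) :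
    Tendsto (fun k => ⟪g, (UU ^ tt (stg J k)) (iota j n₀ a)⟫_ℂ) atTop
      (𝓝 ⟪g, cJ J j • iota j n₀ a⟫_ℂ) := by
  refine tendsto_inner_of_bounded _ _ ‖iota j n₀ a‖ (fun k => le_of_eq (LinearIsometryEquiv.norm_map _ _))
    dense_span_iota ?_ g
  rintro _ ⟨j', n', b, rfl⟩
  rw [inner_smul_right]
  by_cases hjj : j' = j
  swap
  · simp only [inner_iota_UU_pow_ne j j' n₀ n' _ hjj, inner_iota_ne j' j n' n₀ hjj, mul_zero]
    exact tendsto_const_nhds
  subst hjj
  rename' j' => j
  by_cases hj0 : j = 0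
  · subst hj0
    refine tendsto_const_nhds.congr' ?_
    filter_upwards [(tendsto_stg J).eventually (eventually_ge_atTop n₀)] with k hk
    obtain ⟨u, hu⟩ := Nat.exists_eq_add_of_le hk
    rw [← iota_liftc 0 n₀ a u, ← hu, tt, UU_pow_iota_zero]
    simp [cJ]
  rw [tendsto_iff_norm_sub_tendsto_zero]
  set A := bnd n₀ a
  set B := bnd n' b
  refine squeeze_zero' (Eventually.of_forall fun k => norm_nonneg _) ?_
    (g := fun k => 3 * (A * B) / (MM (stg J k) : ℝ)) ?_
  · filter_upwards [(tendsto_stg J).eventually (eventually_ge_atTop (max (max n₀ n') j))] with k hk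
    obtain ⟨u, hu⟩ := Nat.exists_eq_add_of_le (((le_max_left _ _).trans (le_max_left _ _)).trans hk)
    obtain ⟨v, hv⟩ := Nat.exists_eq_add_of_le (((le_max_right _ _).trans (le_max_left _ _)).trans hk)
    have hjR : j < RR (stg J k) := by
      have := (le_max_right (max n₀ n') j).trans hk
      simp only [RR]; omega
    have ha : iota j (stg J k) (liftc j n₀ a u) = iota j n₀ a := by rw [hu]; exact iota_liftc j n₀ a u
    have hb : iota j (stg J k) (liftc j n' b v) = iota j n' b := by rw [hv]; exact iota_liftc j n' b v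
    have := inner_shift_approx (stg J k) j hj0 hjR (liftc j n₀ a u) (liftc j n' b v) A B
      (by rw [hu]; exact slot_bound_lift j n₀ a u) (by rw [hv]; exact slot_bound_lift j n' b v)
    rw [jj_stg J k hJ, ← inner_iota_same j (stg J k) hj0, ha, hb] at this
    exact this
  · have h1 : Tendsto (fun k => (MM (stg J k) : ℝ)) atTop atTop := by
      refine tendsto_natCast_atTop_atTop.comp (tendsto_atTop_mono (fun k => ?_) tendsto_id)
      have : k ≤ stg J k := Nat.right_le_pair _ k
      calc id k ≤ RR (stg J k) := by simp [RR]; omega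
      _ ≤ MM (stg J k) := Nat.le_mul_of_pos_left _ (by simp [jj])
    exact tendsto_const_nhds.div_atTop h1

end

end Vale.Agent.P130
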