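import Vale.Agent.P130.Params

/-! The transformation and its tower coordinates. -/

namespace Vale.Agent.P130

open MeasureTheory Filter Topology Set
open scoped ENNReal

noncomputable section

/-- The odometer group `lim ZMod (hh n)`. -/
def Odo : AddSubgroup (∀ n, ZMod (hh n)) where
  carrier := {x | ∀ n, ZMod.castHom (hh_dvd_succ n) (ZMod (hh n)) (x (n + 1)) = x n}
  add_mem' := fun ha hb n => by simp only [Pi.add_apply, map_add, ha n, hb n]
  zero_mem' := fun n => by simp only [Pi.zero_apply, map_zero]
  neg_mem' := fun ha n => by simp only [Pi.neg_apply, map_neg, ha n]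

theorem isClosed_Odo : IsClosed (Odo : Set (∀ n, ZMod (hh n))) := by
  have : (Odo : Set (∀ n, ZMod (hh n))) =
      ⋂ n, {x | ZMod.castHom (hh_dvd_succ n) (ZMod (hh n)) (x (n + 1)) = x n} := by
    ext x; simp [Odo]
  rw [this]
  exact isClosed_iInter fun n =>
    isClosed_eq (continuous_of_discreteTopology.comp (continuous_apply _)) (continuous_apply _)

instance : CompactSpace Odo := isCompact_iff_compactSpace.1 isClosed_Odo.isCompact

instance : StandardBorelSpace Odo := isClosed_Odo.measurableSet.standardBorel

/-- Haar probability measure on the odometer group -/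
def hX : Measure Odo := Measure.addHaarMeasure ⊤

instance : IsProbabilityMeasure hX := ⟨Measure.addHaarMeasure_self⟩

instance : Measure.IsAddHaarMeasure hX := Measure.isAddHaarMeasure_addHaarMeasure _

/-- The diagonal copy of `ℕ` -/
def natO (k : ℕ) : Odo := ⟨fun n => (k : ZMod (hh n)), fun _ => map_natCast _ k⟩

/-- position in the tower of level `n` -/
def pos (n : ℕ) (x : Odo) : ℕ := (x.1 n).val

theorem pos_lt (n : ℕ) (x : Odo) : pos n x < hh n := ZMod.val_lt _

theorem pos_succ_mod (n : ℕ) (x : Odo) : pos (n + 1) x % hh n = pos n x := by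
  have h := x.2 n
  rw [pos, pos, ← h, ZMod.castHom_apply, ← ZMod.natCast_val, ZMod.val_natCast]

theorem pos_natO_add (n k : ℕ) (x : Odo) : pos n (x + natO k) = (pos n x + k) % hh n := by
  simp only [pos, natO, AddSubgroup.coe_add, Pi.add_apply, ZMod.val_add, ZMod.val_natCast]
  rw [Nat.add_mod_mod]

theorem measurable_pos (n : ℕ) : Measurable (pos n) :=
  measurable_from_top.comp ((measurable_pi_apply n).comp measurable_subtype_coe)

theorem pos_zero (x : Odo) : pos 0 x = 0 := by
  have := pos_lt 0 x; rw [hh_zero] at this; omega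

theorem hX_fiber (n p : ℕ) (hp : p < hh n) : hX {x | pos n x = p} = (hh n : ℝ≥0∞)⁻¹ := by
  have heq : ∀ k < hh n, hX {x | pos n x = k} = hX {x | pos n x = 0} := by
    intro k hk
    have : {x | pos n x = 0} = (· + natO k) ⁻¹' {x | pos n x = k} := by
      ext x
      simp only [mem_ofPred_eq, mem_preimage, pos_natO_add]
      have h1 := pos_lt n x
      constructor
      · intro h; rw [h, Nat.zero_add, Nat.mod_eq_of_lt hk]
      · intro h
        by_contra h0
        rcases lt_or_ge (pos n x + k) (hh n) with h2 | h2
        · rw [Nat.mod_eq_of_lt h2] at h; omega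
        · rw [Nat.mod_eq_sub_mod h2, Nat.mod_eq_of_lt (by omega)] at h; omega
    rw [this, measure_preimage_add_right]
  have hsum : ∑ k ∈ Finset.range (hh n), hX {x | pos n x = k} = 1 := by
    rw [sum_measure_singleton_preimage (hh n) n]
  rw [Finset.sum_congr rfl fun k hk => heq k (Finset.mem_range.1 hk), Finset.sum_const,
    Finset.card_range, nsmul_eq_mul] at hsum
  rw [heq p hp]
  exact ENNReal.eq_inv_of_mul_eq_one_left (by rw [mul_comm]; exact hsum)
where
  sum_measure_singleton_preimage (h : ℕ) (n : ℕ) :
      ∑ k ∈ Finset.range (hh n), hX {x | pos n x = k} = 1 := by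
    have := sum_measure_preimage_singleton (μ := hX) (Finset.range (hh n))
      (fun y _ => measurable_pos n (measurableSet_singleton y))
    refine this.trans ?_
    rw [show pos n ⁻¹' ↑(Finset.range (hh n)) = univ by
      ext x; simpa using pos_lt n x]
    exact measure_univ

/-- first level at which `x` is not at the top of the tower -/
def lev (x : Odo) : ℕ := sInf {n | pos n x + 1 < hh n}

theorem lev_eq_iff (x : Odo) (m : ℕ) : lev x = m ↔
    (pos m x + 1 < hh m ∧ ∀ k < m, ¬ pos k x + 1 < hh k) ∨ (m = 0 ∧ ∀ k, ¬ pos k x + 1 < hh k) := by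
  unfold lev
  by_cases h : {n | pos n x + 1 < hh n}.Nonempty
  · constructor
    · rintro rfl
      exact Or.inl ⟨Nat.sInf_mem h, fun k hk hk' => absurd (Nat.sInf_le (s := {n | pos n x + 1 < hh n}) hk') (not_le.2 hk)⟩
    · rintro (⟨h1, h2⟩ | ⟨-, h2⟩)
      · exact le_antisymm (Nat.sInf_le h1) (not_lt.1 fun hlt => h2 _ hlt (Nat.sInf_mem h))
      · obtain ⟨k, hk⟩ := h; exact absurd hk (h2 k)
  · have h' : ∀ k, ¬ pos k x + 1 < hh k := fun k hk => h ⟨k, hk⟩
    rw [not_nonempty_iff_eq_empty.1 h, Nat.sInf_empty]
    constructor
    · rintro rfl; exact Or.inr ⟨rfl, h'⟩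
    · rintro (⟨h1, -⟩ | ⟨h1, -⟩)
      · exact absurd h1 (h' m)
      · exact h1.symm

theorem measurableSet_nottop (k : ℕ) : MeasurableSet {x : Odo | pos k x + 1 < hh k} :=
  measurable_pos k (MeasurableSet.of_discrete (s := {p : ℕ | p + 1 < hh k}))

theorem measurable_lev : Measurable lev := by
  refine measurable_to_countable' fun m => ?_
  have : lev ⁻¹' {m} = ({x : Odo | pos m x + 1 < hh m} ∩ ⋂ k ∈ Finset.range m, {x : Odo | pos k x + 1 < hh k}ᶜ)
      ∪ ({_x : Odo | m = 0} ∩ ⋂ k, {x : Odo | pos k x + 1 < hh k}ᶜ) := by
    ext x; simp [lev_eq_iff]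
  rw [this]
  exact ((measurableSet_nottop m).inter (MeasurableSet.biInter (Finset.countable_toSet _)
      fun k _ => (measurableSet_nottop k).compl)).union
    ((MeasurableSet.const _).inter (MeasurableSet.iInter fun k => (measurableSet_nottop k).compl))

/-- index of the cocycle value -/
def key (x : Odo) : ℕ × ℕ := (lev x, pos (lev x) x)

theorem measurable_key : Measurable key := by
  refine measurable_lev.prodMk ?_
  refine measurable_to_countable' fun p => ?_
  have : (fun x => pos (lev x) x) ⁻¹' {p} = ⋃ m, (lev ⁻¹' {m} ∩ pos m ⁻¹' {p}) := by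
    ext x; simp
  rw [this]
  exact MeasurableSet.iUnion fun m =>
    (measurable_lev (measurableSet_singleton m)).inter (measurable_pos m (measurableSet_singleton p))

theorem lev_le (n : ℕ) (x : Odo) (hn : pos n x + 1 < hh n) : lev x ≤ n :=
  Nat.sInf_le (s := {m | pos m x + 1 < hh m}) hn

theorem lev_mem (n : ℕ) (x : Odo) (hn : pos n x + 1 < hh n) :
    pos (lev x) x + 1 < hh (lev x) :=
  Nat.sInf_mem (s := {m | pos m x + 1 < hh m}) ⟨n, hn⟩

/-- cocycle value as a function of its index -/
def cval (k : ℕ × ℕ) : Dih := dcomp (gg k.1 (k.2 + 1)) (dinv (gg k.1 k.2))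

/-- the cocycle -/
def coc (x : Odo) : Dih := cval (key x)

theorem coc_eq (x : Odo) : coc x = cval (key x) := rfl

attribute [local irreducible] lev gg pos natO act dinv

theorem measurable_coc_act : Measurable fun y : Odo × UnitAddCircle => act (coc y.1) y.2 := by
  have h : Measurable fun w : (ℕ × ℕ) × UnitAddCircle => act (cval w.1) w.2 :=
    measurable_from_prod_countable_right fun k => (continuous_act (cval k)).measurable
  exact h.comp ((measurable_key.comp measurable_fst).prodMk measurable_snd)

theorem measurable_coc_inv : Measurable fun y : Odo × UnitAddCircle => act (dinv (coc y.1)) y.2 := by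
  have h : Measurable fun w : (ℕ × ℕ) × UnitAddCircle => act (dinv (cval w.1)) w.2 :=
    measurable_from_prod_countable_right fun k => (continuous_act (dinv (cval k))).measurable
  exact h.comp ((measurable_key.comp measurable_fst).prodMk measurable_snd)

/-- the phase space -/
abbrev YY : Type := Odo × UnitAddCircle

/-- the invariant probability measure -/
def hY : Measure YY := hX.prod hm

instance : IsProbabilityMeasure hY := by unfold hY; infer_instance

/-- forward map -/
def fwd (y : YY) : YY := (y.1 + natO 1, act (coc y.1) y.2)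

/-- backward map -/
def bwd (y : YY) : YY := (y.1 - natO 1, act (dinv (coc (y.1 - natO 1))) y.2)

theorem measurable_shift (a : Odo) : Measurable fun x : Odo => x + a :=
  (continuous_add_const a).measurable

theorem measurable_fwd : Measurable fwd :=
  ((measurable_shift (natO 1)).comp measurable_fst).prodMk measurable_coc_act

theorem measurable_bwd : Measurable bwd := by
  have h1 : Measurable fun x : Odo => x - natO 1 := by
    simpa only [sub_eq_add_neg] using measurable_shift (-natO 1)
  exact (h1.comp measurable_fst).prodMk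
    (measurable_coc_inv.comp ((h1.comp measurable_fst).prodMk measurable_snd))

theorem bwd_fwd (y : YY) : bwd (fwd y) = y := by
  simp only [bwd, fwd, add_sub_cancel_right, act_dinv_act]

theorem fwd_bwd (y : YY) : fwd (bwd y) = y := by
  simp only [bwd, fwd, sub_add_cancel, act_act_dinv]

/-- the transformation -/
def TT : YY ≃ᵐ YY where
  toFun := fwd
  invFun := bwd
  left_inv := bwd_fwd
  right_inv := fwd_bwd
  measurable_toFun := measurable_fwd
  measurable_invFun := measurable_bwd

theorem TT_apply (y : YY) : TT y = (y.1 + natO 1, act (coc y.1) y.2) := rfl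

theorem measurePreserving_TT : MeasurePreserving TT hY hY :=
  (measurePreserving_add_right hX (natO 1)).skew_product measurable_coc_act
    (Eventually.of_forall fun _ => (measurePreserving_act _).map_eq)

/-- tower coordinates of level `n` -/
def crd (n : ℕ) (y : YY) : ℕ × UnitAddCircle :=
  (pos n y.1, act (dinv (gg n (pos n y.1))) y.2)

theorem coc_act_eq (n : ℕ) (x : Odo) (hn : pos n x + 1 < hh n) (z : UnitAddCircle) :
    act (coc x) z = act (gg n (pos n x + 1)) (act (dinv (gg n (pos n x))) z) := by
  have hle : lev x ≤ n := lev_le n x hn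
  have hmem : pos (lev x) x + 1 < hh (lev x) := lev_mem n x hn
  suffices ∀ m, lev x ≤ m → pos m x + 1 < hh m ∧
      act (coc x) z = act (gg m (pos m x + 1)) (act (dinv (gg m (pos m x))) z) from (this n hle).2
  intro m hm
  induction m, hm using Nat.le_induction with
  | base => exact ⟨hmem, by rw [coc, key, cval, act_dcomp]⟩
  | succ m hm ih =>
    obtain ⟨h1, h2⟩ := ih
    have hmod := pos_succ_mod m x
    have hlt := pos_lt (m + 1) x
    set P := pos (m + 1) x with hP
    have hdecomp := Nat.div_add_mod P (hh m)
    rw [hmod] at hdecomp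
    have hdiv : P / hh m < QQ m := Nat.div_lt_of_lt_mul (by rw [Nat.mul_comm]; exact hlt)
    have hle2 : hh m * (P / hh m + 1) ≤ hh m * QQ m := Nat.mul_le_mul_left _ hdiv
    rw [Nat.mul_add, Nat.mul_one, Nat.mul_comm (hh m) (QQ m), ← hh_succ] at hle2
    refine ⟨by omega, ?_⟩
    have e1 : (P + 1) % hh m = pos m x + 1 := by
      rw [← hdecomp, Nat.add_assoc, Nat.mul_add_mod, Nat.mod_eq_of_lt h1]
    have e2 : (P + 1) / hh m = P / hh m := by
      conv_lhs => rw [← hdecomp, Nat.add_assoc, Nat.mul_add_div (hh_pos m), Nat.div_eq_of_lt h1, Nat.add_zero]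
    rw [gg_succ, gg_succ, e1, e2, hmod, act_dcomp, act_dinv_dcomp, act_act_dinv]
    exact h2

theorem crd_TT (n : ℕ) (y : YY) (hn : pos n y.1 + 1 < hh n) :
    crd n (TT y) = ((crd n y).1 + 1, (crd n y).2) := by
  have hp : pos n (TT y).1 = pos n y.1 + 1 := by
    rw [TT_apply, pos_natO_add, Nat.mod_eq_of_lt hn]
  rw [crd, hp, TT_apply, crd]
  simp only [coc_act_eq n y.1 hn, act_dinv_act]

theorem crd_TT_iterate (n k : ℕ) (y : YY) (hn : pos n y.1 + k < hh n) :
    crd n (TT^[k] y) = ((crd n y).1 + k, (crd n y).2) := by
  induction k generalizing y with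
  | zero => simp
  | succ k ih =>
    have h1 : pos n y.1 + 1 < hh n := by omega
    have h2 := crd_TT n y h1
    have h3 : pos n (TT y).1 = pos n y.1 + 1 := congrArg Prod.fst h2
    rw [Function.iterate_succ_apply, ih (TT y) (by omega), h2]
    simp only [Prod.mk.injEq, and_true]
    omega

theorem crd_eq_crd_succ (n : ℕ) (y : YY) :
    crd n y = ((crd (n + 1) y).1 % hh n,
      act (GG n ((crd (n + 1) y).1 / hh n)) (crd (n + 1) y).2) := by
  simp only [crd, pos_succ_mod, gg_succ, act_dinv_dcomp, act_act_dinv]

/-- the law of the position -/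
def posLaw (n : ℕ) : Measure ℕ := ∑ p ∈ Finset.range (hh n), (hh n : ℝ≥0∞)⁻¹ • Measure.dirac p

theorem map_pos (n : ℕ) : hX.map (pos n) = posLaw n := by
  refine Measure.ext_of_singleton fun p => ?_
  rw [Measure.map_apply (measurable_pos n) (measurableSet_singleton p), posLaw,
    Measure.coe_finsetSum, Finset.sum_apply]
  simp only [Measure.smul_apply, Measure.dirac_apply, smul_eq_mul]
  by_cases hp : p < hh n
  · rw [Finset.sum_eq_single p]
    · simp only [Set.indicator_of_mem (mem_singleton p), Pi.one_apply, mul_one]
      exact hX_fiber n p hp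
    · intro q _ hq; rw [Set.indicator_of_notMem (by simpa using hq), mul_zero]
    · intro h; exact absurd (Finset.mem_range.2 hp) h
  · rw [Finset.sum_eq_zero fun q hq => by
      rw [Set.indicator_of_notMem (by simp only [mem_singleton_iff]; intro h; subst h; exact hp (Finset.mem_range.1 hq)), mul_zero]]
    convert measure_empty (μ := hX)
    ext x
    simp only [mem_preimage, mem_singleton_iff, mem_empty_iff_false, iff_false]
    intro h; exact hp (h ▸ pos_lt n x)

instance (n : ℕ) : IsProbabilityMeasure (posLaw n) := by
  rw [← map_pos]; exact Measure.isProbabilityMeasure_map (measurable_pos n).aemeasurable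

theorem measurePreserving_crd (n : ℕ) : MeasurePreserving (crd n) hY ((posLaw n).prod hm) := by
  have hbase : MeasurePreserving (pos n) hX (posLaw n) := ⟨measurable_pos n, map_pos n⟩
  refine hbase.skew_product (g := fun x z => act (dinv (gg n (pos n x))) z) ?_
    (Eventually.of_forall fun _ => (measurePreserving_act _).map_eq)
  have h : Measurable fun w : ℕ × UnitAddCircle => act (dinv (gg n w.1)) w.2 :=
    measurable_from_prod_countable_right fun k => (continuous_act (dinv (gg n k))).measurable
  exact h.comp (((measurable_pos n).comp measurable_fst).prodMk measurable_snd)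

theorem measurable_crd (n : ℕ) : Measurable (crd n) := (measurePreserving_crd n).measurable

/-- change of variables to tower coordinates -/
theorem integral_crd (n : ℕ) {F : ℕ → UnitAddCircle → ℂ} (hF : ∀ p, Continuous (F p)) :
    ∫ y, F (crd n y).1 (crd n y).2 ∂hY
      = (hh n : ℂ)⁻¹ * ∑ p ∈ Finset.range (hh n), ∫ w, F p w ∂hm := by
  have hm' : StronglyMeasurable (Function.uncurry F) :=
    (measurable_from_prod_countable_right fun p => (hF p).measurable).stronglyMeasurable
  rw [show (fun y => F (crd n y).1 (crd n y).2) = fun y => Function.uncurry F (crd n y) from rfl]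
  rw [← integral_map (measurable_crd n).aemeasurable hm'.aestronglyMeasurable,
    (measurePreserving_crd n).map_eq]
  have hint : Integrable (Function.uncurry F) ((posLaw n).prod hm) := by
    set s : Finset ℕ := Finset.range (hh n) with hs
    choose C hC using fun p => (hF p).bounded_above_of_compact_support (HasCompactSupport.of_compactSpace _)
    refine Integrable.of_bound hm'.aestronglyMeasurable (∑ p ∈ s, |C p|) ?_
    have hae : ∀ᵐ w ∂((posLaw n).prod hm), w.1 < hh n := by
      have hms : MeasurableSet {w : ℕ × UnitAddCircle | w.1 < hh n} :=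
        measurable_fst (MeasurableSet.of_discrete (s := {p : ℕ | p < hh n}))
      rw [← (measurePreserving_crd n).map_eq, ae_map_iff (measurable_crd n).aemeasurable hms]
      exact Eventually.of_forall fun y => pos_lt n y.1
    filter_upwards [hae] with w hw
    exact (hC w.1 w.2).trans ((le_abs_self _).trans
      (Finset.single_le_sum (f := fun p => |C p|) (fun p _ => abs_nonneg _) (Finset.mem_range.2 hw)))
  rw [integral_prod _ hint, posLaw, integral_finsetSum_measure]
  · simp only [integral_smul_measure, integral_dirac, Finset.mul_sum, Function.uncurry_apply_pair]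
    refine Finset.sum_congr rfl fun p _ => ?_
    simp [ENNReal.toReal_inv]
  · intro p hp
    exact (integrable_dirac (by finiteness)).smul_measure
      (ENNReal.inv_ne_top.2 (by simp [(hh_pos n).ne']))

end

end Vale.Agent.P130
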